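import Vale.Agent.P355.Cert.IdentPart

/-
P355: identities that hold when every three-against-three product sum of a matrix and of its
transpose vanishes. A starting state has six distinct rows and one column that meets exactly these
rows, three times with exponent one and three times with exponent minus one; summing over that
column gives zero, so the staged expansion of such a state is again an identity of table values.
-/

open scoped BigOperators ComplexConjugate
open Finset

namespace Vale.Agent.P355.Cert.IdentCT

open Packed Ident

/-- every three-against-three product sum over the columns vanishes -/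
def CT (h : Fin 6 → Fin 6 → ℂ) : Prop :=
  ∀ e : Fin 6 → ℤ, (∀ i, e i = 1 ∨ e i = -1) → ∑ i, e i = 0 → ∑ c, ∏ i, h i c ^ e i = 0

variable {h : Fin 6 → Fin 6 → ℂ}

/-- the product over a list of rows with exponents -/
noncomputable def linProd (h : Fin 6 → Fin 6 → ℂ) : List ℤ → List (Fin 6) → Fin 6 → ℂ
  | e :: es, x :: xs, c => h x c ^ e * linProd h es xs c
  | _, _, _ => 1

/-- the rows of a list split off one column -/
noncomputable def split (h : Fin 6 → Fin 6 → ℂ) : List (ℤ × (Fin 6 → ℂ)) → Fin 6 → List (Fin 6 → ℂ)
  | [], _ => []
  | (e, A) :: l, c => (fun x => A x * h x c ^ e) :: split h l c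

lemma sum_injS_split : ∀ (l : List (ℤ × (Fin 6 → ℂ))) (U : Finset (Fin 6)) (W : Fin 6 → ℂ),
    (∀ xs : List (Fin 6), xs.length = l.length → xs.Nodup → (∀ x ∈ xs, x ∉ U) →
      ∑ c, W c * linProd h (l.map Prod.fst) xs c = 0) →
    ∑ c, W c * injS (split h l c) U = 0
  | [], U, W, hW => by simpa [split, injS, linProd] using hW [] rfl List.nodup_nil (by simp)
  | (e, A) :: l, U, W, hW => by
    simp only [split, injS, Finset.mul_sum]
    rw [Finset.sum_comm]
    refine Finset.sum_eq_zero fun x _ => ?_
    by_cases hx : x ∈ U
    · simp [hx]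
    · have ih := sum_injS_split l (insert x U) (fun c => W c * h x c ^ e) fun xs hl hn hU => by
        have := hW (x :: xs) (by simp [hl])
          (List.nodup_cons.2 ⟨fun hm => hU x hm (Finset.mem_insert_self x U), hn⟩) (by
            intro y hy
            rcases List.mem_cons.1 hy with rfl | hy
            exacts [hx, fun hm => hU y hy (Finset.mem_insert_of_mem hm)])
        simpa [linProd, mul_assoc] using this
      calc _ = A x * ∑ c, W c * h x c ^ e * injS (split h l c) (insert x U) := by
            rw [Finset.mul_sum]
            refine Finset.sum_congr rfl fun c _ => ?_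
            rw [if_neg hx]
            ring
        _ = 0 := by rw [ih, mul_zero]

/-- six distinct rows: the list product is a product over all rows -/
lemma sum_linProd (hC : CT h) (es : List ℤ) (hes : ∀ e ∈ es, e = 1 ∨ e = -1) (h6 : es.length = 6)
    (h0 : es.sum = 0) (xs : List (Fin 6)) (hl : xs.length = 6) (hn : xs.Nodup) :
    ∑ c, linProd h es xs c = 0 := by
  match es, h6, xs, hl with
  | [e0, e1, e2, e3, e4, e5], _, [x0, x1, x2, x3, x4, x5], _ =>
    have hb : Function.Bijective ![x0, x1, x2, x3, x4, x5] := by
      refine (Fintype.bijective_iff_injective_and_card _).2 ⟨?_, rfl⟩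
      have := List.nodup_ofFn.1 (show (List.ofFn ![x0, x1, x2, x3, x4, x5]).Nodup by simpa using hn)
      exact this
    let π := Equiv.ofBijective _ hb
    have := hC (fun i => ![e0, e1, e2, e3, e4, e5] (π.symm i)) (fun i => ?_) ?_
    · refine Eq.trans (Finset.sum_congr rfl fun c _ => ?_) this
      rw [← π.prod_comp]
      simp [linProd, π, Fin.prod_univ_six, mul_assoc]
    · have : ∀ k, ![e0, e1, e2, e3, e4, e5] k ∈ [e0, e1, e2, e3, e4, e5] := fun k => by
        fin_cases k <;> simp
      exact hes _ (this _)
    · rw [← π.sum_comp]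
      simpa [Fin.sum_univ_six, add_assoc] using h0

/-- six distinct rows carrying a balanced column, free rows away from it -/
def ctRow (j : Fin 6) (t : Term) : Bool :=
  (t.inj.all fun r => decide (rowE r j = 1) || decide (rowE r j = -1)) &&
    Nat.beq t.inj.length 6 && decide ((t.inj.map fun r => rowE r j).sum = 0) &&
    (t.free.all fun r => decide (rowE r j = 0))

/-- every starting term has such a column -/
def startCT (L : List Term) : Bool := L.all fun t => (List.finRange 6).any fun j => ctRow j t

lemma fac_update (g : Fin 6 → Fin 6) (j c : Fin 6) (r : ℕ) :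
    fac h (Function.update g j c) r
      = fun x => (∏ k ∈ univ.erase j, h x (g k) ^ rowE r k) * h x c ^ rowE r j := by
  funext x
  rw [fac, ← Finset.mul_prod_erase univ _ (Finset.mem_univ j), Function.update_self, mul_comm]
  refine congrArg (· * _) (Finset.prod_congr rfl fun k hk => ?_)
  rw [Function.update_of_ne (Finset.ne_of_mem_erase hk)]

lemma sum_update (F : (Fin 6 → Fin 6) → ℂ) (j : Fin 6) :
    6 * ∑ g, F g = ∑ g, ∑ c, F (Function.update g j c) := by
  let eq : (Fin 6 → Fin 6) × Fin 6 ≃ (Fin 6 → Fin 6) × Fin 6 :=
    { toFun := fun p => (Function.update p.1 j p.2, p.1 j)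
      invFun := fun p => (Function.update p.1 j p.2, p.1 j)
      left_inv := fun p => by simp
      right_inv := fun p => by simp }
  rw [← Fintype.sum_prod_type']
  change _ = ∑ p, (fun q : (Fin 6 → Fin 6) × Fin 6 => F q.1) (eq p)
  rw [eq.sum_comp fun q => F q.1, Fintype.sum_prod_type]
  simp [Finset.mul_sum]

theorem sum_sVal_zero (hC : CT h) {j : Fin 6} {t : Term} (ht : ctRow j t = true) :
    ∑ g : Fin 6 → Fin 6, sVal h g t.inj t.free = 0 := by
  simp only [ctRow, Bool.and_eq_true, List.all_eq_true, Bool.or_eq_true, decide_eq_true_eq,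
    Nat.beq_eq] at ht
  obtain ⟨⟨⟨hi, h6⟩, h0⟩, hf⟩ := ht
  have key : ∀ g, ∑ c, sVal h (Function.update g j c) t.inj t.free = 0 := by
    intro g
    let l : List (ℤ × (Fin 6 → ℂ)) :=
      t.inj.map fun r => (rowE r j, fun x => ∏ k ∈ univ.erase j, h x (g k) ^ rowE r k)
    have hs : ∀ c, t.inj.map (fac h (Function.update g j c)) = split h l c := by
      intro c
      simp only [l]
      generalize t.inj = I
      induction I with
      | nil => rfl
      | cons r I ih =>
        simp only [List.map_cons, split] at ih ⊢
        rw [ih, fac_update]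
    have hfree : ∀ c, (t.free.map fun r => ∑ x, fac h (Function.update g j c) r x) =
        t.free.map fun r => ∑ x, fac h g r x := by
      intro c
      refine List.map_congr_left fun r hr => Finset.sum_congr rfl fun x _ => ?_
      rw [fac_update]
      dsimp only
      rw [hf r hr, zpow_zero, mul_one, fac, ← Finset.mul_prod_erase univ _ (Finset.mem_univ j),
        hf r hr, zpow_zero, one_mul]
    simp only [sVal, hs, hfree, ← Finset.sum_mul]
    have := sum_injS_split (h := h) l ∅ (fun _ => 1) fun xs hl hn _ => by
      simp only [one_mul]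
      refine sum_linProd hC _ ?_ (by simp [l, h6]) ?_ xs (by simpa [l, h6] using hl) hn
      · intro e he
        simp only [l, List.map_map, List.mem_map, Function.comp_apply] at he
        obtain ⟨r, hr, rfl⟩ := he
        exact hi r hr
      · simpa [l, List.map_map, Function.comp_def] using h0
    simp only [one_mul] at this
    rw [this, zero_mul]
  have := sum_update (fun g => sVal h g t.inj t.free) j
  rw [Finset.sum_eq_zero fun g _ => key g] at this
  exact (mul_eq_zero.1 this).resolve_left (by norm_num)

theorem start_zeroCT (hC : CT h) {L : List Term} (hL : startCT L = true) : lVal h L = 0 := by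
  refine List.sum_eq_zero fun a ha => ?_
  obtain ⟨t, ht, rfl⟩ := List.mem_map.1 ha
  simp only [startCT, List.all_eq_true, List.any_eq_true] at hL
  obtain ⟨j, -, hj⟩ := hL t ht
  rw [tVal, sum_sVal_zero hC hj, mul_zero]

/-- a checked identity under the vanishing hypothesis -/
theorem ident_linCT (hh : InM h) (hC : CT h) (hC' : CT fun i j => h j i)
    {canon : Block.Tree} {J n : ℕ} {start fin : List Term} {qs : List Leaf}
    (hs : startCT start = true) (hl : levels n start = some fin)
    (hq : leavesOK canon J fin qs = true) :
    evalL (Block.tableVal h canon J) (leafTerms J fin qs).1 -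
      evalL (Block.tableVal h canon J) (leafTerms J fin qs).2 = 0 := by
  rw [← leaves_sound hh hq, lSym, levels_sound hh hl, levels_sound hh.transp hl,
    start_zeroCT hC hs, start_zeroCT hC' hs]
  simp

open IdentPart

/-- one chunk of such starting diagrams -/
theorem zero_chunkCT (hh : InM h) (hC : CT h) (hC' : CT fun i j => h j i)
    {canon : Block.Tree} {J J' n wd KE : ℕ} {start fin : List Ident.Term} {qs : List Ident.Leaf}
    (hs : startCT start = true) (hl : Ident.levels n start = some fin)
    (hq : Ident.leavesOK canon (J + J') fin qs = true) {SP SN bP bN : ℕ}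
    (hP : sideOk wd KE bP SP (Ident.leafTerms (J + J') fin qs).1 = true)
    (hN : sideOk wd KE bN SN (Ident.leafTerms (J + J') fin qs).2 = true) :
    Zero (Block.tableVal h canon J) wd KE SP SN bP bN := by
  have e := ident_linCT hh hC hC' hs hl hq
  rw [tableVal_add, IdentPart.evalL_smul, IdentPart.evalL_smul, ← mul_sub, mul_eq_zero] at e
  have h6 : (Real.sqrt 6)⁻¹ ^ J' ≠ 0 := by positivity
  simp only [sideOk, Nat.blt, Bool.and_eq_true, List.all_eq_true, Nat.ble_eq] at hP hN
  exact ⟨_, _, fun q hq => hP.1.1 q hq, fun q hq => hN.1.1 q hq, Nat.eq_of_beq_eq_true hP.1.2,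
    Nat.eq_of_beq_eq_true hN.1.2, Nat.eq_of_beq_eq_true hP.2, Nat.eq_of_beq_eq_true hN.2,
    sub_eq_zero.1 (e.resolve_left h6)⟩

end Vale.Agent.P355.Cert.IdentCT
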