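import Vale.Agent.P355.Cert.TotalBridge
import Vale.Agent.P355.Cert.IdentCT

/-!
P355: a functional that is negative where the three-against-three product sums vanish excludes
seven pairwise unbiased bases with a transition matrix of that kind. The vanishing does not
change when rows and columns are multiplied by nonzero phases, so it passes from the transition
matrix to the thirty dephased matrices.
-/

open scoped InnerProductSpace BigOperators ComplexConjugate
open Finset

namespace Vale.Agent.P355.Cert.CTBridge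

open ZeroTotal IdentCT

/-- multiplying rows and columns keeps the vanishing -/
lemma ct_scale {H : Fin 6 → Fin 6 → ℂ} (hC : CT H) (a b : Fin 6 → ℂ) (hb : ∀ k, b k ≠ 0) :
    CT fun l k => a l * H l k * b k := by
  intro e he h0
  have key : ∀ c, ∏ i, (a i * H i c * b c) ^ e i = (∏ i, a i ^ e i) * ∏ i, H i c ^ e i := by
    intro c
    have : ∀ i, (a i * H i c * b c) ^ e i = a i ^ e i * H i c ^ e i * b c ^ e i := fun i => by
      rw [mul_zpow, mul_zpow]
    simp only [this, Finset.prod_mul_distrib]
    have hprod : ∀ s : Finset (Fin 6), ∏ i ∈ s, b c ^ e i = b c ^ ∑ i ∈ s, e i := by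
      intro s
      induction s using Finset.induction_on with
      | empty => simp
      | insert i s hi ih => rw [prod_insert hi, sum_insert hi, ih, zpow_add₀ (hb c)]
    rw [hprod, h0, zpow_zero, mul_one]
  simp only [key, ← Finset.mul_sum, hC e he h0, mul_zero]

/-- the dephased matrices inherit both vanishing conditions -/
lemma ct_hmat {X : Fin 6 → Fin 6 → Fin 6 → ℂ} (hX : Complete X) (hC : CT (H0 X))
    (hC' : CT fun i j => H0 X j i) (q : Fin 5) (a : Fin 6) :
    CT (hmat (H0 X) (X q.succ a)) ∧ CT fun i j => hmat (H0 X) (X q.succ a) j i := by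
  have hw : ∀ i, conj (X q.succ a i) ≠ 0 := fun i hi => by
    have := hX.unimod q.succ a i
    rw [← Complex.norm_conj, hi] at this
    simp at this
  have hy : ∀ k, yv (H0 X) (X q.succ a) k ≠ 0 := fun k hk => by
    have := yv_unimod (hy_H0 hX q a) k
    rw [hk] at this
    simp at this
  refine ⟨ct_scale hC (fun l => conj (X q.succ a l)) _ hy, ?_⟩
  have h2 := ct_scale hC' (fun k => yv (H0 X) (X q.succ a) k) (fun l => conj (X q.succ a l)) hw
  refine Eq.mp (congrArg CT ?_) h2
  funext i j
  simp only [hmat]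
  ring

/-- the transition matrix of two bases, scaled to unit entries -/
noncomputable def trans (A B : OrthonormalBasis (Fin 6) ℂ (EuclideanSpace ℂ (Fin 6))) (l k : Fin 6) :
    ℂ :=
  (Real.sqrt 6 : ℂ) * ⟪A l, B k⟫_ℂ

/-- no seven pairwise unbiased bases have a transition matrix with both vanishing conditions -/
theorem no_seven {ps : List (Spec × ℤ)} (hok : TotalBridge.specsOk ps = true) {Q : ℕ}
    {posI negI : List TotalBridge.Item}
    (hperm : (posI ++ negI).isPerm (TotalBridge.items ps) = true) {pos neg : List Main.Term}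
    (hp : TotalBridge.matchL Q 1 posI pos = true) (hn : TotalBridge.matchL Q (-1) negI neg = true)
    (hlt : ∀ h, InM h → CT h → CT (fun i j => h j i) →
      (pos.map (Main.Term.val h)).sum < (neg.map (Main.Term.val h)).sum)
    (B : Fin 7 → OrthonormalBasis (Fin 6) ℂ (EuclideanSpace ℂ (Fin 6)))
    (hB : ∀ p q, p ≠ q → ∀ a b, ‖⟪B p a, B q b⟫_ℂ‖ ^ 2 = 1 / 6) (p q : Fin 7) (hpq : p ≠ q) :
    ¬(CT (trans (B p) (B q)) ∧ CT fun i j => trans (B p) (B q) j i) := by
  rintro ⟨hC, hC'⟩
  obtain ⟨σ, h0, h1⟩ : ∃ σ : Equiv.Perm (Fin 7), σ 0 = p ∧ σ 1 = q := by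
    let τ : Equiv.Perm (Fin 7) := Equiv.swap 0 p
    refine ⟨(Equiv.swap 1 (τ.symm q)).trans τ, ?_, by simp⟩
    have hne : (0 : Fin 7) ≠ τ.symm q := fun e => hpq <| by
      have := congrArg τ e
      rw [Equiv.apply_symm_apply, Equiv.swap_apply_left] at this
      exact this
    rw [Equiv.trans_apply, Equiv.swap_apply_of_ne_of_ne (by decide) hne, Equiv.swap_apply_left]
  have hX := complete_seven (fun i => B (σ i)) fun i j hij => hB _ _ fun e => hij (σ.injective e)
  generalize hXd : (fun (r : Fin 6) a i => (Real.sqrt 6 : ℂ) * ⟪B (σ 0) i, B (σ r.succ) a⟫_ℂ)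
    = X at hX
  have eH : H0 X = trans (B p) (B q) := by
    subst hXd
    funext l k
    simp only [H0, trans, h0, show (0 : Fin 6).succ = (1 : Fin 7) from rfl, h1]
  rw [← eH] at hC hC'
  have hF := TotalBridge.zeroTotal_total hok
  have hz := hF.add hF.transpose X hX
  refine absurd hz (ne_of_lt (Finset.sum_neg (fun r _ => Finset.sum_neg (fun a _ => ?_)
    Finset.univ_nonempty) Finset.univ_nonempty))
  obtain ⟨c1, c2⟩ := ct_hmat hX hC hC' r a
  generalize hmat (H0 X) (X r.succ a) = h, inM_H0 hX r a = hh at c1 c2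
  have e1 := TotalBridge.matchL_val hh hp
  have e2 := TotalBridge.matchL_val hh hn
  have e := TotalBridge.total_items (h := h) ps
  rw [← ((List.isPerm_iff.mp hperm).map (TotalBridge.Item.val h)).sum_eq, List.map_append,
    List.sum_append] at e
  have hlt' := hlt h hh c1 c2
  have hQ : (0 : ℝ) < Real.sqrt 6 ^ Q := pow_pos (Real.sqrt_pos.mpr (by norm_num)) Q
  push_cast at e1 e2
  by_contra hc
  have h' : 0 ≤ Real.sqrt 6 ^ Q *
      ((posI.map (TotalBridge.Item.val h)).sum + (negI.map (TotalBridge.Item.val h)).sum) := by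
    rw [← e]
    exact mul_nonneg hQ.le (by linarith [not_lt.mp hc])
  rw [mul_add, e1, e2] at h'
  linarith

end Vale.Agent.P355.Cert.CTBridge
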