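import Vale.Agent.P355.Cert.Pack

/-
P355: the reduction checker on packed matrices, and its soundness.
An operation code is `kind + 8 * (a + 8 * (b + 8 * c))`:
kind 0 deletes row `a` whose only entry is `+1` at column `b`, kind 1 the same with `-1`,
kind 2 deletes column `a` with `+1` at row `b`, kind 3 with `-1`,
kind 4 removes row `a` with `+1` at column `b`, `-1` at column `c` and adds column `c` onto `b`,
kind 5 the same for column `a` and rows `b`, `c`, kind 6 swaps rows `a`, `b`,
kind 7 swaps columns `a`, `b`.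
A hint is `number of operations + 16 * (codes in base 4096)`.
-/

open scoped ComplexConjugate
open Finset

namespace Vale.Agent.P355.Cert

/-- the digit-wise checks for adding two rows -/
def rowSumOK (n rk rl : ℕ) : Bool :=
  (n % 32 + 16 == rk % 32 + rl % 32) &&
  ((n >>> 5) % 32 + 16 == (rk >>> 5) % 32 + (rl >>> 5) % 32) &&
  ((n >>> 10) % 32 + 16 == (rk >>> 10) % 32 + (rl >>> 10) % 32) &&
  ((n >>> 15) % 32 + 16 == (rk >>> 15) % 32 + (rl >>> 15) % 32) &&
  ((n >>> 20) % 32 + 16 == (rk >>> 20) % 32 + (rl >>> 20) % 32) &&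
  ((n >>> 25) % 32 + 16 == (rk >>> 25) % 32 + (rl >>> 25) % 32)

/-- the digit-wise checks for adding two columns -/
def colSumOK (n ck cl : ℕ) : Bool :=
  (n % 32 + 16 == ck % 32 + cl % 32) &&
  ((n >>> 30) % 32 + 16 == (ck >>> 30) % 32 + (cl >>> 30) % 32) &&
  ((n >>> 60) % 32 + 16 == (ck >>> 60) % 32 + (cl >>> 60) % 32) &&
  ((n >>> 90) % 32 + 16 == (ck >>> 90) % 32 + (cl >>> 90) % 32) &&
  ((n >>> 120) % 32 + 16 == (ck >>> 120) % 32 + (cl >>> 120) % 32) &&
  ((n >>> 150) % 32 + 16 == (ck >>> 150) % 32 + (cl >>> 150) % 32)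

/-- a row with one entry `+1` -/
def isPlusR (r b : ℕ) : Bool := r == zeroR + (1 <<< (5 * b))
/-- a row with one entry `-1` -/
def isMinusR (r b : ℕ) : Bool := r + (1 <<< (5 * b)) == zeroR
/-- a row with entries `+1` and `-1` -/
def isPairR (r b c : ℕ) : Bool := r + (1 <<< (5 * c)) == zeroR + (1 <<< (5 * b))
/-- a column with one entry `+1` -/
def isPlusC (r b : ℕ) : Bool := r == zeroC + (1 <<< (30 * b))
/-- a column with one entry `-1` -/
def isMinusC (r b : ℕ) : Bool := r + (1 <<< (30 * b)) == zeroC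
/-- a column with entries `+1` and `-1` -/
def isPairC (r b c : ℕ) : Bool := r + (1 <<< (30 * c)) == zeroC + (1 <<< (30 * b))

/-- evaluate a number before passing it on -/
noncomputable def force {α : Type} (n : ℕ) (k : ℕ → α) : α :=
  Nat.rec (motive := fun _ => α) (k 0) (fun m _ => k (m + 1)) n

lemma force_eq {α : Type} (n : ℕ) (k : ℕ → α) : force n k = k n := by
  cases n <;> rfl

/-- a guarded value -/
def guarded (c : Bool) (v : ℕ × ℕ) : Option (ℕ × ℕ) := bif c then some v else none

/-- one operation: the cost and the new matrix -/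
noncomputable def stepOp (M kind a b c : ℕ) : Option (ℕ × ℕ) :=
  match kind with
  | 0 => guarded (Nat.blt a 6 && Nat.blt b 6 && isPlusR (rowOf M a) b) (1, putRow M a zeroR)
  | 1 => guarded (Nat.blt a 6 && Nat.blt b 6 && isMinusR (rowOf M a) b) (1, putRow M a zeroR)
  | 2 => guarded (Nat.blt a 6 && Nat.blt b 6 && isPlusC (colOf M a) b) (1, putCol M a zeroC)
  | 3 => guarded (Nat.blt a 6 && Nat.blt b 6 && isMinusC (colOf M a) b) (1, putCol M a zeroC)
  | 4 => force (putRow M a zeroR) fun M₁ => force (colOf M₁ b) fun ck => force (colOf M₁ c) fun cl =>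
      force ((ck + cl - zeroC) &&& colMask) fun n =>
      guarded (Nat.blt a 6 && Nat.blt b 6 && Nat.blt c 6 && !(b == c) && isPairR (rowOf M a) b c && colSumOK n ck cl)
        (2, putCol (putCol M₁ b n) c zeroC)
  | 5 => force (putCol M a zeroC) fun M₁ => force (rowOf M₁ b) fun rk => force (rowOf M₁ c) fun rl =>
      force ((rk + rl - zeroR) % 1073741824) fun n =>
      guarded (Nat.blt a 6 && Nat.blt b 6 && Nat.blt c 6 && !(b == c) && isPairC (colOf M a) b c && rowSumOK n rk rl)
        (2, putRow (putRow M₁ b n) c zeroR)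
  | 6 => guarded (Nat.blt a 6 && Nat.blt b 6) (0, putRow (putRow M a (rowOf M b)) b (rowOf M a))
  | 7 => guarded (Nat.blt a 6 && Nat.blt b 6) (0, putCol (putCol M a (colOf M b)) b (colOf M a))
  | _ => none

/-- apply `fuel` operations -/
noncomputable def runOps (fuel : ℕ) : ℕ → ℕ → ℕ → Option (ℕ × ℕ) :=
  Nat.rec (motive := fun _ => ℕ → ℕ → ℕ → Option (ℕ × ℕ)) (fun _ j M => some (j, M))
    (fun _ ih ops j M =>
      (stepOp M (ops % 8) ((ops >>> 3) % 8) ((ops >>> 6) % 8) ((ops >>> 9) % 8)).rec none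
        fun dM => force dM.2 fun M₂ => force (ops >>> 12) fun o => force (j + dM.1) fun j₂ => ih o j₂ M₂) fuel

/-- check that `M` reduces to `T` with cost `j` -/
noncomputable def check (M hint j T : ℕ) : Bool :=
  force M fun M₀ => force (hint % 16) fun f => force (hint >>> 4) fun o =>
    (runOps f o 0 M₀).rec false fun jM => (jM.1 == j) && (jM.2 == T)

lemma rowSumOK_cell {n rk rl : ℕ} (h : rowSumOK n rk rl = true) :
    ∀ j : Fin 6, (n >>> (5 * j.val)) % 32 + 16 = (rk >>> (5 * j.val)) % 32 + (rl >>> (5 * j.val)) % 32 := by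
  simp only [rowSumOK, Bool.and_eq_true, beq_iff_eq] at h
  obtain ⟨⟨⟨⟨⟨h0, h1⟩, h2⟩, h3⟩, h4⟩, h5⟩ := h
  intro j
  fin_cases j
  exacts [h0, h1, h2, h3, h4, h5]

lemma colSumOK_cell {n ck cl : ℕ} (h : colSumOK n ck cl = true) :
    ∀ i : Fin 6, (n >>> (30 * i.val)) % 32 + 16 = (ck >>> (30 * i.val)) % 32 + (cl >>> (30 * i.val)) % 32 := by
  simp only [colSumOK, Bool.and_eq_true, beq_iff_eq] at h
  obtain ⟨⟨⟨⟨⟨h0, h1⟩, h2⟩, h3⟩, h4⟩, h5⟩ := h
  intro i
  fin_cases i
  exacts [h0, h1, h2, h3, h4, h5]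

lemma zeroR_cell (j : Fin 6) : (zeroR >>> (5 * j.val)) % 32 = 16 := by revert j; decide +kernel

lemma zeroC_cell (i : Fin 6) : (zeroC >>> (30 * i.val)) % 32 = 16 := by revert i; decide +kernel

lemma expoOf_putRow (M : ℕ) (i₀ : Fin 6) (v : ℕ) (hv : v < 1073741824) (i j : Fin 6) :
    expoOf (putRow M i₀ v) i j = if i = i₀ then (((v >>> (5 * j.val)) % 32 : ℕ) : ℤ) - 16 else expoOf M i j := by
  simp only [expoOf]
  rw [cellN_putRow M i₀ v i j hv j.isLt]
  by_cases h : i = i₀
  · subst h; simp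
  · simp [h, Fin.val_ne_of_ne h]

lemma expoOf_putCol (M : ℕ) (j₀ : Fin 6) (v : ℕ) (hv : v &&& colMask = v) (i j : Fin 6) :
    expoOf (putCol M j₀ v) i j = if j = j₀ then (((v >>> (30 * i.val)) % 32 : ℕ) : ℤ) - 16 else expoOf M i j := by
  simp only [expoOf]
  rw [cellN_putCol M j₀ v i j hv i.isLt j₀.isLt j.isLt]
  by_cases h : j = j₀
  · subst h; simp
  · simp [h, Fin.val_ne_of_ne h]

lemma expoOf_clearRow (M : ℕ) (i₀ : Fin 6) : expoOf (putRow M i₀ zeroR) = zeroRow (expoOf M) i₀ := by
  funext i j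
  rw [expoOf_putRow M i₀ _ (by decide +kernel), zeroR_cell, zeroRow]
  split <;> simp

lemma expoOf_clearCol (M : ℕ) (j₀ : Fin 6) : expoOf (putCol M j₀ zeroC) = zeroCol (expoOf M) j₀ := by
  funext i j
  rw [expoOf_putCol M j₀ _ (by decide +kernel), zeroC_cell, zeroCol]
  split <;> simp

lemma rowCell (M : ℕ) (i j : Fin 6) : expoOf M i j = (((rowOf M i >>> (5 * j.val)) % 32 : ℕ) : ℤ) - 16 := by
  rw [rowOf_cell M i j j.isLt]; rfl

lemma colCell (M : ℕ) (i j : Fin 6) : expoOf M i j = (((colOf M j >>> (30 * i.val)) % 32 : ℕ) : ℤ) - 16 := by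
  rw [colOf_cell M i j i.isLt]; rfl

lemma plusR_table : ∀ b j : Fin 6, (((zeroR + (1 <<< (5 * b.val))) >>> (5 * j.val)) % 32 : ℕ)
    = if j = b then 17 else 16 := by decide +kernel

lemma minusR_table : ∀ b j : Fin 6, (((zeroR - (1 <<< (5 * b.val))) >>> (5 * j.val)) % 32 : ℕ)
    = if j = b then 15 else 16 := by decide +kernel

lemma pairR_table : ∀ b c j : Fin 6, b ≠ c →
    (((zeroR + (1 <<< (5 * b.val)) - (1 <<< (5 * c.val))) >>> (5 * j.val)) % 32 : ℕ)
    = if j = b then 17 else if j = c then 15 else 16 := by decide +kernel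

lemma plusC_table : ∀ b j : Fin 6, (((zeroC + (1 <<< (30 * b.val))) >>> (30 * j.val)) % 32 : ℕ)
    = if j = b then 17 else 16 := by decide +kernel

lemma minusC_table : ∀ b j : Fin 6, (((zeroC - (1 <<< (30 * b.val))) >>> (30 * j.val)) % 32 : ℕ)
    = if j = b then 15 else 16 := by decide +kernel

lemma pairC_table : ∀ b c j : Fin 6, b ≠ c →
    (((zeroC + (1 <<< (30 * b.val)) - (1 <<< (30 * c.val))) >>> (30 * j.val)) % 32 : ℕ)
    = if j = b then 17 else if j = c then 15 else 16 := by decide +kernel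

lemma stepOp_sound {h : Fin 6 → Fin 6 → ℂ} (hh : InM h) {M kind a b c d M' : ℕ}
    (hs : stepOp M kind a b c = some (d, M')) :
    homM h (expoOf M) = s6⁻¹ ^ d * homM h (expoOf M') := by
  match kind with
  | 0 =>
    simp only [stepOp, guarded, force_eq, cond_eq_if] at hs
    split at hs
    · rename_i hc
      simp only [isPlusR, Bool.and_eq_true, Nat.blt_eq, beq_iff_eq] at hc
      obtain ⟨⟨ha, hb⟩, hr⟩ := hc
      obtain ⟨rfl, rfl⟩ := Prod.mk.injEq .. ▸ Option.some.inj hs
      rw [pow_one, show putRow M a zeroR = putRow M (⟨a, ha⟩ : Fin 6).val zeroR from rfl, expoOf_clearRow]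
      refine homM_del hh _ ⟨a, ha⟩ ⟨b, hb⟩ 1 (Or.inl rfl) fun j => ?_
      rw [rowCell, hr]
      have := plusR_table ⟨b, hb⟩ j
      simp only at this
      rw [this]
      split <;> simp
    · simp at hs
  | 1 =>
    simp only [stepOp, guarded, force_eq, cond_eq_if] at hs
    split at hs
    · rename_i hc
      simp only [isMinusR, Bool.and_eq_true, Nat.blt_eq, beq_iff_eq] at hc
      obtain ⟨⟨ha, hb⟩, hr⟩ := hc
      obtain ⟨rfl, rfl⟩ := Prod.mk.injEq .. ▸ Option.some.inj hs
      rw [pow_one, show putRow M a zeroR = putRow M (⟨a, ha⟩ : Fin 6).val zeroR from rfl, expoOf_clearRow]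
      refine homM_del hh _ ⟨a, ha⟩ ⟨b, hb⟩ (-1) (Or.inr rfl) fun j => ?_
      rw [rowCell, Nat.eq_sub_of_add_eq hr]
      have := minusR_table ⟨b, hb⟩ j
      simp only at this
      rw [this]
      split <;> simp
    · simp at hs
  | 2 =>
    simp only [stepOp, guarded, force_eq, cond_eq_if] at hs
    split at hs
    · rename_i hc
      simp only [isPlusC, Bool.and_eq_true, Nat.blt_eq, beq_iff_eq] at hc
      obtain ⟨⟨ha, hb⟩, hr⟩ := hc
      obtain ⟨rfl, rfl⟩ := Prod.mk.injEq .. ▸ Option.some.inj hs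
      rw [pow_one, show putCol M a zeroC = putCol M (⟨a, ha⟩ : Fin 6).val zeroC from rfl, expoOf_clearCol]
      refine homM_delC hh _ ⟨a, ha⟩ ⟨b, hb⟩ 1 (Or.inl rfl) fun j => ?_
      rw [colCell, hr]
      have := plusC_table ⟨b, hb⟩ j
      simp only at this
      rw [this]
      split <;> simp
    · simp at hs
  | 3 =>
    simp only [stepOp, guarded, force_eq, cond_eq_if] at hs
    split at hs
    · rename_i hc
      simp only [isMinusC, Bool.and_eq_true, Nat.blt_eq, beq_iff_eq] at hc
      obtain ⟨⟨ha, hb⟩, hr⟩ := hc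
      obtain ⟨rfl, rfl⟩ := Prod.mk.injEq .. ▸ Option.some.inj hs
      rw [pow_one, show putCol M a zeroC = putCol M (⟨a, ha⟩ : Fin 6).val zeroC from rfl, expoOf_clearCol]
      refine homM_delC hh _ ⟨a, ha⟩ ⟨b, hb⟩ (-1) (Or.inr rfl) fun j => ?_
      rw [colCell, Nat.eq_sub_of_add_eq hr]
      have := minusC_table ⟨b, hb⟩ j
      simp only at this
      rw [this]
      split <;> simp
    · simp at hs
  | 4 =>
    simp only [stepOp, guarded, force_eq, cond_eq_if] at hs
    split at hs
    · rename_i hc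
      simp only [isPairR, Bool.and_eq_true, Nat.blt_eq, beq_iff_eq, Bool.not_eq_true', beq_eq_false_iff_ne] at hc
      obtain ⟨⟨⟨⟨⟨ha, hb⟩, hc'⟩, hbc⟩, hr⟩, hok⟩ := hc
      obtain ⟨rfl, rfl⟩ := Prod.mk.injEq .. ▸ Option.some.inj hs
      have hne : (⟨b, hb⟩ : Fin 6) ≠ ⟨c, hc'⟩ := fun e => hbc (congrArg Fin.val e)
      rw [homM_merge hh _ ⟨a, ha⟩ ⟨b, hb⟩ ⟨c, hc'⟩ hne fun j => ?_]
      · congr 2
        rw [← expoOf_clearRow]
        funext i j
        set M₁ := putRow M a zeroR
        set n := (colOf M₁ b + colOf M₁ c - zeroC) &&& colMask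
        have hn : n &&& colMask = n := by simp only [n, Nat.and_assoc, Nat.and_self]
        have hz : zeroC &&& colMask = zeroC := by decide +kernel
        have e₂ := expoOf_putCol (putCol M₁ b n) ⟨c, hc'⟩ zeroC hz i j
        have e₁ := expoOf_putCol M₁ ⟨b, hb⟩ n hn i j
        simp only at e₁ e₂
        have hsum := colSumOK_cell hok i
        have kb := colCell M₁ i ⟨b, hb⟩
        have kc := colCell M₁ i ⟨c, hc'⟩
        simp only at kb kc
        rw [e₂, zeroC_cell, e₁, addCol]
        split_ifs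
        all_goals omega
      · rw [rowCell, Nat.eq_sub_of_add_eq hr]
        have := pairR_table ⟨b, hb⟩ ⟨c, hc'⟩ j hne
        simp only at this
        rw [this]
        split_ifs <;> simp
    · simp at hs
  | 5 =>
    simp only [stepOp, guarded, force_eq, cond_eq_if] at hs
    split at hs
    · rename_i hc
      simp only [isPairC, Bool.and_eq_true, Nat.blt_eq, beq_iff_eq, Bool.not_eq_true', beq_eq_false_iff_ne] at hc
      obtain ⟨⟨⟨⟨⟨ha, hb⟩, hc'⟩, hbc⟩, hr⟩, hok⟩ := hc
      obtain ⟨rfl, rfl⟩ := Prod.mk.injEq .. ▸ Option.some.inj hs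
      have hne : (⟨b, hb⟩ : Fin 6) ≠ ⟨c, hc'⟩ := fun e => hbc (congrArg Fin.val e)
      rw [homM_mergeC hh _ ⟨a, ha⟩ ⟨b, hb⟩ ⟨c, hc'⟩ hne fun j => ?_]
      · congr 2
        rw [← expoOf_clearCol]
        funext i j
        set M₁ := putCol M a zeroC
        set n := (rowOf M₁ b + rowOf M₁ c - zeroR) % 1073741824
        have hn : n < 1073741824 := Nat.mod_lt _ (by norm_num)
        have hz : zeroR < 1073741824 := by decide +kernel
        have e₂ := expoOf_putRow (putRow M₁ b n) ⟨c, hc'⟩ zeroR hz i j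
        have e₁ := expoOf_putRow M₁ ⟨b, hb⟩ n hn i j
        simp only at e₁ e₂
        have hsum := rowSumOK_cell hok j
        have kb := rowCell M₁ ⟨b, hb⟩ j
        have kc := rowCell M₁ ⟨c, hc'⟩ j
        simp only at kb kc
        rw [e₂, zeroR_cell, e₁, addRow]
        split_ifs
        all_goals omega
      · rw [colCell, Nat.eq_sub_of_add_eq hr]
        have := pairC_table ⟨b, hb⟩ ⟨c, hc'⟩ j hne
        simp only at this
        rw [this]
        split_ifs <;> simp
    · simp at hs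
  | 6 =>
    simp only [stepOp, guarded, force_eq, cond_eq_if] at hs
    split at hs
    · rename_i hc
      simp only [Bool.and_eq_true, Nat.blt_eq] at hc
      obtain ⟨ha, hb⟩ := hc
      obtain ⟨rfl, rfl⟩ := Prod.mk.injEq .. ▸ Option.some.inj hs
      rw [pow_zero, one_mul, ← homM_perm (expoOf M) (Equiv.swap ⟨a, ha⟩ ⟨b, hb⟩) (Equiv.refl _)]
      congr 1
      funext i j
      have e₂ := expoOf_putRow (putRow M a (rowOf M b)) ⟨b, hb⟩ _ (rowOf_lt M a) i j
      have e₁ := expoOf_putRow M ⟨a, ha⟩ _ (rowOf_lt M b) i j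
      simp only at e₁ e₂
      have ka := rowCell M ⟨a, ha⟩ j
      have kb := rowCell M ⟨b, hb⟩ j
      simp only at ka kb
      rw [e₂, e₁, Equiv.refl_apply, Equiv.swap_apply_def]
      split_ifs
      all_goals first
        | exact kb
        | exact ka
        | rfl
        | (subst_vars; exact ka)
        | (subst_vars; rename_i hab; obtain rfl := congrArg Fin.val hab; exact ka)
    · simp at hs
  | 7 =>
    simp only [stepOp, guarded, force_eq, cond_eq_if] at hs
    split at hs
    · rename_i hc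
      simp only [Bool.and_eq_true, Nat.blt_eq] at hc
      obtain ⟨ha, hb⟩ := hc
      obtain ⟨rfl, rfl⟩ := Prod.mk.injEq .. ▸ Option.some.inj hs
      rw [pow_zero, one_mul, ← homM_perm (expoOf M) (Equiv.refl _) (Equiv.swap ⟨a, ha⟩ ⟨b, hb⟩)]
      congr 1
      funext i j
      have e₂ := expoOf_putCol (putCol M a (colOf M b)) ⟨b, hb⟩ _ (colOf_and M a) i j
      have e₁ := expoOf_putCol M ⟨a, ha⟩ _ (colOf_and M b) i j
      simp only at e₁ e₂
      have ka := colCell M i ⟨a, ha⟩
      have kb := colCell M i ⟨b, hb⟩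
      simp only at ka kb
      rw [e₂, e₁, Equiv.refl_apply, Equiv.swap_apply_def]
      split_ifs
      all_goals first
        | exact kb
        | exact ka
        | rfl
        | (subst_vars; exact ka)
        | (subst_vars; rename_i hab; obtain rfl := congrArg Fin.val hab; exact ka)
    · simp at hs
  | _ + 8 => simp [stepOp] at hs

lemma runOps_sound {h : Fin 6 → Fin 6 → ℂ} (hh : InM h) : ∀ (fuel ops j M j' M' : ℕ),
    runOps fuel ops j M = some (j', M') →
    s6⁻¹ ^ j * homM h (expoOf M) = s6⁻¹ ^ j' * homM h (expoOf M')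
  | 0, ops, j, M, j', M', hr => by
    change some (j, M) = some (j', M') at hr
    simp only [Option.some.injEq, Prod.mk.injEq] at hr
    rw [hr.1, hr.2]
  | fuel + 1, ops, j, M, j', M', hr => by
    change (stepOp M (ops % 8) ((ops >>> 3) % 8) ((ops >>> 6) % 8) ((ops >>> 9) % 8)).rec none
      (fun dM => force dM.2 fun M₂ => force (ops >>> 12) fun o => force (j + dM.1) fun j₂ =>
        runOps fuel o j₂ M₂) = some (j', M') at hr
    cases hs : stepOp M (ops % 8) ((ops >>> 3) % 8) ((ops >>> 6) % 8) ((ops >>> 9) % 8) with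
    | none => rw [hs] at hr; simp at hr
    | some dM =>
      obtain ⟨d, M₁⟩ := dM
      rw [hs] at hr
      simp only [force_eq] at hr
      rw [stepOp_sound hh hs, ← mul_assoc, ← pow_add]
      exact runOps_sound hh fuel _ _ _ _ _ hr

/-- soundness of the checker -/
theorem check_sound {h : Fin 6 → Fin 6 → ℂ} (hh : InM h) {M hint j T : ℕ} (hc : check M hint j T = true) :
    homM h (expoOf M) = s6⁻¹ ^ j * homM h (expoOf T) := by
  simp only [check, force_eq] at hc
  cases hr : runOps (hint % 16) (hint >>> 4) 0 M with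
  | none => rw [hr] at hc; simp at hc
  | some jM =>
    obtain ⟨j', M'⟩ := jM
    rw [hr] at hc
    simp only [Bool.and_eq_true, beq_iff_eq] at hc
    obtain ⟨rfl, rfl⟩ := hc
    simpa using runOps_sound hh _ _ _ _ _ _ hr

/-- soundness for the symmetrised moment -/
theorem check_sym {h : Fin 6 → Fin 6 → ℂ} (hh : InM h) {M hint j T : ℕ} (hc : check M hint j T = true) :
    symM h (expoOf M) = (Real.sqrt 6)⁻¹ ^ j * symM h (expoOf T) := by
  have e : (s6⁻¹ : ℂ) ^ j = (((Real.sqrt 6)⁻¹ ^ j : ℝ) : ℂ) := by simp [s6]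
  unfold symM
  rw [check_sound hh hc, check_sound hh.transp hc, e, Complex.re_ofReal_mul, Complex.re_ofReal_mul, mul_add]

/-- one cell of a variant test: `v` is the cell of the source -/
def variantCell (v v' : ℕ) (neg : Bool) : Bool :=
  Nat.beq v' (bif neg then Nat.sub 32 v else v) && Nat.ble 1 v

/-- `T'` is `T` transposed and/or negated (a plain recursor over the 36 cells) -/
noncomputable def isVariant (T T' : ℕ) (tr neg : Bool) : Bool :=
  force T fun T => force T' fun T' => Nat.rec (motive := fun _ => Bool) true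
    (fun k r => variantCell (cellN T (bif tr then k % 6 else k / 6) (bif tr then k / 6 else k % 6))
      (cellN T' (k / 6) (k % 6)) neg && r) 36

lemma allRec_get (f : ℕ → Bool) : ∀ {n : ℕ},
    Nat.rec (motive := fun _ => Bool) true (fun k r => f k && r) n = true → ∀ k < n, f k = true := by
  intro n
  induction n with
  | zero => intro _ k hk; exact absurd hk (Nat.not_lt_zero k)
  | succ n ih =>
    intro hr k hk
    simp only [Bool.and_eq_true] at hr
    rcases Nat.lt_succ_iff_lt_or_eq.mp hk with hlt | rfl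
    · exact ih hr.2 k hlt
    · exact hr.1

lemma isVariant_sound {h : Fin 6 → Fin 6 → ℂ} (hh : InM h) {T T' : ℕ} {tr neg : Bool}
    (hv : isVariant T T' tr neg = true) : symM h (expoOf T') = symM h (expoOf T) := by
  simp only [isVariant, force_eq] at hv
  have hcell : ∀ i j : Fin 6, expoOf T' i j = (if neg then -1 else 1) *
      (if tr then expoOf T j i else expoOf T i j) := by
    intro i j
    have hk := allRec_get (fun k => variantCell (cellN T (bif tr then k % 6 else k / 6)
      (bif tr then k / 6 else k % 6)) (cellN T' (k / 6) (k % 6)) neg) (n := 36) hv (6 * i.val + j.val) (by omega)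
    simp only [show (6 * i.val + j.val) / 6 = i.val by omega,
      show (6 * i.val + j.val) % 6 = j.val by omega, variantCell, Bool.and_eq_true, Nat.ble_eq] at hk
    have h1 := Nat.eq_of_beq_eq_true hk.1
    have h2 := hk.2
    cases tr <;> cases neg <;> simp only [if_true, if_false, Bool.false_eq_true, cond_true, cond_false, expoOf] at h1 h2 ⊢
    all_goals have := Nat.mod_lt (T >>> (5 * (6 * i.val + j.val))) (show 32 > 0 by norm_num)
    all_goals have := Nat.mod_lt (T >>> (5 * (6 * j.val + i.val))) (show 32 > 0 by norm_num)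
    all_goals simp only [cellN, Nat.sub_eq] at h1 h2 ⊢
    all_goals omega
  cases tr <;> cases neg <;> simp only [if_true, if_false, Bool.false_eq_true, one_mul, neg_one_mul] at hcell
  · congr 1; funext i j; exact hcell i j
  · rw [← symM_neg hh (expoOf T)]; congr 1; funext i j; exact hcell i j
  · rw [← symM_transp (h := h) (expoOf T)]; congr 1; funext i j; exact hcell i j
  · rw [← symM_transp (h := h) (expoOf T), ← symM_neg hh fun i j => expoOf T j i]
    congr 1; funext i j; exact hcell i j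

/-- check pairs `(a, b)` for all `b < n`, where `PA` is the packed first flag -/
noncomputable def rowOK (PA : ℕ) (PB T idx cost hint : ℕ → ℕ) (n : ℕ) : Bool :=
  Nat.rec (motive := fun _ => Bool) true
    (fun b r => force b fun b => check (PA + PB b - zeroM) (hint b) (cost b) (T (idx b)) && r) n

lemma rowOK_get {PA : ℕ} {PB T idx cost hint : ℕ → ℕ} : ∀ {n : ℕ},
    rowOK PA PB T idx cost hint n = true → ∀ b < n,
      check (PA + PB b - zeroM) (hint b) (cost b) (T (idx b)) = true := by
  intro n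
  induction n with
  | zero => intro _ b hb; exact absurd hb (Nat.not_lt_zero b)
  | succ n ih =>
    intro hr b hb
    have e : rowOK PA PB T idx cost hint (n + 1) = (force n fun b =>
        check (PA + PB b - zeroM) (hint b) (cost b) (T (idx b)) && rowOK PA PB T idx cost hint n) := rfl
    rw [e, force_eq, Bool.and_eq_true] at hr
    rcases Nat.lt_succ_iff_lt_or_eq.mp hb with hlt | rfl
    · exact ih hr.2 b hlt
    · exact hr.1

/-- every exponent of a flag is at most seven in absolute value -/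
def Small (p : Fin 4 → Fin 3 → ℤ) : Prop := ∀ a b, |p a b| ≤ 7

lemma place_small {r : Fin 6 → Option (Fin 4)} {c : Fin 6 → Option (Fin 3)} {p : Fin 4 → Fin 3 → ℤ}
    (hp : Small p) (i j : Fin 6) : |place r c p i j| ≤ 7 := by
  unfold place
  cases r i <;> cases c j <;> simp [hp _ _]

/-- the packed glued matrix -/
lemma expoOf_glue {p q : Fin 4 → Fin 3 → ℤ} (hp : Small p) (hq : Small q) {PA PB : ℕ}
    (hA : PA = packE (place rowA colA p)) (hB : PB = packE fun i j => -place rowB colB q i j) :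
    expoOf (PA + PB - zeroM) = glueM p q := by
  rw [hA, hB, ← packE_sub _ _ (place_small hp) (place_small hq), expoOf_packE]
  · rfl
  · intro i j
    have h1 := abs_le.mp (place_small (r := rowA) (c := colA) hp i j)
    have h2 := abs_le.mp (place_small (r := rowB) (c := colB) hq i j)
    rw [abs_le]; constructor <;> omega

/-- a pair of flags verified by `check` -/
theorem glue_sym {h : Fin 6 → Fin 6 → ℂ} (hh : InM h) {p q : Fin 4 → Fin 3 → ℤ} (hp : Small p)
    (hq : Small q) {PA PB hint j T : ℕ} (hA : PA = packE (place rowA colA p))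
    (hB : PB = packE fun i j => -place rowB colB q i j) (hc : check (PA + PB - zeroM) hint j T = true) :
    symM h (glueM p q) = (Real.sqrt 6)⁻¹ ^ j * symM h (expoOf T) := by
  rw [← expoOf_glue hp hq hA hB]
  exact check_sym hh hc

lemma sum_move {ι κ : Type*} [Fintype ι] [Fintype κ] (F : κ → Fin 6 → Fin 6 → Fin 6 → ι → ι → ℂ) :
    ∑ a, ∑ b, ∑ u, ∑ v, ∑ w, ∑ k, F k u v w a b = ∑ k, ∑ u, ∑ v, ∑ w, ∑ a, ∑ b, F k u v w a b := by
  let e : ι × ι × Fin 6 × Fin 6 × Fin 6 × κ ≃ κ × Fin 6 × Fin 6 × Fin 6 × ι × ι :=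
    { toFun := fun ⟨a, b, u, v, w, k⟩ => ⟨k, u, v, w, a, b⟩
      invFun := fun ⟨k, u, v, w, a, b⟩ => ⟨a, b, u, v, w, k⟩
      left_inv := fun _ => rfl
      right_inv := fun _ => rfl }
  have h1 := Fintype.sum_equiv e (fun x => F x.2.2.2.2.2 x.2.2.1 x.2.2.2.1 x.2.2.2.2.1 x.1 x.2.1)
    (fun y => F y.1 y.2.1 y.2.2.1 y.2.2.2.1 y.2.2.2.2.1 y.2.2.2.2.2) fun _ => rfl
  simpa only [Fintype.sum_prod_type] using h1

lemma re_quad_nonneg {ι κ : Type*} [Fintype ι] [Fintype κ] (h : Fin 6 → Fin 6 → ℂ) (hh : InM h)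
    (p : ι → Fin 4 → Fin 3 → ℤ) (x : κ → ι → ℝ) :
    0 ≤ ∑ a, ∑ b, (∑ k, x k a * x k b) * (homM h (glueM (p a) (p b))).re := by
  have key : ∑ a, ∑ b, ((∑ k, x k a * x k b : ℝ) : ℂ) * homM h (glueM (p a) (p b))
      = 6 * ∑ k, ∑ u, ∑ v, ∑ w, ((Complex.normSq (∑ a, (x k a : ℂ) * flagM h (p a) u v w) : ℝ) : ℂ) := by
    have e : ∀ k u v w, ((Complex.normSq (∑ a, (x k a : ℂ) * flagM h (p a) u v w) : ℝ) : ℂ)
        = ∑ a, ∑ b, ((x k a * x k b : ℝ) : ℂ) * (flagM h (p a) u v w * conj (flagM h (p b) u v w)) := by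
      intro k u v w
      rw [← Complex.mul_conj, map_sum, Finset.sum_mul_sum]
      refine Finset.sum_congr rfl fun a _ => Finset.sum_congr rfl fun b _ => ?_
      rw [map_mul, Complex.conj_ofReal, Complex.ofReal_mul]
      ring
    simp only [e, ← flag_mul_conj hh, Complex.ofReal_sum, Finset.mul_sum, Finset.sum_mul]
    refine Eq.trans ?_ (sum_move _)
    exact Finset.sum_congr rfl fun a _ => Finset.sum_congr rfl fun b _ =>
      Finset.sum_congr rfl fun u _ => Finset.sum_congr rfl fun v _ => Finset.sum_congr rfl fun w _ =>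
        Finset.sum_congr rfl fun k _ => by ring
  have hre := congrArg Complex.re key
  simp only [Complex.re_sum, Complex.re_ofReal_mul] at hre
  rw [hre]
  simp only [← Complex.ofReal_sum]
  rw [show (6 : ℂ) = ((6 : ℝ) : ℂ) by norm_num, ← Complex.ofReal_mul, Complex.ofReal_re]
  exact mul_nonneg (by norm_num) (Finset.sum_nonneg fun k _ => Finset.sum_nonneg fun u _ =>
    Finset.sum_nonneg fun v _ => Finset.sum_nonneg fun w _ => Complex.normSq_nonneg _)

/-- the sums of squares are nonnegative -/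
theorem sosM_nonneg {ι κ : Type*} [Fintype ι] [Fintype κ] {h : Fin 6 → Fin 6 → ℂ} (hh : InM h)
    (p : ι → Fin 4 → Fin 3 → ℤ) (x : κ → ι → ℝ) :
    0 ≤ ∑ a, ∑ b, (∑ k, x k a * x k b) * symM h (glueM (p a) (p b)) := by
  have h1 := re_quad_nonneg h hh p x
  have h2 := re_quad_nonneg _ hh.transp p x
  simp only [symM, mul_add, Finset.sum_add_distrib]
  exact add_nonneg h1 h2

/-- the same with nonnegative powers of the square root, relative to a fixed top power `J` -/
theorem glue_sym_pos {h : Fin 6 → Fin 6 → ℂ} (hh : InM h) {p q : Fin 4 → Fin 3 → ℤ} (hp : Small p)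
    (hq : Small q) {PA PB hint j T J : ℕ} (hA : PA = packE (place rowA colA p))
    (hB : PB = packE fun i j => -place rowB colB q i j) (hj : j ≤ J)
    (hc : check (PA + PB - zeroM) hint j T = true) :
    symM h (glueM p q) = Real.sqrt 6 ^ (J - j) * ((Real.sqrt 6)⁻¹ ^ J * symM h (expoOf T)) := by
  have h6 : Real.sqrt 6 ≠ 0 := Real.sqrt_ne_zero'.mpr (by norm_num)
  have hpow : (Real.sqrt 6)⁻¹ ^ j = Real.sqrt 6 ^ (J - j) * (Real.sqrt 6)⁻¹ ^ J := by
    obtain ⟨k, rfl⟩ := Nat.exists_eq_add_of_le hj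
    rw [Nat.add_sub_cancel_left, inv_pow, inv_pow, pow_add, mul_inv]
    field_simp
  rw [← mul_assoc, ← hpow]
  exact glue_sym hh hp hq hA hB hc

end Vale.Agent.P355.Cert
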