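import Vale.Agent.P355.Cert.Packed
import Vale.Agent.P355.Cert.Check

/-
P355: one block of the certificate. The pair codes of the packed Gram factor are linked to the
reduction checker: every glued pair of flags reduces to an entry of a table of raw reduced matrices,
and every raw entry is a relabelled variant of a canonical table entry.
-/

open Finset

namespace Vale.Agent.P355.Cert.Block

open Packed

/-- a table stored as a binary tree, indexed by the bits from the lowest one -/
inductive Tree where
  | leaf (t k : ℕ)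
  | node (l r : Tree)

/-- entry lookup: the packed matrix and an index (a plain recursor) -/
noncomputable def Tree.get (T : Tree) : ℕ → ℕ × ℕ :=
  Tree.rec (motive := fun _ => ℕ → ℕ × ℕ) (fun t k _ => (t, k))
    (fun _ _ gl gr i => bif Nat.beq (Nat.mod i 2) 0 then gl (Nat.div i 2) else gr (Nat.div i 2)) T

/-- data of one flag: cells, both placements, packed raw indices and packed hints of its row -/
structure FlagData where
  cells : ℕ
  pa : ℕ
  pb : ℕ
  raws : ℕ
  hints : ℕ

/-- the exponents of a flag -/
def flagOf (F : ℕ) : Fin 4 → Fin 3 → ℤ :=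
  fun a b => (((F >>> (4 * (3 * a.val + b.val))) % 16 % 15 : ℕ) : ℤ) - 7

lemma flagOf_small (F : ℕ) : Small (flagOf F) := fun a b => by
  have := Nat.mod_lt (F >>> (4 * (3 * a.val + b.val)) % 16) (show 15 > 0 by norm_num)
  simp only [flagOf, abs_le]
  omega

/-- sizes of the linking data -/
structure Link where
  rb : ℕ   -- bits of a raw index
  nraw : ℕ -- number of raw entries
  hw : ℕ   -- bits of a hint
  top : ℕ  -- the top power of the square root of six

/-- the placements of a flag are right -/
def prepOK (d : FlagData) : Bool :=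
  Nat.beq d.pa (packE (place rowA colA (flagOf d.cells)))
    && Nat.beq d.pb (packE fun i j => -place rowB colB (flagOf d.cells) i j)

/-- one pair -/
noncomputable def pairOK (p : Par) (lk : Link) (raw : Tree) (PA PB code r hint : ℕ) : Bool :=
  Nat.ble (jOf p code) lk.top && Nat.blt r lk.nraw && Nat.beq (raw.get r).2 (iOf p code)
    && check (PA + PB - zeroM) hint (lk.top - jOf p code) (raw.get r).1

/-- one row of pairs -/
noncomputable def rowPairs (p : Par) (lk : Link) (raw : Tree) (PA : ℕ) (ys : List FlagData) :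
    ℕ → ℕ → ℕ → Bool :=
  List.rec (motive := fun _ => ℕ → ℕ → ℕ → Bool) (fun _ _ _ => true)
    (fun y _ ih C R H =>
      pairOK p lk raw PA y.pb (C % 2 ^ p.cb) (R % 2 ^ lk.rb) (H % 2 ^ lk.hw)
        && ih (C >>> p.cb) (R >>> lk.rb) (H >>> lk.hw)) ys

lemma rowPairs_cons (p : Par) (lk : Link) (raw : Tree) (PA : ℕ) (y : FlagData) (ys : List FlagData)
    (C R H : ℕ) :
    rowPairs p lk raw PA (y :: ys) C R H =
      (pairOK p lk raw PA y.pb (C % 2 ^ p.cb) (R % 2 ^ lk.rb) (H % 2 ^ lk.hw)
        && rowPairs p lk raw PA ys (C >>> p.cb) (R >>> lk.rb) (H >>> lk.hw)) := rfl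

/-- the first `m` rows -/
noncomputable def rowsPairs (p : Par) (lk : Link) (raw : Tree) :
    ℕ → List FlagData → List (ℕ × ℕ) → Bool
  | 0, _, _ => true
  | m + 1, x :: xs, l :: ls =>
    rowPairs p lk raw x.pa (x :: xs) l.2 x.raws x.hints && rowsPairs p lk raw m xs ls
  | _ + 1, _, _ => false

/-- rows `s` to `s + m` -/
noncomputable def chunkPairs (p : Par) (lk : Link) (raw : Tree) (fs : List FlagData)
    (L : List (ℕ × ℕ)) (s m : ℕ) : Bool :=
  rowsPairs p lk raw m (fs.drop s) (L.drop s)

/-- raw entries from index `i` on: hint, variant, transposed, negated -/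
noncomputable def rawsOK (raw canon : Tree) : List (ℕ × ℕ × Bool × Bool) → ℕ → Bool
  | [], _ => true
  | q :: qs, i =>
    check (raw.get i).1 q.1 0 q.2.1
      && isVariant (canon.get (raw.get i).2).1 q.2.1 q.2.2.1 q.2.2.2
      && rawsOK raw canon qs (i + 1)

/-- the value attached to a canonical index -/
noncomputable def tableVal (h : Fin 6 → Fin 6 → ℂ) (canon : Tree) (J k : ℕ) : ℝ :=
  (Real.sqrt 6)⁻¹ ^ J * symM h (expoOf (canon.get k).1)

lemma rowPairs_get (p : Par) (lk : Link) (raw : Tree) (PA : ℕ) :
    ∀ (ys : List FlagData) (C R H : ℕ), rowPairs p lk raw PA ys C R H = true →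
    ∀ (j : ℕ) (hj : j < ys.length),
      pairOK p lk raw PA (ys[j]).pb ((C >>> (p.cb * j)) % 2 ^ p.cb)
        ((R >>> (lk.rb * j)) % 2 ^ lk.rb) ((H >>> (lk.hw * j)) % 2 ^ lk.hw) = true
  | [], _, _, _, _, j, hj => by simp at hj
  | y :: ys, C, R, H, h, j, hj => by
    simp only [rowPairs_cons, Bool.and_eq_true] at h
    rcases j with _ | j
    · simpa using h.1
    · have := rowPairs_get p lk raw PA ys _ _ _ h.2 j (by simpa using hj)
      rw [← Nat.shiftRight_add, ← Nat.shiftRight_add, ← Nat.shiftRight_add] at this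
      simpa [Nat.mul_succ, add_comm] using this

/-- every pair of the rows in a range is certified -/
def Good (p : Par) (lk : Link) (raw : Tree) (fs : List FlagData) (L : List (ℕ × ℕ)) (s e : ℕ) :
    Prop :=
  ∀ a b, s ≤ a → a < e → a ≤ b → ∀ (ha : a < fs.length) (hb : b < fs.length),
    ∃ r hint, pairOK p lk raw (fs[a]).pa (fs[b]).pb (codeAt p L a b) r hint = true

lemma rowsPairs_good (p : Par) (lk : Link) (raw : Tree) :
    ∀ (m : ℕ) (fs : List FlagData) (L : List (ℕ × ℕ)), rowsPairs p lk raw m fs L = true →
      Good p lk raw fs L 0 m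
  | 0, _, _, _ => fun a b _ h => absurd h (Nat.not_lt_zero a)
  | m + 1, [], _, h => by simp [rowsPairs] at h
  | m + 1, _ :: _, [], h => by simp [rowsPairs] at h
  | m + 1, x :: xs, l :: ls, h => by
    simp only [rowsPairs, Bool.and_eq_true] at h
    intro a b _ ham hab ha hb
    rcases a with _ | a
    · have hc := rowPairs_get p lk raw x.pa (x :: xs) _ _ _ h.1 b hb
      exact ⟨_, _, by simpa [codeAt] using hc⟩
    · obtain ⟨b, rfl⟩ : ∃ c, b = c + 1 := ⟨b - 1, by omega⟩
      obtain ⟨r, hint, hc⟩ := rowsPairs_good p lk raw m xs ls h.2 a b (Nat.zero_le _) (by omega)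
        (by omega) (by simpa using ha) (by simpa using hb)
      exact ⟨r, hint, by simpa [codeAt] using hc⟩

/-- a checked chunk -/
theorem chunk_good {p : Par} {lk : Link} {raw : Tree} {fs : List FlagData} {L : List (ℕ × ℕ)}
    {s m : ℕ} (h : chunkPairs p lk raw fs L s m = true) : Good p lk raw fs L s (s + m) := by
  intro a b hsa hae hab ha hb
  obtain ⟨r, hint, hc⟩ := rowsPairs_good p lk raw m _ _ h (a - s) (b - s) (Nat.zero_le _) (by omega)
    (by omega) (by rw [List.length_drop]; omega) (by rw [List.length_drop]; omega)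
  refine ⟨r, hint, ?_⟩
  simpa [codeAt, List.getD_eq_getElem?_getD, List.getElem?_drop, List.getElem_drop,
    show s + (a - s) = a by omega, show s + (b - s) = b by omega,
    show b - s - (a - s) = b - a by omega] using hc

/-- checked chunks join -/
theorem Good.join {p : Par} {lk : Link} {raw : Tree} {fs : List FlagData} {L : List (ℕ × ℕ)}
    {s t e : ℕ} (h1 : Good p lk raw fs L s t) (h2 : Good p lk raw fs L t e) :
    Good p lk raw fs L s e := fun a b hsa hae hab ha hb =>
  if hat : a < t then h1 a b hsa hat hab ha hb else h2 a b (not_lt.mp hat) hae hab ha hb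

/-- checked runs of raw entries join -/
theorem rawsOK_append {raw canon : Tree} : ∀ {qs qs' : List (ℕ × ℕ × Bool × Bool)} {i : ℕ},
    rawsOK raw canon qs i = true → rawsOK raw canon qs' (i + qs.length) = true →
    rawsOK raw canon (qs ++ qs') i = true
  | [], _, i, _, h2 => by simpa using h2
  | q :: qs, qs', i, h1, h2 => by
    simp only [rawsOK, Bool.and_eq_true] at h1
    simp only [List.cons_append, rawsOK, Bool.and_eq_true]
    exact ⟨h1.1, rawsOK_append h1.2 (by simpa [Nat.add_assoc, Nat.add_comm 1] using h2)⟩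

variable {h : Fin 6 → Fin 6 → ℂ}

lemma rawsOK_get (hh : InM h) (raw canon : Tree) :
    ∀ (qs : List (ℕ × ℕ × Bool × Bool)) (i : ℕ), rawsOK raw canon qs i = true →
    ∀ j < qs.length,
      symM h (expoOf (raw.get (i + j)).1) = symM h (expoOf (canon.get (raw.get (i + j)).2).1)
  | [], _, _, j, hj => by simp at hj
  | q :: qs, i, hq, j, hj => by
    simp only [rawsOK, Bool.and_eq_true] at hq
    rcases j with _ | j
    · rw [add_zero, check_sym hh hq.1.1, isVariant_sound hh hq.1.2, pow_zero, one_mul]
    · rw [show i + (j + 1) = i + 1 + j by ring]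
      exact rawsOK_get hh raw canon qs _ hq.2 j (by simpa using hj)

/-- exchanging the two flags -/
lemma symM_glue_comm (hh : InM h) (p q : Fin 4 → Fin 3 → ℤ) :
    symM h (glueM q p) = symM h (glueM p q) := by
  let σ : Equiv.Perm (Fin 6) := Equiv.swap 2 4 * Equiv.swap 3 5
  let τ : Equiv.Perm (Fin 6) := Equiv.swap 1 3 * Equiv.swap 2 4
  have e : glueM q p = fun i j => -glueM p q (σ i) (τ j) := by
    funext i j
    simp only [glueM, neg_sub, σ, τ]
    fin_cases i <;> fin_cases j <;> rfl
  rw [e]
  change symM h (fun i j => -(fun i j => glueM p q (σ i) (τ j)) i j) = _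
  rw [symM_neg hh]
  simp only [symM, homM_perm]

/-- a certified block gives a nonnegative combination of table values -/
theorem block_lin (hh : InM h) (p : Par) (lk : Link) (raw canon : Tree) (fs : List FlagData)
    (L : List (ℕ × ℕ)) (qs : List (ℕ × ℕ × Bool × Bool))
    (hlen : fs.length = L.length) (hok : ok p L.length = true) (hprep : fs.all prepOK = true)
    (hq : qs.length = lk.nraw) (hraw : rawsOK raw canon qs 0 = true)
    (hgood : Good p lk raw fs L 0 fs.length)
    {SP SN : ℕ} (hSP : chunkP p L 0 L.length = SP) (hSN : chunkN p L 0 L.length = SN) :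
    0 ≤ lin (2 ^ (p.sb - 1)) (coX p.wd SP SN) (coY p.wd SP SN) (tableVal h canon lk.top) := by
  let F : ℕ → Fin 4 → Fin 3 → ℤ := fun a => flagOf ((fs.map FlagData.cells).getD a 0)
  refine block_nonneg p L hok (fun a b => symM h (glueM (F a) (F b))) _ ?_
    (fun a b => symM_glue_comm hh (F b) (F a)) ?_ hSP hSN
  · intro z
    have := sosM_nonneg (κ := Unit) hh (fun a : Fin L.length => F a) (fun _ a => z a)
    simp only [Finset.sum_range]
    simpa using this
  · intro a b hab hb
    rw [← hlen] at hb
    obtain ⟨r, hint, hc⟩ := hgood a b (Nat.zero_le _) (by omega) hab (by omega) hb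
    simp only [pairOK, Bool.and_eq_true, Nat.blt, Nat.ble_eq] at hc
    obtain ⟨⟨⟨hJ, hr⟩, hk⟩, hck⟩ := hc
    have eF : ∀ c (hc : c < fs.length), F c = flagOf (fs[c]).cells := fun c hc => by
      simp only [F, List.getD_eq_getElem?_getD, List.getElem?_map, List.getElem?_eq_getElem hc,
        Option.map_some, Option.getD_some]
    have hA : (fs[a]'(by omega)).pa = packE (place rowA colA (flagOf (fs[a]'(by omega)).cells)) ∧
        (fs[b]).pb = packE fun i j => -place rowB colB (flagOf (fs[b]).cells) i j := by
      simp only [List.all_eq_true, prepOK, Bool.and_eq_true] at hprep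
      exact ⟨Nat.eq_of_beq_eq_true (hprep _ (List.getElem_mem _)).1,
        Nat.eq_of_beq_eq_true (hprep _ (List.getElem_mem _)).2⟩
    rw [eF a (by omega), eF b hb,
      glue_sym_pos hh (flagOf_small _) (flagOf_small _) hA.1 hA.2 (Nat.sub_le lk.top _) hck,
      Nat.sub_sub_self hJ]
    have := rawsOK_get hh raw canon qs 0 hraw r (by omega)
    rw [zero_add] at this
    rw [tableVal, this, Nat.eq_of_beq_eq_true hk]

end Vale.Agent.P355.Cert.Block
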