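import Vale.Agent.P355.Cert.Block3D

/-
P355: the block of flags with two root rows and one root column, the root rows distinct. The sum
over distinct root rows is the sum over all root rows minus the one with the two roots merged; the
Gram factor is paired with both glued matrices and the two accumulators are combined with the
weights 6 and -1.
-/

open scoped ComplexConjugate
open Finset

namespace Vale.Agent.P355.Cert.Block2D

open Packed Block Block3D

/-- the two root partitions -/
def part2 : Fin 2 → Fin 6 → Fin 6 := ![![0, 1, 2, 3, 4, 5], ![0, 0, 2, 3, 4, 5]]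

/-- two flags glued along the roots, the root rows possibly merged -/
def glue2 (k : Fin 2) (p q : Fin 4 → Fin 3 → ℤ) : Expo := mapRows (part2 k) (glueM p q)

variable {h : Fin 6 → Fin 6 → ℂ}

/-- the part of the glued sum with given root rows -/
noncomputable def rootRows (h : Fin 6 → Fin 6 → ℂ) (e : Expo) (a b : Fin 6) : ℂ :=
  ∑ u : Fin 2 → Fin 6, ∑ u' : Fin 2 → Fin 6, ∑ g, monM h e ![a, b, u 0, u 1, u' 0, u' 1] g

lemma rootRows_eq (hh : InM h) (p q : Fin 4 → Fin 3 → ℤ) (a b : Fin 6) :
    rootRows h (glueM p q) a b = 6 * ∑ c, flagM h p a b c * conj (flagM h q a b c) := by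
  set M := monM h (glueM p q) with hM
  have hlast : ∀ f g : Fin 6 → Fin 6, M f g = M f ![g 0, g 1, g 2, g 3, g 4, 0] := by
    intro f g
    refine Finset.prod_congr rfl fun i _ => Finset.prod_congr rfl fun j _ => ?_
    fin_cases j <;> simp [glueM, place, Cert.colA, Cert.colB]
  let eg : (Fin 6 × (Fin 2 → Fin 6) × (Fin 2 → Fin 6) × Fin 6) ≃ (Fin 6 → Fin 6) :=
    { toFun := fun x => ![x.1, x.2.1 0, x.2.1 1, x.2.2.1 0, x.2.2.1 1, x.2.2.2]
      invFun := fun f => (f 0, ![f 1, f 2], ![f 3, f 4], f 5)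
      left_inv := fun x => by
        obtain ⟨a, u, u', d⟩ := x
        refine Prod.ext rfl (Prod.ext ?_ (Prod.ext ?_ rfl)) <;> funext i <;> fin_cases i <;> rfl
      right_inv := fun f => by funext i; fin_cases i <;> rfl }
  have key : ∀ u u' : Fin 2 → Fin 6, ∑ g : Fin 6 → Fin 6, M ![a, b, u 0, u 1, u' 0, u' 1] g
      = ∑ c, ∑ v : Fin 2 → Fin 6, ∑ v' : Fin 2 → Fin 6,
          6 * M ![a, b, u 0, u 1, u' 0, u' 1] ![c, v 0, v 1, v' 0, v' 1, 0] := by
    intro u u'
    rw [← eg.sum_comp]
    simp only [Fintype.sum_prod_type]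
    refine Finset.sum_congr rfl fun c _ => Finset.sum_congr rfl fun v _ => Finset.sum_congr rfl fun v' _ => ?_
    have : ∀ d, M ![a, b, u 0, u 1, u' 0, u' 1] (eg (c, v, v', d))
        = M ![a, b, u 0, u 1, u' 0, u' 1] ![c, v 0, v 1, v' 0, v' 1, 0] := fun d => by
      rw [hlast]; rfl
    simp [this]
  simp only [rootRows, ← hM, key, Finset.mul_sum]
  have hterm : ∀ c (u v u' v' : Fin 2 → Fin 6),
      M ![a, b, u 0, u 1, u' 0, u' 1] ![c, v 0, v 1, v' 0, v' 1, 0]
      = (∏ i, ∏ j, h (![a, b, u 0, u 1] i) (![c, v 0, v 1] j) ^ p i j)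
        * conj (∏ i, ∏ j, h (![a, b, u' 0, u' 1] i) (![c, v' 0, v' 1] j) ^ q i j) := by
    intro c u v u' v'
    rw [hM]
    unfold glueM
    rw [monM_sub hh, prodA, prodB]
  simp only [hterm, flagM, map_sum]
  rw [Finset.sum_congr rfl fun u _ => Finset.sum_comm, Finset.sum_comm]
  refine Finset.sum_congr rfl fun c _ => ?_
  simp only [Finset.sum_mul, Finset.mul_sum]
  rw [Finset.sum_comm]
  refine Finset.sum_congr rfl fun u' _ => ?_
  rw [Finset.sum_congr rfl fun v _ => Finset.sum_comm]
  rw [Finset.sum_comm]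

lemma mix_glue2 (hh : InM h) (p q : Fin 4 → Fin 3 → ℤ) :
    6 * homM h (glue2 0 p q) - homM h (glue2 1 p q)
      = 36 * ∑ a, ∑ b, ∑ c, (if a = b then (0 : ℂ) else 1) *
          (flagM h p a b c * conj (flagM h q a b c)) := by
  let ef : (Fin 6 × Fin 6 × (Fin 2 → Fin 6) × (Fin 2 → Fin 6)) ≃ (Fin 6 → Fin 6) :=
    { toFun := fun x => ![x.1, x.2.1, x.2.2.1 0, x.2.2.1 1, x.2.2.2 0, x.2.2.2 1]
      invFun := fun f => (f 0, f 1, ![f 2, f 3], ![f 4, f 5])
      left_inv := fun x => by
        obtain ⟨a, b, u, u'⟩ := x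
        refine Prod.ext rfl (Prod.ext rfl (Prod.ext ?_ ?_)) <;> funext i <;> fin_cases i <;> rfl
      right_inv := fun f => by funext i; fin_cases i <;> rfl }
  have key : ∀ k : Fin 2, homM h (glue2 k p q) =
      ∑ a, ∑ b, rootRows h (glueM p q) a (if k = 0 then b else a) := by
    intro k
    rw [glue2, homM_mapRows hh, ← ef.sum_comp]
    simp only [Fintype.sum_prod_type]
    refine Finset.sum_congr rfl fun a _ => Finset.sum_congr rfl fun b _ => ?_
    refine Finset.sum_congr rfl fun u _ => Finset.sum_congr rfl fun u' _ =>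
      Finset.sum_congr rfl fun g _ => congrArg (monM h _ · g) ?_
    funext i
    fin_cases k <;> fin_cases i <;> rfl
  have h0 : homM h (glue2 0 p q)
      = 6 * ∑ a, ∑ b, ∑ c, flagM h p a b c * conj (flagM h q a b c) := by
    rw [key]
    simp only [if_true, rootRows_eq hh, ← Finset.mul_sum]
  have h1 : homM h (glue2 1 p q) = 36 * ∑ a, ∑ c, flagM h p a a c * conj (flagM h q a a c) := by
    rw [key]
    simp only [show ¬((1 : Fin 2) = 0) by decide, if_false, rootRows_eq hh, Finset.sum_const,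
      Finset.card_univ, Fintype.card_fin, nsmul_eq_mul, Nat.cast_ofNat, ← Finset.mul_sum]
    ring
  have h2 : (∑ a, ∑ b, ∑ c, (if a = b then (0 : ℂ) else 1) *
        (flagM h p a b c * conj (flagM h q a b c)))
      = (∑ a, ∑ b, ∑ c, flagM h p a b c * conj (flagM h q a b c))
        - ∑ a, ∑ c, flagM h p a a c * conj (flagM h q a a c) := by
    rw [← Finset.sum_sub_distrib]
    refine Finset.sum_congr rfl fun a _ => ?_
    have e : ∀ b, (∑ c, (if a = b then (0 : ℂ) else 1) * (flagM h p a b c * conj (flagM h q a b c)))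
        = (∑ c, flagM h p a b c * conj (flagM h q a b c))
          - (if a = b then ∑ c, flagM h p a b c * conj (flagM h q a b c) else 0) := fun b => by
      split <;> simp
    simp only [e, Finset.sum_sub_distrib, Finset.sum_ite_eq, Finset.mem_univ, if_true]
  rw [h0, h1, h2]
  ring

lemma re_mix2_nonneg {n : ℕ} (hh : InM h) (p : Fin n → Fin 4 → Fin 3 → ℤ) (z : Fin n → ℝ) :
    0 ≤ ∑ a, ∑ b, z a * z b * (6 * (homM h (glue2 0 (p a) (p b))).re - (homM h (glue2 1 (p a) (p b))).re) := by
  have e : ∀ a b, ((z a * z b : ℝ) : ℂ) * (6 * homM h (glue2 0 (p a) (p b)) - homM h (glue2 1 (p a) (p b)))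
      = ∑ u, ∑ v, ∑ w, (36 * (if u = v then (0 : ℂ) else 1)) *
          (((z a : ℂ) * flagM h (p a) u v w) * conj ((z b : ℂ) * flagM h (p b) u v w)) := by
    intro a b
    rw [mix_glue2 hh, Finset.mul_sum, Finset.mul_sum]
    refine Finset.sum_congr rfl fun u _ => ?_
    rw [Finset.mul_sum, Finset.mul_sum]
    refine Finset.sum_congr rfl fun v _ => ?_
    rw [Finset.mul_sum, Finset.mul_sum]
    refine Finset.sum_congr rfl fun w _ => ?_
    rw [map_mul, Complex.conj_ofReal, Complex.ofReal_mul]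
    ring
  have key : ∑ a, ∑ b, ((z a * z b : ℝ) : ℂ) *
        (6 * homM h (glue2 0 (p a) (p b)) - homM h (glue2 1 (p a) (p b)))
      = ((∑ u, ∑ v, ∑ w, (36 * (if u = v then (0 : ℝ) else 1)) *
          Complex.normSq (∑ a, (z a : ℂ) * flagM h (p a) u v w) : ℝ) : ℂ) := by
    rw [Finset.sum_congr rfl fun a _ => Finset.sum_congr rfl fun b _ => e a b,
      Block3.re_quad_nonneg.sum_move3, Complex.ofReal_sum]
    refine Finset.sum_congr rfl fun u _ => ?_
    rw [Complex.ofReal_sum]
    refine Finset.sum_congr rfl fun v _ => ?_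
    rw [Complex.ofReal_sum]
    refine Finset.sum_congr rfl fun w _ => ?_
    rw [Complex.ofReal_mul, ← Complex.mul_conj, map_sum, Finset.sum_mul_sum, Finset.mul_sum]
    simp only [Finset.mul_sum, Complex.ofReal_mul, Complex.ofReal_ofNat, apply_ite Complex.ofReal,
      Complex.ofReal_zero, Complex.ofReal_one]
  have hmix : ∀ A B : ℂ, (6 * A - B).re = 6 * A.re - B.re := fun A B => by simp
  have hre := congrArg Complex.re key
  simp only [Complex.re_sum, Complex.re_ofReal_mul, Complex.ofReal_re, hmix] at hre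
  rw [hre]
  exact Finset.sum_nonneg fun u _ => Finset.sum_nonneg fun v _ => Finset.sum_nonneg fun w _ =>
    mul_nonneg (mul_nonneg (by norm_num) (by split <;> norm_num)) (Complex.normSq_nonneg _)

/-- the sums of squares over distinct root rows are nonnegative -/
theorem sos2_nonneg {n : ℕ} (hh : InM h) (p : Fin n → Fin 4 → Fin 3 → ℤ) (z : Fin n → ℝ) :
    0 ≤ ∑ a, ∑ b, z a * z b * (6 * symM h (glue2 0 (p a) (p b)) - symM h (glue2 1 (p a) (p b))) := by
  refine le_of_le_of_eq (add_nonneg (re_mix2_nonneg hh p z) (re_mix2_nonneg hh.transp p z)) ?_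
  simp only [symM, ← Finset.sum_add_distrib]
  exact Finset.sum_congr rfl fun a _ => Finset.sum_congr rfl fun b _ => by ring

/-- exchanging the two flags -/
lemma symM_glue2_comm (hh : InM h) (k : Fin 2) (p q : Fin 4 → Fin 3 → ℤ) :
    symM h (glue2 k q p) = symM h (glue2 k p q) := by
  let σ : Equiv.Perm (Fin 6) := Equiv.swap 2 4 * Equiv.swap 3 5
  let τ : Equiv.Perm (Fin 6) := Equiv.swap 1 3 * Equiv.swap 2 4
  have e3 : ∀ i j, glueM q p i j = -glueM p q (σ i) (τ j) := by
    intro i j
    simp only [glueM, neg_sub, σ, τ]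
    fin_cases i <;> fin_cases j <;> rfl
  have hc : ∀ k l, part2 k ((Equiv.swap 2 4 * Equiv.swap 3 5 : Equiv.Perm (Fin 6)) l)
      = (Equiv.swap 2 4 * Equiv.swap 3 5 : Equiv.Perm (Fin 6)) (part2 k l) := by decide +kernel
  have e : glue2 k q p = fun i j => -glue2 k p q (σ i) (τ j) := by
    funext i j
    simp only [glue2, mapRows, ← Finset.sum_neg_distrib]
    refine Fintype.sum_equiv σ _ _ fun l => ?_
    have hl : (part2 k (σ l) = σ i) ↔ part2 k l = i := by rw [hc k l]; exact σ.apply_eq_iff_eq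
    by_cases hx : part2 k l = i <;> simp [hx, hl, e3]
  rw [e]
  change symM h (fun i j => -(fun i j => glue2 k p q (σ i) (τ j)) i j) = _
  rw [symM_neg hh]
  simp only [symM, homM_perm]

/-- the first flag placed and merged -/
def placeA2 (k : Fin 2) (p : Fin 4 → Fin 3 → ℤ) : Expo :=
  mapRows (part2 k) (place Cert.rowA Cert.colA p)

/-- the second flag placed and merged -/
def placeB2 (k : Fin 2) (q : Fin 4 → Fin 3 → ℤ) : Expo :=
  mapRows (part2 k) (place Cert.rowB Cert.colB q)

lemma glue2_eq (k : Fin 2) (p q : Fin 4 → Fin 3 → ℤ) :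
    glue2 k p q = fun i j => placeA2 k p i j - placeB2 k q i j := by
  funext i j
  simp only [glue2, glueM, placeA2, placeB2, mapRows, ← Finset.sum_sub_distrib]
  exact Finset.sum_congr rfl fun l _ => by by_cases hl : part2 k l = i <;> simp [hl]

/-- the merged placements of a flag are right -/
def prep2 (k : Fin 2) (d : FlagData) : Bool :=
  Nat.beq d.pa (packE (placeA2 k (flagOf d.cells)))
    && Nat.beq d.pb (packE fun i j => -placeB2 k (flagOf d.cells) i j)
    && smallE (placeA2 k (flagOf d.cells)) && smallE (placeB2 k (flagOf d.cells))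

/-- the combined accumulator parameters leave room -/
def ok2 (p : Par) (n : ℕ) : Bool := ok p n && Nat.blt (7 * (n * n * termMax p)) (2 ^ p.wd)

/-- two code lists with one Gram factor give one nonnegative combination -/
theorem mixed2_nonneg (p : Par) (n : ℕ) (L : Fin 2 → List (ℕ × ℕ)) (hn : ∀ k, (L k).length = n)
    (hL : (L 1).map Prod.fst = (L 0).map Prod.fst) (hok : ok2 p n = true)
    (g : Fin 2 → ℕ → ℕ → ℝ) (v : ℕ → ℝ)
    (hpos : ∀ z : ℕ → ℝ, 0 ≤ ∑ a ∈ range n, ∑ b ∈ range n, z a * z b * (6 * g 0 a b - g 1 a b))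
    (hsymm : ∀ k a b, g k a b = g k b a)
    (hval : ∀ k a b, a ≤ b → b < n →
      g k a b = Real.sqrt 6 ^ jOf p (codeAt p (L k) a b) * v (iOf p (codeAt p (L k) a b)))
    {P N : Fin 2 → ℕ} (hP : ∀ k, chunkP p (L k) 0 n = P k) (hN : ∀ k, chunkN p (L k) 0 n = N k) :
    0 ≤ lin (2 ^ (p.sb - 1)) (coX p.wd (6 * P 0 + N 1) (6 * N 0 + P 1))
      (coY p.wd (6 * P 0 + N 1) (6 * N 0 + P 1)) v := by
  simp only [ok2, ok, Nat.blt, Bool.and_eq_true, Nat.ble_eq] at hok
  obtain ⟨⟨⟨hsb, hr⟩, -⟩, hwd⟩ := hok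
  have hlen : ∀ M : List (ℕ × ℕ), (rowsP p M).length = M.length ∧ (rowsN p M).length = M.length := by
    intro M; induction M <;> simp_all [rowsP, rowsN]
  let A : Fin 2 → List (ℕ × ℕ) := fun k => (rowsP p (L k)).flatten
  let B : Fin 2 → List (ℕ × ℕ) := fun k => (rowsN p (L k)).flatten
  have hA : ∀ k, accS p.wd (A k) = P k := fun k => by
    rw [← accRows_flatten, ← hP k, chunkP, List.drop_zero,
      List.take_of_length_le (by rw [(hlen _).1, hn k])]
  have hB : ∀ k, accS p.wd (B k) = N k := fun k => by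
    rw [← accRows_flatten, ← hN k, chunkN, List.drop_zero,
      List.take_of_length_le (by rw [(hlen _).2, hn k])]
  have bA : ∀ k, (∀ q ∈ A k, q.1 < 2 * 2 ^ (p.sb - 1)) ∧ ((A k).map fun q => q.2).sum ≤ n * n * termMax p := by
    intro k
    have hs := (rows_small p (L k)).1
    refine ⟨fun q hq => ?_, by have := small_sum hs; rwa [hn k] at this⟩
    obtain ⟨⟨c, hc⟩, -⟩ := hs.2 q hq
    rw [hc]; exact slot_lt hsb c
  have bB : ∀ k, (∀ q ∈ B k, q.1 < 2 * 2 ^ (p.sb - 1)) ∧ ((B k).map fun q => q.2).sum ≤ n * n * termMax p := by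
    intro k
    have hs := (rows_small p (L k)).2
    refine ⟨fun q hq => ?_, by have := small_sum hs; rwa [hn k] at this⟩
    obtain ⟨⟨c, hc⟩, -⟩ := hs.2 q hq
    rw [hc]; exact slot_lt hsb c
  have hsum : ∀ (c : ℕ) (l : List (ℕ × ℕ)), ((scale c l).map fun q => q.2).sum = c * (l.map fun q => q.2).sum := by
    intro c l
    induction l with
    | nil => simp [scale]
    | cons q l ih => simp only [scale, List.map_cons, List.sum_cons] at ih ⊢; rw [ih]; ring
  let lp := scale 6 (A 0) ++ B 1
  let ln := scale 6 (B 0) ++ A 1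
  have hp : ∀ q ∈ lp, q.1 < 2 * 2 ^ (p.sb - 1) := by
    intro q hq
    simp only [lp, scale, List.mem_append, List.mem_map] at hq
    rcases hq with ⟨x, hx, rfl⟩ | hx
    exacts [(bA 0).1 x hx, (bB 1).1 q hx]
  have hq' : ∀ q ∈ ln, q.1 < 2 * 2 ^ (p.sb - 1) := by
    intro q hq
    simp only [ln, scale, List.mem_append, List.mem_map] at hq
    rcases hq with ⟨x, hx, rfl⟩ | hx
    exacts [(bB 0).1 x hx, (bA 1).1 q hx]
  have sp : (lp.map fun q => q.2).sum < 2 ^ p.wd := by
    simp only [lp, List.map_append, List.sum_append, hsum]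
    have := (bA 0).2; have := (bB 1).2
    omega
  have sn : (ln.map fun q => q.2).sum < 2 ^ p.wd := by
    simp only [ln, List.map_append, List.sum_append, hsum]
    have := (bB 0).2; have := (bA 1).2
    omega
  rw [← evalL_sub_eq_lin p.wd _ lp ln hp hq' sp sn
    (by simp only [lp, accS_append, accS_scale, hA, hB]) (by simp only [ln, accS_append, accS_scale, hA, hB]) v]
  have hev : ∀ k, evalL v (A k) - evalL v (B k) = ∑ a ∈ range n, ∑ b ∈ range n,
      (gram p ((L 0).getD a (0, 0)).1 ((L 0).getD b (0, 0)).1 : ℝ) * g k a b := by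
    intro k
    have he := rows_eval p hr v (L k) (g k) (hsymm k) (fun a b hab hb => hval k a b hab (by rwa [← hn k]))
    have hLk : (L k).map Prod.fst = (L 0).map Prod.fst := by fin_cases k <;> first | rfl | exact hL
    have hf : ∀ a, ((L k).getD a (0, 0)).1 = ((L 0).getD a (0, 0)).1 := fun a => by
      have := congrArg (fun l => List.getD l a 0) hLk
      simp only [List.getD_eq_getElem?_getD, List.getElem?_map] at this ⊢
      cases h1 : (L k)[a]? <;> cases h2 : (L 0)[a]? <;> simp_all
    rw [hn k] at he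
    simp only [hf] at he
    exact he
  have hsplit : evalL v lp - evalL v ln = ∑ a ∈ range n, ∑ b ∈ range n,
      (gram p ((L 0).getD a (0, 0)).1 ((L 0).getD b (0, 0)).1 : ℝ) * (6 * g 0 a b - g 1 a b) := by
    simp only [mul_sub, Finset.sum_sub_distrib, mul_left_comm _ (6 : ℝ), ← Finset.mul_sum]
    rw [← hev 0, ← hev 1]
    simp only [lp, ln, evalL_append, evalL_scale]
    push_cast
    ring
  rw [hsplit]
  exact gram_form_nonneg p (L 0) n (fun a b => 6 * g 0 a b - g 1 a b) hpos

/-- a certified block with two distinct root rows gives a nonnegative combination of table values -/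
theorem block2D_lin (hh : InM h) (p : Par) (lk : Link) (raw canon : Tree) (n : ℕ)
    (fs : Fin 2 → List FlagData) (L : Fin 2 → List (ℕ × ℕ)) (qs : List (ℕ × ℕ × Bool × Bool))
    (hfs : ∀ k, (fs k).length = n) (hn : ∀ k, (L k).length = n)
    (hL : (L 1).map Prod.fst = (L 0).map Prod.fst)
    (hcells : (fs 1).map FlagData.cells = (fs 0).map FlagData.cells)
    (hok : ok2 p n = true) (hprep : ∀ k, (fs k).all (prep2 k) = true)
    (hq : qs.length = lk.nraw) (hraw : rawsOK raw canon qs 0 = true)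
    (hgood : ∀ k, Good p lk raw (fs k) (L k) 0 n)
    {P N : Fin 2 → ℕ} (hP : ∀ k, chunkP p (L k) 0 n = P k) (hN : ∀ k, chunkN p (L k) 0 n = N k) :
    0 ≤ lin (2 ^ (p.sb - 1)) (coX p.wd (6 * P 0 + N 1) (6 * N 0 + P 1))
      (coY p.wd (6 * P 0 + N 1) (6 * N 0 + P 1)) (tableVal h canon lk.top) := by
  let F : ℕ → Fin 4 → Fin 3 → ℤ := fun a => flagOf (((fs 0).map FlagData.cells).getD a 0)
  refine mixed2_nonneg p n L hn hL hok (fun k a b => symM h (glue2 k (F a) (F b))) _ ?_
    (fun k a b => symM_glue2_comm hh k (F b) (F a)) ?_ hP hN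
  · intro z
    have := sos2_nonneg hh (fun a : Fin n => F a) (fun a => z a)
    simp only [Finset.sum_range]
    exact this
  · intro k a b hab hb
    obtain ⟨x, hint, hc⟩ := hgood k a b (Nat.zero_le _) (by omega) hab (by rw [hfs]; omega) (by rw [hfs]; omega)
    simp only [pairOK, Bool.and_eq_true, Nat.blt, Nat.ble_eq] at hc
    obtain ⟨⟨⟨hJ, hx⟩, hk⟩, hck⟩ := hc
    have hck' : (fs k).map FlagData.cells = (fs 0).map FlagData.cells := by
      fin_cases k <;> first | rfl | exact hcells
    have eF : ∀ c (hc : c < (fs k).length), F c = flagOf ((fs k)[c]).cells := fun c hc => by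
      simp only [F, ← hck', List.getD_eq_getElem?_getD, List.getElem?_map,
        List.getElem?_eq_getElem hc, Option.map_some, Option.getD_some]
    have hp := hprep k
    simp only [List.all_eq_true, prep2, Bool.and_eq_true, smallE, decide_eq_true_eq] at hp
    have hA := hp _ (List.getElem_mem (show a < (fs k).length by rw [hfs]; omega))
    have hB := hp _ (List.getElem_mem (show b < (fs k).length by rw [hfs]; omega))
    have eM : expoOf (((fs k)[a]'(by rw [hfs]; omega)).pa + ((fs k)[b]'(by rw [hfs]; omega)).pb - zeroM)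
        = glue2 k (F a) (F b) := by
      rw [Nat.eq_of_beq_eq_true hA.1.1.1, Nat.eq_of_beq_eq_true hB.1.1.2,
        eF a (by rw [hfs]; omega), eF b (by rw [hfs]; omega), ← packE_sub _ _ hA.1.2 hB.2,
        expoOf_packE, glue2_eq]
      intro i j
      have h1 := abs_le.mp (hA.1.2 i j)
      have h2 := abs_le.mp (hB.2 i j)
      rw [abs_le]; constructor <;> omega
    have hs : ∀ (j J : ℕ), j ≤ J → ∀ x : ℝ,
        (Real.sqrt 6)⁻¹ ^ j * x = Real.sqrt 6 ^ (J - j) * ((Real.sqrt 6)⁻¹ ^ J * x) := by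
      intro j J hj x
      have h6 : Real.sqrt 6 ≠ 0 := Real.sqrt_ne_zero'.mpr (by norm_num)
      obtain ⟨i, rfl⟩ := Nat.exists_eq_add_of_le hj
      rw [Nat.add_sub_cancel_left, inv_pow, inv_pow, pow_add, mul_inv]
      field_simp
    have hr := rawsOK_get hh raw canon qs 0 hraw x (by omega)
    rw [zero_add] at hr
    rw [← eM, check_sym hh hck, hs _ lk.top (Nat.sub_le _ _), Nat.sub_sub_self hJ, hr,
      Nat.eq_of_beq_eq_true hk, tableVal]

end Vale.Agent.P355.Cert.Block2D
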