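import Vale.Agent.P355.Cert.Block

/-
P355: one block of the certificate with flags rooted at three rows and no column. A flag has one
further row and three further columns; two glued flags fill the six rows (one unused) and the six
columns. The pair checker, the packed Gram factor and the raw table are those of `Block`; only the
placement differs.
-/

open scoped ComplexConjugate
open Finset

namespace Vale.Agent.P355.Cert.Block3

open Packed Block

/-- rows of the first flag in the glued matrix -/
def rowA : Fin 6 → Option (Fin 4) := ![some 0, some 1, some 2, some 3, none, none]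
/-- rows of the second flag in the glued matrix -/
def rowB : Fin 6 → Option (Fin 4) := ![some 0, some 1, some 2, none, some 3, none]
/-- columns of the first flag in the glued matrix -/
def colA : Fin 6 → Option (Fin 3) := ![some 0, some 1, some 2, none, none, none]
/-- columns of the second flag in the glued matrix -/
def colB : Fin 6 → Option (Fin 3) := ![none, none, none, some 0, some 1, some 2]

/-- two flags glued along three root rows, the second conjugated -/
def glue3 (p q : Fin 4 → Fin 3 → ℤ) : Expo :=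
  fun i j => place rowA colA p i j - place rowB colB q i j

variable {h : Fin 6 → Fin 6 → ℂ}

/-- the monomial of a flag at roots `a`, `b`, `c` -/
noncomputable def mon3 (h : Fin 6 → Fin 6 → ℂ) (e : Fin 4 → Fin 3 → ℤ) (a b c u : Fin 6)
    (v : Fin 3 → Fin 6) : ℂ :=
  ∏ i, ∏ j, h (![a, b, c, u] i) (v j) ^ e i j

/-- a flag: rows zero, one and two are roots -/
noncomputable def flag3 (h : Fin 6 → Fin 6 → ℂ) (e : Fin 4 → Fin 3 → ℤ) (a b c : Fin 6) : ℂ :=
  ∑ u, ∑ v : Fin 3 → Fin 6, mon3 h e a b c u v

lemma sum_six (F : (Fin 6 → Fin 6) → ℂ) :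
    ∑ f, F f = ∑ a, ∑ b, ∑ c, ∑ d, ∑ e, ∑ k, F ![a, b, c, d, e, k] := by
  let ef : (Fin 6 × Fin 6 × Fin 6 × Fin 6 × Fin 6 × Fin 6) ≃ (Fin 6 → Fin 6) :=
    { toFun := fun x => ![x.1, x.2.1, x.2.2.1, x.2.2.2.1, x.2.2.2.2.1, x.2.2.2.2.2]
      invFun := fun f => (f 0, f 1, f 2, f 3, f 4, f 5)
      left_inv := fun x => rfl
      right_inv := fun f => by funext i; fin_cases i <;> rfl }
  rw [← ef.sum_comp]
  simp only [Fintype.sum_prod_type]
  rfl

lemma mon_glue3 (hh : InM h) (p q : Fin 4 → Fin 3 → ℤ) (a b c u u' d : Fin 6)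
    (v v' : Fin 3 → Fin 6) :
    monM h (glue3 p q) ![a, b, c, u, u', d] ![v 0, v 1, v 2, v' 0, v' 1, v' 2]
      = mon3 h p a b c u v * conj (mon3 h q a b c u' v') := by
  unfold glue3
  rw [monM_sub hh]
  congr 1
  · simp [monM, mon3, Fin.prod_univ_six, Fin.prod_univ_four, Fin.prod_univ_three, place, rowA, colA]
  · congr 1
    simp [monM, mon3, Fin.prod_univ_six, Fin.prod_univ_four, Fin.prod_univ_three, place, rowB, colB]

lemma flag3_mul_conj (hh : InM h) (p q : Fin 4 → Fin 3 → ℤ) :
    6 * ∑ a, ∑ b, ∑ c, flag3 h p a b c * conj (flag3 h q a b c) = homM h (glue3 p q) := by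
  let eg : ((Fin 3 → Fin 6) × (Fin 3 → Fin 6)) ≃ (Fin 6 → Fin 6) :=
    { toFun := fun x => ![x.1 0, x.1 1, x.1 2, x.2 0, x.2 1, x.2 2]
      invFun := fun f => (![f 0, f 1, f 2], ![f 3, f 4, f 5])
      left_inv := fun x => by
        obtain ⟨v, v'⟩ := x
        refine Prod.ext ?_ ?_ <;> funext i <;> fin_cases i <;> rfl
      right_inv := fun f => by funext i; fin_cases i <;> rfl }
  have hg : ∀ f : Fin 6 → Fin 6, ∑ g, monM h (glue3 p q) f g =
      ∑ v : Fin 3 → Fin 6, ∑ v' : Fin 3 → Fin 6,
        monM h (glue3 p q) f ![v 0, v 1, v 2, v' 0, v' 1, v' 2] := fun f => by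
    rw [← eg.sum_comp, Fintype.sum_prod_type]
    rfl
  rw [homM, sum_six]
  simp only [hg, mon_glue3 hh, Finset.sum_const, Finset.card_univ, Fintype.card_fin, flag3, map_sum,
    nsmul_eq_mul, Nat.cast_ofNat, ← Finset.mul_sum]
  refine congrArg _ (Finset.sum_congr rfl fun a _ => Finset.sum_congr rfl fun b _ =>
    Finset.sum_congr rfl fun c _ => ?_)
  rw [Finset.sum_mul]
  exact Finset.sum_congr rfl fun u _ => by
    simp only [Finset.mul_sum, Finset.sum_mul]
    rw [Finset.sum_comm, Finset.sum_comm]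
    exact Finset.sum_congr rfl fun x _ => Finset.sum_comm

lemma re_quad_nonneg {n : ℕ} (hh : InM h) (p : Fin n → Fin 4 → Fin 3 → ℤ) (z : Fin n → ℝ) :
    0 ≤ ∑ a, ∑ b, z a * z b * (homM h (glue3 (p a) (p b))).re := by
  have key : ∑ a, ∑ b, ((z a * z b : ℝ) : ℂ) * homM h (glue3 (p a) (p b))
      = ((6 * ∑ u, ∑ v, ∑ w, Complex.normSq (∑ a, (z a : ℂ) * flag3 h (p a) u v w) : ℝ) : ℂ) := by
    have e : ∀ u v w, ((Complex.normSq (∑ a, (z a : ℂ) * flag3 h (p a) u v w) : ℝ) : ℂ)
        = ∑ a, ∑ b, ((z a * z b : ℝ) : ℂ) * (flag3 h (p a) u v w * conj (flag3 h (p b) u v w)) := by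
      intro u v w
      rw [← Complex.mul_conj, map_sum, Finset.sum_mul_sum]
      refine Finset.sum_congr rfl fun a _ => Finset.sum_congr rfl fun b _ => ?_
      rw [map_mul, Complex.conj_ofReal, Complex.ofReal_mul]
      ring
    rw [Complex.ofReal_mul, Complex.ofReal_sum]
    simp only [Complex.ofReal_sum, e, ← flag3_mul_conj hh, Finset.mul_sum]
    rw [← sum_move3]
    exact Finset.sum_congr rfl fun a _ => Finset.sum_congr rfl fun b _ =>
      Finset.sum_congr rfl fun u _ => Finset.sum_congr rfl fun v _ => Finset.sum_congr rfl fun w _ => by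
        push_cast; ring
  have hre := congrArg Complex.re key
  simp only [Complex.re_sum, Complex.re_ofReal_mul, Complex.ofReal_re] at hre
  rw [hre]
  exact mul_nonneg (by norm_num) (Finset.sum_nonneg fun u _ =>
    Finset.sum_nonneg fun v _ => Finset.sum_nonneg fun w _ => Complex.normSq_nonneg _)
where
  sum_move3 {F : Fin n → Fin n → Fin 6 → Fin 6 → Fin 6 → ℂ} :
      ∑ a, ∑ b, ∑ u, ∑ v, ∑ w, F a b u v w = ∑ u, ∑ v, ∑ w, ∑ a, ∑ b, F a b u v w := by
    rw [Finset.sum_congr rfl fun a _ => Finset.sum_comm, Finset.sum_comm]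
    refine Finset.sum_congr rfl fun u _ => ?_
    rw [Finset.sum_congr rfl fun a _ => Finset.sum_comm, Finset.sum_comm]
    refine Finset.sum_congr rfl fun v _ => ?_
    rw [Finset.sum_congr rfl fun a _ => Finset.sum_comm, Finset.sum_comm]

/-- the sums of squares are nonnegative -/
theorem sos3_nonneg {n : ℕ} (hh : InM h) (p : Fin n → Fin 4 → Fin 3 → ℤ) (z : Fin n → ℝ) :
    0 ≤ ∑ a, ∑ b, z a * z b * symM h (glue3 (p a) (p b)) := by
  simp only [symM, mul_add, Finset.sum_add_distrib]
  exact add_nonneg (re_quad_nonneg hh p z) (re_quad_nonneg hh.transp p z)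

/-- exchanging the two flags -/
lemma symM_glue3_comm (hh : InM h) (p q : Fin 4 → Fin 3 → ℤ) :
    symM h (glue3 q p) = symM h (glue3 p q) := by
  let σ : Equiv.Perm (Fin 6) := Equiv.swap 3 4
  let τ : Equiv.Perm (Fin 6) := Equiv.swap 0 3 * Equiv.swap 1 4 * Equiv.swap 2 5
  have e : glue3 q p = fun i j => -glue3 p q (σ i) (τ j) := by
    funext i j
    simp only [glue3, neg_sub, σ, τ]
    fin_cases i <;> fin_cases j <;> rfl
  rw [e]
  change symM h (fun i j => -(fun i j => glue3 p q (σ i) (τ j)) i j) = _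
  rw [symM_neg hh]
  simp only [symM, homM_perm]

/-- the placements of a flag are right -/
def prepOK3 (d : FlagData) : Bool :=
  Nat.beq d.pa (packE (place rowA colA (flagOf d.cells)))
    && Nat.beq d.pb (packE fun i j => -place rowB colB (flagOf d.cells) i j)

/-- a pair of flags verified by `check` -/
theorem glue3_sym_pos (hh : InM h) {p q : Fin 4 → Fin 3 → ℤ} (hp : Cert.Small p)
    (hq : Cert.Small q) {PA PB hint j T J : ℕ} (hA : PA = packE (place rowA colA p))
    (hB : PB = packE fun i j => -place rowB colB q i j) (hj : j ≤ J)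
    (hc : check (PA + PB - zeroM) hint j T = true) :
    symM h (glue3 p q) = Real.sqrt 6 ^ (J - j) * ((Real.sqrt 6)⁻¹ ^ J * symM h (expoOf T)) := by
  have eM : expoOf (PA + PB - zeroM) = glue3 p q := by
    rw [hA, hB, ← packE_sub _ _ (place_small hp) (place_small hq), expoOf_packE]
    · rfl
    · intro i j
      have h1 := abs_le.mp (place_small (r := rowA) (c := colA) hp i j)
      have h2 := abs_le.mp (place_small (r := rowB) (c := colB) hq i j)
      rw [abs_le]; constructor <;> omega
  have h6 : Real.sqrt 6 ≠ 0 := Real.sqrt_ne_zero'.mpr (by norm_num)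
  have hpow : (Real.sqrt 6)⁻¹ ^ j = Real.sqrt 6 ^ (J - j) * (Real.sqrt 6)⁻¹ ^ J := by
    obtain ⟨k, rfl⟩ := Nat.exists_eq_add_of_le hj
    rw [Nat.add_sub_cancel_left, inv_pow, inv_pow, pow_add, mul_inv]
    field_simp
  rw [← eM, check_sym hh hc, ← mul_assoc, ← hpow]

/-- a certified three-root block gives a nonnegative combination of table values -/
theorem block3_lin (hh : InM h) (p : Par) (lk : Link) (raw canon : Tree) (fs : List FlagData)
    (L : List (ℕ × ℕ)) (qs : List (ℕ × ℕ × Bool × Bool))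
    (hlen : fs.length = L.length) (hok : ok p L.length = true) (hprep : fs.all prepOK3 = true)
    (hq : qs.length = lk.nraw) (hraw : rawsOK raw canon qs 0 = true)
    (hgood : Good p lk raw fs L 0 fs.length)
    {SP SN : ℕ} (hSP : chunkP p L 0 L.length = SP) (hSN : chunkN p L 0 L.length = SN) :
    0 ≤ lin (2 ^ (p.sb - 1)) (coX p.wd SP SN) (coY p.wd SP SN) (tableVal h canon lk.top) := by
  let F : ℕ → Fin 4 → Fin 3 → ℤ := fun a => flagOf ((fs.map FlagData.cells).getD a 0)
  refine block_nonneg p L hok (fun a b => symM h (glue3 (F a) (F b))) _ ?_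
    (fun a b => symM_glue3_comm hh (F b) (F a)) ?_ hSP hSN
  · intro z
    have := sos3_nonneg hh (fun a : Fin L.length => F a) (fun a => z a)
    simp only [Finset.sum_range]
    exact this
  · intro a b hab hb
    rw [← hlen] at hb
    obtain ⟨r, hint, hc⟩ := hgood a b (Nat.zero_le _) (by omega) hab (by omega) hb
    simp only [pairOK, Bool.and_eq_true, Nat.blt, Nat.ble_eq] at hc
    obtain ⟨⟨⟨hJ, hr⟩, hk⟩, hck⟩ := hc
    have eF : ∀ c (hc : c < fs.length), F c = flagOf (fs[c]).cells := fun c hc => by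
      simp only [F, List.getD_eq_getElem?_getD, List.getElem?_map, List.getElem?_eq_getElem hc,
        Option.map_some, Option.getD_some]
    have hA : (fs[a]'(by omega)).pa = packE (place rowA colA (flagOf (fs[a]'(by omega)).cells)) ∧
        (fs[b]).pb = packE fun i j => -place rowB colB (flagOf (fs[b]).cells) i j := by
      simp only [List.all_eq_true, prepOK3, Bool.and_eq_true] at hprep
      exact ⟨Nat.eq_of_beq_eq_true (hprep _ (List.getElem_mem _)).1,
        Nat.eq_of_beq_eq_true (hprep _ (List.getElem_mem _)).2⟩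
    rw [eF a (by omega), eF b hb,
      glue3_sym_pos hh (flagOf_small _) (flagOf_small _) hA.1 hA.2 (Nat.sub_le lk.top _) hck,
      Nat.sub_sub_self hJ]
    have := rawsOK_get hh raw canon qs 0 hraw r (by omega)
    rw [zero_add] at this
    rw [tableVal, this, Nat.eq_of_beq_eq_true hk]

end Vale.Agent.P355.Cert.Block3
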