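import Vale.Agent.P355.Cert.Block3

/-
P355: one block of the certificate with flags rooted at three distinct rows. The sum over distinct
root triples is expanded by inclusion and exclusion over the five partitions of the roots; the same
Gram factor is paired with the five merged glued matrices, and the five accumulators are combined
into one pair with the weights 36, -6, -6, -6, 2.
-/

open scoped ComplexConjugate
open Finset

namespace Vale.Agent.P355.Cert.Block3D

open Packed Block Block3

/-- rows sent by a map of the six row vertices -/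
def mapRows (m : Fin 6 → Fin 6) (e : Expo) : Expo := fun i j => ∑ k, if m k = i then e k j else 0

/-- the five root partitions -/
def part : Fin 5 → Fin 6 → Fin 6 :=
  ![![0, 1, 2, 3, 4, 5], ![0, 0, 2, 3, 4, 5], ![0, 1, 0, 3, 4, 5], ![0, 1, 1, 3, 4, 5],
    ![0, 0, 0, 3, 4, 5]]

/-- two flags glued along three roots, the roots merged by a partition -/
def glueD (k : Fin 5) (p q : Fin 4 → Fin 3 → ℤ) : Expo := mapRows (part k) (glue3 p q)

/-- the combination over the partitions -/
noncomputable def mixD (F : Fin 5 → ℝ) : ℝ := 36 * F 0 - 6 * (F 1 + F 2 + F 3) + 2 * F 4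

variable {h : Fin 6 → Fin 6 → ℂ}

lemma zpow_sum_ne {ι : Type*} {x : ℂ} (hx : x ≠ 0) (s : Finset ι) (f : ι → ℤ) :
    x ^ (∑ k ∈ s, f k) = ∏ k ∈ s, x ^ f k := by
  classical
  induction s using Finset.induction with
  | empty => simp
  | insert a s ha ih => rw [Finset.sum_insert ha, Finset.prod_insert ha, zpow_add₀ hx, ih]

lemma monM_mapRows (hh : InM h) (m : Fin 6 → Fin 6) (e : Expo) (f g : Fin 6 → Fin 6) :
    monM h (mapRows m e) f g = monM h e (f ∘ m) g := by
  unfold monM mapRows
  simp only [zpow_sum_ne (hh.ne_zero _ _)]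
  rw [Finset.prod_comm,
    Finset.prod_comm (γ := Fin 6) (f := fun i j => h ((f ∘ m) i) (g j) ^ e i j)]
  refine Finset.prod_congr rfl fun j _ => ?_
  rw [Finset.prod_comm]
  refine Finset.prod_congr rfl fun k _ => ?_
  rw [Finset.prod_eq_single (m k)]
  · simp
  · intro i _ hi
    rw [if_neg fun hx => hi hx.symm, zpow_zero]
  · simp

lemma homM_mapRows (hh : InM h) (m : Fin 6 → Fin 6) (e : Expo) :
    homM h (mapRows m e) = ∑ f : Fin 6 → Fin 6, ∑ g, monM h e (f ∘ m) g := by
  unfold homM
  exact Finset.sum_congr rfl fun f _ => Finset.sum_congr rfl fun g _ => monM_mapRows hh m e f g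

/-- the part of the glued sum with given roots -/
noncomputable def rootSum (h : Fin 6 → Fin 6 → ℂ) (e : Expo) (a b c : Fin 6) : ℂ :=
  ∑ u, ∑ u', ∑ k, ∑ g, monM h e ![a, b, c, u, u', k] g

lemma rootSum_eq (hh : InM h) (p q : Fin 4 → Fin 3 → ℤ) (a b c : Fin 6) :
    rootSum h (glue3 p q) a b c = 6 * (flag3 h p a b c * conj (flag3 h q a b c)) := by
  let eg : ((Fin 3 → Fin 6) × (Fin 3 → Fin 6)) ≃ (Fin 6 → Fin 6) :=
    { toFun := fun x => ![x.1 0, x.1 1, x.1 2, x.2 0, x.2 1, x.2 2]
      invFun := fun f => (![f 0, f 1, f 2], ![f 3, f 4, f 5])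
      left_inv := fun x => by
        obtain ⟨v, v'⟩ := x
        refine Prod.ext ?_ ?_ <;> funext i <;> fin_cases i <;> rfl
      right_inv := fun f => by funext i; fin_cases i <;> rfl }
  have hg : ∀ f : Fin 6 → Fin 6, ∑ g, monM h (glue3 p q) f g =
      ∑ v : Fin 3 → Fin 6, ∑ v' : Fin 3 → Fin 6,
        monM h (glue3 p q) f ![v 0, v 1, v 2, v' 0, v' 1, v' 2] := fun f => by
    rw [← eg.sum_comp, Fintype.sum_prod_type]
    rfl
  simp only [rootSum, hg, mon_glue3 hh, Finset.sum_const, Finset.card_univ, Fintype.card_fin, flag3,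
    map_sum, nsmul_eq_mul, Nat.cast_ofNat, ← Finset.mul_sum]
  refine congrArg _ ?_
  rw [Finset.sum_mul]
  exact Finset.sum_congr rfl fun u _ => by
    simp only [Finset.mul_sum, Finset.sum_mul]
    rw [Finset.sum_comm, Finset.sum_comm]
    exact Finset.sum_congr rfl fun x _ => Finset.sum_comm

/-- the indicator of three distinct labels -/
def inj3 (a b c : Fin 6) : ℕ := if a ≠ b ∧ a ≠ c ∧ b ≠ c then 1 else 0

lemma inj3_sum (F : Fin 6 → Fin 6 → Fin 6 → ℂ) :
    ∑ a, ∑ b, ∑ c, (inj3 a b c : ℂ) * F a b c =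
      (∑ a, ∑ b, ∑ c, F a b c) - (∑ a, ∑ c, F a a c) - (∑ a, ∑ b, F a b a) - (∑ a, ∑ b, F a b b)
        + 2 * ∑ a, F a a a := by
  have e : ∀ a b c : Fin 6, (inj3 a b c : ℂ) * F a b c = F a b c - (if a = b then F a b c else 0)
      - (if a = c then F a b c else 0) - (if b = c then F a b c else 0)
      + 2 * (if a = b then (if b = c then F a b c else 0) else 0) := by
    intro a b c
    unfold inj3
    by_cases h1 : a = b
    · subst h1
      by_cases h2 : a = c
      · subst h2; simp; ring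
      · simp [h2]
    · by_cases h2 : a = c
      · subst h2; simp [h1, Ne.symm h1]
      · by_cases h3 : b = c <;> simp [h1, h2, h3]
  simp only [e, Finset.sum_add_distrib, Finset.sum_sub_distrib, ← Finset.mul_sum]
  congr 1
  · congr 1
    · congr 1
      · congr 1
        exact Finset.sum_congr rfl fun a _ => by rw [Finset.sum_comm]; simp
      · exact Finset.sum_congr rfl fun a _ => by simp
    · exact Finset.sum_congr rfl fun a _ => by simp
  · exact congrArg _ (Finset.sum_congr rfl fun a _ => by rw [Finset.sum_comm]; simp)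

lemma mix_glueD (hh : InM h) (p q : Fin 4 → Fin 3 → ℤ) :
    36 * homM h (glueD 0 p q)
        - 6 * (homM h (glueD 1 p q) + homM h (glueD 2 p q) + homM h (glueD 3 p q))
        + 2 * homM h (glueD 4 p q)
      = 216 * ∑ a, ∑ b, ∑ c, (inj3 a b c : ℂ) * (flag3 h p a b c * conj (flag3 h q a b c)) := by
  have key : ∀ (k : Fin 5), homM h (glueD k p q) = ∑ a, ∑ b, ∑ c,
      rootSum h (glue3 p q) (![a, b, c] (![![0, 1, 2], ![0, 0, 2], ![0, 1, 0], ![0, 1, 1], ![0, 0, 0]] k 0))
        (![a, b, c] (![![0, 1, 2], ![0, 0, 2], ![0, 1, 0], ![0, 1, 1], ![0, 0, 0]] k 1))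
        (![a, b, c] (![![0, 1, 2], ![0, 0, 2], ![0, 1, 0], ![0, 1, 1], ![0, 0, 0]] k 2)) := by
    intro k
    rw [glueD, homM_mapRows hh, sum_six]
    refine Finset.sum_congr rfl fun a _ => Finset.sum_congr rfl fun b _ =>
      Finset.sum_congr rfl fun c _ => Finset.sum_congr rfl fun u _ => Finset.sum_congr rfl fun u' _ =>
        Finset.sum_congr rfl fun w _ => Finset.sum_congr rfl fun g _ => congrArg (monM h _ · g) ?_
    funext i
    fin_cases k <;> fin_cases i <;> rfl
  have ei := inj3_sum fun a b c => flag3 h p a b c * conj (flag3 h q a b c)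
  simp only [key, rootSum_eq hh, Matrix.cons_val_zero, Matrix.cons_val_one, Matrix.cons_val,
    Finset.sum_const, Finset.card_univ, Fintype.card_fin, nsmul_eq_mul, Nat.cast_ofNat,
    ← Finset.mul_sum]
  rw [ei]
  ring

lemma re_mix_nonneg {n : ℕ} (hh : InM h) (p : Fin n → Fin 4 → Fin 3 → ℤ) (z : Fin n → ℝ) :
    0 ≤ ∑ a, ∑ b, z a * z b * mixD fun k => (homM h (glueD k (p a) (p b))).re := by
  have e : ∀ a b, ((z a * z b : ℝ) : ℂ) * (36 * homM h (glueD 0 (p a) (p b))
        - 6 * (homM h (glueD 1 (p a) (p b)) + homM h (glueD 2 (p a) (p b))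
          + homM h (glueD 3 (p a) (p b)))
        + 2 * homM h (glueD 4 (p a) (p b)))
      = ∑ u, ∑ v, ∑ w, (216 * (inj3 u v w : ℂ)) *
          (((z a : ℂ) * flag3 h (p a) u v w) * conj ((z b : ℂ) * flag3 h (p b) u v w)) := by
    intro a b
    rw [mix_glueD hh, Finset.mul_sum, Finset.mul_sum]
    refine Finset.sum_congr rfl fun u _ => ?_
    rw [Finset.mul_sum, Finset.mul_sum]
    refine Finset.sum_congr rfl fun v _ => ?_
    rw [Finset.mul_sum, Finset.mul_sum]
    refine Finset.sum_congr rfl fun w _ => ?_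
    rw [map_mul, Complex.conj_ofReal, Complex.ofReal_mul]
    ring
  have key : ∑ a, ∑ b, ((z a * z b : ℝ) : ℂ) * (36 * homM h (glueD 0 (p a) (p b))
        - 6 * (homM h (glueD 1 (p a) (p b)) + homM h (glueD 2 (p a) (p b))
          + homM h (glueD 3 (p a) (p b)))
        + 2 * homM h (glueD 4 (p a) (p b)))
      = ((∑ u, ∑ v, ∑ w, (216 * (inj3 u v w : ℝ)) *
          Complex.normSq (∑ a, (z a : ℂ) * flag3 h (p a) u v w) : ℝ) : ℂ) := by
    rw [Finset.sum_congr rfl fun a _ => Finset.sum_congr rfl fun b _ => e a b,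
      re_quad_nonneg.sum_move3, Complex.ofReal_sum]
    refine Finset.sum_congr rfl fun u _ => ?_
    rw [Complex.ofReal_sum]
    refine Finset.sum_congr rfl fun v _ => ?_
    rw [Complex.ofReal_sum]
    refine Finset.sum_congr rfl fun w _ => ?_
    rw [Complex.ofReal_mul, ← Complex.mul_conj, map_sum, Finset.sum_mul_sum, Finset.mul_sum]
    simp only [Finset.mul_sum, Complex.ofReal_mul, Complex.ofReal_natCast, Complex.ofReal_ofNat]
  have hmix : ∀ A B C D E : ℂ, (36 * A - 6 * (B + C + D) + 2 * E).re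
      = 36 * A.re - 6 * (B.re + C.re + D.re) + 2 * E.re := fun A B C D E => by simp
  have hre := congrArg Complex.re key
  simp only [Complex.re_sum, Complex.re_ofReal_mul, Complex.ofReal_re, hmix] at hre
  simp only [mixD]
  rw [hre]
  exact Finset.sum_nonneg fun u _ => Finset.sum_nonneg fun v _ => Finset.sum_nonneg fun w _ =>
    mul_nonneg (by positivity) (Complex.normSq_nonneg _)

/-- the sums of squares over distinct roots are nonnegative -/
theorem sosD_nonneg {n : ℕ} (hh : InM h) (p : Fin n → Fin 4 → Fin 3 → ℤ) (z : Fin n → ℝ) :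
    0 ≤ ∑ a, ∑ b, z a * z b * mixD fun k => symM h (glueD k (p a) (p b)) := by
  refine le_of_le_of_eq (add_nonneg (re_mix_nonneg hh p z) (re_mix_nonneg hh.transp p z)) ?_
  simp only [mixD, symM, ← Finset.sum_add_distrib]
  exact Finset.sum_congr rfl fun a _ => Finset.sum_congr rfl fun b _ => by ring

/-- exchanging the two flags -/
lemma symM_glueD_comm (hh : InM h) (k : Fin 5) (p q : Fin 4 → Fin 3 → ℤ) :
    symM h (glueD k q p) = symM h (glueD k p q) := by
  let σ : Equiv.Perm (Fin 6) := Equiv.swap 3 4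
  let τ : Equiv.Perm (Fin 6) := Equiv.swap 0 3 * Equiv.swap 1 4 * Equiv.swap 2 5
  have e3 : ∀ i j, glue3 q p i j = -glue3 p q (σ i) (τ j) := by
    intro i j
    simp only [glue3, neg_sub, σ, τ]
    fin_cases i <;> fin_cases j <;> rfl
  have hc : ∀ k l, part k (Equiv.swap 3 4 l) = Equiv.swap 3 4 (part k l) := by decide +kernel
  have e : glueD k q p = fun i j => -glueD k p q (σ i) (τ j) := by
    funext i j
    simp only [glueD, mapRows, ← Finset.sum_neg_distrib]
    refine Fintype.sum_equiv σ _ _ fun l => ?_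
    have hl : (part k (σ l) = σ i) ↔ part k l = i := by rw [hc k l]; exact σ.apply_eq_iff_eq
    by_cases hx : part k l = i <;> simp [hx, hl, e3]
  rw [e]
  change symM h (fun i j => -(fun i j => glueD k p q (σ i) (τ j)) i j) = _
  rw [symM_neg hh]
  simp only [symM, homM_perm]

/-- the first flag placed and merged -/
def placeAD (k : Fin 5) (p : Fin 4 → Fin 3 → ℤ) : Expo := mapRows (part k) (place Block3.rowA Block3.colA p)

/-- the second flag placed and merged -/
def placeBD (k : Fin 5) (q : Fin 4 → Fin 3 → ℤ) : Expo := mapRows (part k) (place Block3.rowB Block3.colB q)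

lemma glueD_eq (k : Fin 5) (p q : Fin 4 → Fin 3 → ℤ) :
    glueD k p q = fun i j => placeAD k p i j - placeBD k q i j := by
  funext i j
  simp only [glueD, glue3, placeAD, placeBD, mapRows, ← Finset.sum_sub_distrib]
  exact Finset.sum_congr rfl fun l _ => by by_cases hl : part k l = i <;> simp [hl]

/-- entries at most seven -/
def smallE (e : Expo) : Bool := decide (∀ i j : Fin 6, |e i j| ≤ 7)

/-- the merged placements of a flag are right -/
def prepD (k : Fin 5) (d : FlagData) : Bool :=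
  Nat.beq d.pa (packE (placeAD k (flagOf d.cells)))
    && Nat.beq d.pb (packE fun i j => -placeBD k (flagOf d.cells) i j)
    && smallE (placeAD k (flagOf d.cells)) && smallE (placeBD k (flagOf d.cells))

/-- multiply the weights of a term list -/
def scale (c : ℕ) (l : List (ℕ × ℕ)) : List (ℕ × ℕ) := l.map fun q => (q.1, c * q.2)

lemma evalL_scale (v : ℕ → ℝ) (c : ℕ) (l : List (ℕ × ℕ)) :
    evalL v (scale c l) = c * evalL v l := by
  induction l with
  | nil => simp [scale, evalL]
  | cons q l ih =>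
    simp only [scale, evalL, List.map_cons, List.sum_cons] at ih ⊢
    rw [ih]; push_cast; ring

lemma accS_scale (wd c : ℕ) : ∀ l : List (ℕ × ℕ), accS wd (scale c l) = c * accS wd l
  | [] => by simp [scale, accS]
  | q :: l => by
    have := accS_scale wd c l
    simp only [scale, List.map_cons, accS, Nat.shiftLeft_eq] at this ⊢
    rw [this]; ring

lemma evalL_append (v : ℕ → ℝ) (l m : List (ℕ × ℕ)) : evalL v (l ++ m) = evalL v l + evalL v m := by
  simp [evalL]

/-- the combined accumulator parameters leave room -/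
def okD (p : Par) (n : ℕ) : Bool := ok p n && Nat.blt (56 * (n * n * termMax p)) (2 ^ p.wd)

/-- five code lists with one Gram factor give one nonnegative combination -/
theorem mixed_nonneg (p : Par) (n : ℕ) (L : Fin 5 → List (ℕ × ℕ)) (hn : ∀ k, (L k).length = n)
    (hL : ∀ k, (L k).map Prod.fst = (L 0).map Prod.fst) (hok : okD p n = true)
    (g : Fin 5 → ℕ → ℕ → ℝ) (v : ℕ → ℝ)
    (hpos : ∀ z : ℕ → ℝ, 0 ≤ ∑ a ∈ range n, ∑ b ∈ range n, z a * z b * mixD fun k => g k a b)
    (hsymm : ∀ k a b, g k a b = g k b a)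
    (hval : ∀ k a b, a ≤ b → b < n →
      g k a b = Real.sqrt 6 ^ jOf p (codeAt p (L k) a b) * v (iOf p (codeAt p (L k) a b)))
    {P N : Fin 5 → ℕ} (hP : ∀ k, chunkP p (L k) 0 n = P k) (hN : ∀ k, chunkN p (L k) 0 n = N k) :
    0 ≤ lin (2 ^ (p.sb - 1))
      (coX p.wd (36 * P 0 + 2 * P 4 + 6 * (N 1 + N 2 + N 3))
        (36 * N 0 + 2 * N 4 + 6 * (P 1 + P 2 + P 3)))
      (coY p.wd (36 * P 0 + 2 * P 4 + 6 * (N 1 + N 2 + N 3))
        (36 * N 0 + 2 * N 4 + 6 * (P 1 + P 2 + P 3))) v := by
  simp only [okD, ok, Nat.blt, Bool.and_eq_true, Nat.ble_eq] at hok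
  obtain ⟨⟨⟨hsb, hr⟩, -⟩, hwd⟩ := hok
  have hlen : ∀ M : List (ℕ × ℕ), (rowsP p M).length = M.length ∧ (rowsN p M).length = M.length := by
    intro M; induction M <;> simp_all [rowsP, rowsN]
  let A : Fin 5 → List (ℕ × ℕ) := fun k => (rowsP p (L k)).flatten
  let B : Fin 5 → List (ℕ × ℕ) := fun k => (rowsN p (L k)).flatten
  have hA : ∀ k, accS p.wd (A k) = P k := fun k => by
    rw [← accRows_flatten, ← hP k, chunkP, List.drop_zero,
      List.take_of_length_le (by rw [(hlen _).1, hn k])]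
  have hB : ∀ k, accS p.wd (B k) = N k := fun k => by
    rw [← accRows_flatten, ← hN k, chunkN, List.drop_zero,
      List.take_of_length_le (by rw [(hlen _).2, hn k])]
  have bA : ∀ k, (∀ q ∈ A k, q.1 < 2 * 2 ^ (p.sb - 1)) ∧ ((A k).map fun q => q.2).sum ≤ n * n * termMax p := by
    intro k
    have hs := (rows_small p (L k)).1
    refine ⟨fun q hq => ?_, by have := small_sum hs; rwa [hn k] at this⟩
    obtain ⟨⟨c, hc⟩, -⟩ := hs.2 q hq
    rw [hc]; exact slot_lt hsb c
  have bB : ∀ k, (∀ q ∈ B k, q.1 < 2 * 2 ^ (p.sb - 1)) ∧ ((B k).map fun q => q.2).sum ≤ n * n * termMax p := by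
    intro k
    have hs := (rows_small p (L k)).2
    refine ⟨fun q hq => ?_, by have := small_sum hs; rwa [hn k] at this⟩
    obtain ⟨⟨c, hc⟩, -⟩ := hs.2 q hq
    rw [hc]; exact slot_lt hsb c
  have hsum : ∀ (c : ℕ) (l : List (ℕ × ℕ)), ((scale c l).map fun q => q.2).sum = c * (l.map fun q => q.2).sum := by
    intro c l
    induction l with
    | nil => simp [scale]
    | cons q l ih => simp only [scale, List.map_cons, List.sum_cons] at ih ⊢; rw [ih]; ring
  let lp := scale 36 (A 0) ++ scale 2 (A 4) ++ scale 6 (B 1 ++ B 2 ++ B 3)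
  let ln := scale 36 (B 0) ++ scale 2 (B 4) ++ scale 6 (A 1 ++ A 2 ++ A 3)
  have hp : ∀ q ∈ lp, q.1 < 2 * 2 ^ (p.sb - 1) := by
    intro q hq
    simp only [lp, scale, List.mem_append, List.mem_map] at hq
    rcases hq with (⟨x, hx, rfl⟩ | ⟨x, hx, rfl⟩) | ⟨x, (hx | hx) | hx, rfl⟩
    exacts [(bA 0).1 x hx, (bA 4).1 x hx, (bB 1).1 x hx, (bB 2).1 x hx, (bB 3).1 x hx]
  have hq' : ∀ q ∈ ln, q.1 < 2 * 2 ^ (p.sb - 1) := by
    intro q hq
    simp only [ln, scale, List.mem_append, List.mem_map] at hq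
    rcases hq with (⟨x, hx, rfl⟩ | ⟨x, hx, rfl⟩) | ⟨x, (hx | hx) | hx, rfl⟩
    exacts [(bB 0).1 x hx, (bB 4).1 x hx, (bA 1).1 x hx, (bA 2).1 x hx, (bA 3).1 x hx]
  have sp : (lp.map fun q => q.2).sum < 2 ^ p.wd := by
    simp only [lp, List.map_append, List.sum_append, hsum]
    have := (bA 0).2; have := (bA 4).2; have := (bB 1).2; have := (bB 2).2; have := (bB 3).2
    omega
  have sn : (ln.map fun q => q.2).sum < 2 ^ p.wd := by
    simp only [ln, List.map_append, List.sum_append, hsum]
    have := (bB 0).2; have := (bB 4).2; have := (bA 1).2; have := (bA 2).2; have := (bA 3).2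
    omega
  rw [← evalL_sub_eq_lin p.wd _ lp ln hp hq' sp sn
    (by simp only [lp, accS_append, accS_scale, hA, hB]) (by simp only [ln, accS_append, accS_scale, hA, hB]) v]
  have hev : ∀ k, evalL v (A k) - evalL v (B k) = ∑ a ∈ range n, ∑ b ∈ range n,
      (gram p ((L 0).getD a (0, 0)).1 ((L 0).getD b (0, 0)).1 : ℝ) * g k a b := by
    intro k
    have he := rows_eval p hr v (L k) (g k) (hsymm k) (fun a b hab hb => hval k a b hab (by rwa [← hn k]))
    have hf : ∀ a, ((L k).getD a (0, 0)).1 = ((L 0).getD a (0, 0)).1 := fun a => by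
      have := congrArg (fun l => List.getD l a 0) (hL k)
      simp only [List.getD_eq_getElem?_getD, List.getElem?_map] at this ⊢
      cases h1 : (L k)[a]? <;> cases h2 : (L 0)[a]? <;> simp_all
    rw [hn k] at he
    simp only [hf] at he
    exact he
  have hsplit : evalL v lp - evalL v ln = ∑ a ∈ range n, ∑ b ∈ range n,
      (gram p ((L 0).getD a (0, 0)).1 ((L 0).getD b (0, 0)).1 : ℝ) * mixD fun k => g k a b := by
    have h0 := hev 0; have h1 := hev 1; have h2 := hev 2; have h3 := hev 3; have h4 := hev 4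
    simp only [lp, ln, evalL_append, evalL_scale, mixD, mul_add, mul_sub, Finset.sum_add_distrib,
      Finset.sum_sub_distrib]
    simp only [mul_left_comm _ (36 : ℝ), mul_left_comm _ (6 : ℝ), mul_left_comm _ (2 : ℝ),
      ← Finset.mul_sum]
    rw [← h0, ← h1, ← h2, ← h3, ← h4]
    push_cast
    ring
  rw [hsplit]
  exact gram_form_nonneg p (L 0) n (fun a b => mixD fun k => g k a b) hpos

/-- a certified block with three distinct roots gives a nonnegative combination of table values -/
theorem block3D_lin (hh : InM h) (p : Par) (lk : Link) (raw canon : Tree) (n : ℕ)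
    (fs : Fin 5 → List FlagData) (L : Fin 5 → List (ℕ × ℕ)) (qs : List (ℕ × ℕ × Bool × Bool))
    (hfs : ∀ k, (fs k).length = n) (hn : ∀ k, (L k).length = n)
    (hL : ∀ k, (L k).map Prod.fst = (L 0).map Prod.fst)
    (hcells : ∀ k, (fs k).map FlagData.cells = (fs 0).map FlagData.cells)
    (hok : okD p n = true) (hprep : ∀ k, (fs k).all (prepD k) = true)
    (hq : qs.length = lk.nraw) (hraw : rawsOK raw canon qs 0 = true)
    (hgood : ∀ k, Good p lk raw (fs k) (L k) 0 n)
    {P N : Fin 5 → ℕ} (hP : ∀ k, chunkP p (L k) 0 n = P k) (hN : ∀ k, chunkN p (L k) 0 n = N k) :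
    0 ≤ lin (2 ^ (p.sb - 1))
      (coX p.wd (36 * P 0 + 2 * P 4 + 6 * (N 1 + N 2 + N 3))
        (36 * N 0 + 2 * N 4 + 6 * (P 1 + P 2 + P 3)))
      (coY p.wd (36 * P 0 + 2 * P 4 + 6 * (N 1 + N 2 + N 3))
        (36 * N 0 + 2 * N 4 + 6 * (P 1 + P 2 + P 3))) (tableVal h canon lk.top) := by
  let F : ℕ → Fin 4 → Fin 3 → ℤ := fun a => flagOf (((fs 0).map FlagData.cells).getD a 0)
  refine mixed_nonneg p n L hn hL hok (fun k a b => symM h (glueD k (F a) (F b))) _ ?_
    (fun k a b => symM_glueD_comm hh k (F b) (F a)) ?_ hP hN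
  · intro z
    have := sosD_nonneg hh (fun a : Fin n => F a) (fun a => z a)
    simp only [Finset.sum_range]
    exact this
  · intro k a b hab hb
    obtain ⟨x, hint, hc⟩ := hgood k a b (Nat.zero_le _) (by omega) hab (by rw [hfs]; omega) (by rw [hfs]; omega)
    simp only [pairOK, Bool.and_eq_true, Nat.blt, Nat.ble_eq] at hc
    obtain ⟨⟨⟨hJ, hx⟩, hk⟩, hck⟩ := hc
    have eF : ∀ c (hc : c < (fs k).length), F c = flagOf ((fs k)[c]).cells := fun c hc => by
      simp only [F, ← hcells k, List.getD_eq_getElem?_getD, List.getElem?_map,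
        List.getElem?_eq_getElem hc, Option.map_some, Option.getD_some]
    have hp := hprep k
    simp only [List.all_eq_true, prepD, Bool.and_eq_true, smallE, decide_eq_true_eq] at hp
    have hA := hp _ (List.getElem_mem (show a < (fs k).length by rw [hfs]; omega))
    have hB := hp _ (List.getElem_mem (show b < (fs k).length by rw [hfs]; omega))
    have eM : expoOf (((fs k)[a]'(by rw [hfs]; omega)).pa + ((fs k)[b]'(by rw [hfs]; omega)).pb - zeroM)
        = glueD k (F a) (F b) := by
      rw [Nat.eq_of_beq_eq_true hA.1.1.1, Nat.eq_of_beq_eq_true hB.1.1.2,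
        eF a (by rw [hfs]; omega), eF b (by rw [hfs]; omega), ← packE_sub _ _ hA.1.2 hB.2,
        expoOf_packE, glueD_eq]
      intro i j
      have h1 := abs_le.mp (hA.1.2 i j)
      have h2 := abs_le.mp (hB.2 i j)
      rw [abs_le]; constructor <;> omega
    have h6 : Real.sqrt 6 ≠ 0 := Real.sqrt_ne_zero'.mpr (by norm_num)
    have hs : ∀ (j J : ℕ), j ≤ J → ∀ x : ℝ,
        (Real.sqrt 6)⁻¹ ^ j * x = Real.sqrt 6 ^ (J - j) * ((Real.sqrt 6)⁻¹ ^ J * x) := by
      intro j J hj x
      obtain ⟨i, rfl⟩ := Nat.exists_eq_add_of_le hj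
      rw [Nat.add_sub_cancel_left, inv_pow, inv_pow, pow_add, mul_inv]
      field_simp
    have hr := rawsOK_get hh raw canon qs 0 hraw x (by omega)
    rw [zero_add] at hr
    rw [← eM, check_sym hh hck, hs _ lk.top (Nat.sub_le _ _), Nat.sub_sub_self hJ, hr,
      Nat.eq_of_beq_eq_true hk, tableVal]

end Vale.Agent.P355.Cert.Block3D
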