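import Vale.Agent.P355.Cert.Block

/-
P355: one block of the certificate for flags of an arbitrary root type. There are `r` root rows and
`c` root columns; every flag has `a` further rows and `b` further columns; two glued flags leave
`d` rows and `e` columns unused. The pair checker, the packed Gram factor and the raw table are
those of `Block`.
-/

open scoped ComplexConjugate
open Finset

namespace Vale.Agent.P355.Cert.BlockG

open Packed Block

/-- vertices of one side of a glued pair: roots, first flag, second flag, unused -/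
abbrev Side (r a d : ℕ) : Type := Fin r ⊕ Fin a ⊕ Fin a ⊕ Fin d

/-- the six vertices of a side -/
def side {r a d : ℕ} (hr : r + (a + (a + d)) = 6) : Fin 6 ≃ Side r a d :=
  (finCongr hr.symm).trans <| finSumFinEquiv.symm.trans <|
    (Equiv.refl _).sumCongr <| finSumFinEquiv.symm.trans <| (Equiv.refl _).sumCongr finSumFinEquiv.symm

/-- the vertex of the first flag at a glued vertex -/
def selA {r a d : ℕ} : Side r a d → Option (Fin r ⊕ Fin a)
  | .inl x => some (.inl x)
  | .inr (.inl u) => some (.inr u)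
  | _ => none

/-- the vertex of the second flag at a glued vertex -/
def selB {r a d : ℕ} : Side r a d → Option (Fin r ⊕ Fin a)
  | .inl x => some (.inl x)
  | .inr (.inr (.inl u)) => some (.inr u)
  | _ => none

/-- exchange the two flags -/
def swapSide {r a d : ℕ} : Side r a d → Side r a d
  | .inr (.inl u) => .inr (.inr (.inl u))
  | .inr (.inr (.inl u)) => .inr (.inl u)
  | v => v

lemma swapSide_invol {r a d : ℕ} : Function.Involutive (swapSide (r := r) (a := a) (d := d)) := by
  rintro (x | x | x | x) <;> rfl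

lemma selA_swap {r a d : ℕ} (v : Side r a d) : selA (swapSide v) = selB v := by
  rcases v with x | x | x | x <;> rfl

lemma selB_swap {r a d : ℕ} (v : Side r a d) : selB (swapSide v) = selA v := by
  rcases v with x | x | x | x <;> rfl

variable {r a d c b e : ℕ}

/-- flags of a root type -/
abbrev Flag (r a c b : ℕ) : Type := Fin r ⊕ Fin a → Fin c ⊕ Fin b → ℤ

/-- place a flag -/
def put {X Y R C : Type} (u : X → Option R) (v : Y → Option C) (p : R → C → ℤ) (i : X) (j : Y) : ℤ :=
  match u i, v j with
  | some s, some t => p s t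
  | _, _ => 0

/-- the first flag in the glued matrix -/
def placeA (hr : r + (a + (a + d)) = 6) (hc : c + (b + (b + e)) = 6) (p : Flag r a c b) : Expo :=
  fun i j => put selA selA p (side hr i) (side hc j)

/-- the second flag in the glued matrix -/
def placeB (hr : r + (a + (a + d)) = 6) (hc : c + (b + (b + e)) = 6) (p : Flag r a c b) : Expo :=
  fun i j => put selB selB p (side hr i) (side hc j)

/-- two flags glued along the roots, the second conjugated -/
def glueG (hr : r + (a + (a + d)) = 6) (hc : c + (b + (b + e)) = 6) (p q : Flag r a c b) : Expo :=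
  fun i j => placeA hr hc p i j - placeB hr hc q i j

variable {h : Fin 6 → Fin 6 → ℂ}

/-- the monomial of a flag -/
noncomputable def monG (h : Fin 6 → Fin 6 → ℂ) (p : Flag r a c b) (f : Fin r ⊕ Fin a → Fin 6)
    (g : Fin c ⊕ Fin b → Fin 6) : ℂ :=
  ∏ i, ∏ j, h (f i) (g j) ^ p i j

/-- the value of a flag at an assignment of its roots -/
noncomputable def flagG (h : Fin 6 → Fin 6 → ℂ) (p : Flag r a c b) (x : Fin r → Fin 6)
    (y : Fin c → Fin 6) : ℂ :=
  ∑ u : Fin a → Fin 6, ∑ v : Fin b → Fin 6, monG h p (Sum.elim x u) (Sum.elim y v)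

lemma sum_side {r a d : ℕ} (hr : r + (a + (a + d)) = 6) (F : (Fin 6 → Fin 6) → ℂ) :
    ∑ f, F f = ∑ x : Fin r → Fin 6, ∑ u : Fin a → Fin 6, ∑ u' : Fin a → Fin 6, ∑ w : Fin d → Fin 6,
      F (Sum.elim x (Sum.elim u (Sum.elim u' w)) ∘ side hr) := by
  rw [← ((side hr).symm.arrowCongr (Equiv.refl (Fin 6))).sum_comp,
    ← (Equiv.sumArrowEquivProdArrow _ _ (Fin 6)).symm.sum_comp, Fintype.sum_prod_type]
  refine Finset.sum_congr rfl fun x _ => ?_
  rw [← (Equiv.sumArrowEquivProdArrow _ _ (Fin 6)).symm.sum_comp, Fintype.sum_prod_type]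
  refine Finset.sum_congr rfl fun u _ => ?_
  rw [← (Equiv.sumArrowEquivProdArrow _ _ (Fin 6)).symm.sum_comp, Fintype.sum_prod_type]
  refine Finset.sum_congr rfl fun u' _ => Finset.sum_congr rfl fun w _ => ?_
  rfl

lemma monM_side (hr : r + (a + (a + d)) = 6) (hc : c + (b + (b + e)) = 6)
    (P : Side r a d → Side c b e → ℤ) (f : Side r a d → Fin 6) (g : Side c b e → Fin 6) :
    monM h (fun i j => P (side hr i) (side hc j)) (f ∘ side hr) (g ∘ side hc)
      = ∏ i, ∏ j, h (f i) (g j) ^ P i j :=
  Fintype.prod_equiv (side hr) _ _ fun i => Fintype.prod_equiv (side hc) _ _ fun j => rfl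

lemma mon_glueG (hh : InM h) (hr : r + (a + (a + d)) = 6) (hc : c + (b + (b + e)) = 6)
    (p q : Flag r a c b) (x : Fin r → Fin 6) (u u' : Fin a → Fin 6) (w : Fin d → Fin 6)
    (y : Fin c → Fin 6) (v v' : Fin b → Fin 6) (z : Fin e → Fin 6) :
    monM h (glueG hr hc p q) (Sum.elim x (Sum.elim u (Sum.elim u' w)) ∘ side hr)
        (Sum.elim y (Sum.elim v (Sum.elim v' z)) ∘ side hc)
      = monG h p (Sum.elim x u) (Sum.elim y v) * conj (monG h q (Sum.elim x u') (Sum.elim y v')) := by
  unfold glueG
  rw [monM_sub hh]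
  congr 1
  · change monM h (fun i j => put selA selA p (side hr i) (side hc j)) _ _ = _
    rw [monM_side]
    simp [monG, Fintype.prod_sum_type, put, selA]
  · congr 1
    change monM h (fun i j => put selB selB q (side hr i) (side hc j)) _ _ = _
    rw [monM_side]
    simp [monG, Fintype.prod_sum_type, put, selB]

lemma flagG_mul_conj (hh : InM h) (hr : r + (a + (a + d)) = 6) (hc : c + (b + (b + e)) = 6)
    (p q : Flag r a c b) :
    ((6 : ℂ) ^ d * 6 ^ e) * ∑ x, ∑ y, flagG h p x y * conj (flagG h q x y)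
      = homM h (glueG hr hc p q) := by
  rw [homM, sum_side hr, Finset.mul_sum]
  refine Finset.sum_congr rfl fun x _ => ?_
  simp only [sum_side hc, mon_glueG hh, Finset.sum_const, Finset.card_univ, Fintype.card_fun,
    Fintype.card_fin, nsmul_eq_mul, Nat.cast_pow, Nat.cast_ofNat, ← Finset.mul_sum]
  simp only [flagG, map_sum, Finset.mul_sum, Finset.sum_mul]
  -- order on the left: y u' v' u v; on the right: u u' y v v'
  simp only [← Fintype.sum_prod_type', ← mul_assoc]
  exact Fintype.sum_equiv
    { toFun := fun z => (z.2.2.2.1, z.2.1, z.1, z.2.2.2.2, z.2.2.1)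
      invFun := fun z => (z.2.2.1, z.2.1, z.2.2.2.2, z.1, z.2.2.2.1)
      left_inv := fun _ => rfl
      right_inv := fun _ => rfl } _ _ fun _ => rfl

lemma quad_nonneg {n : ℕ} (hh : InM h) (hr : r + (a + (a + d)) = 6) (hc : c + (b + (b + e)) = 6)
    (F : Fin n → Flag r a c b) (z : Fin n → ℝ) :
    0 ≤ ∑ i, ∑ j, z i * z j * (homM h (glueG hr hc (F i) (F j))).re := by
  have key : ∑ i, ∑ j, ((z i * z j : ℝ) : ℂ) * homM h (glueG hr hc (F i) (F j))
      = ((((6 : ℝ) ^ d * 6 ^ e) *
          ∑ x, ∑ y, Complex.normSq (∑ i, (z i : ℂ) * flagG h (F i) x y) : ℝ) : ℂ) := by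
    have he : ∀ x y, ((Complex.normSq (∑ i, (z i : ℂ) * flagG h (F i) x y) : ℝ) : ℂ)
        = ∑ i, ∑ j, ((z i * z j : ℝ) : ℂ) * (flagG h (F i) x y * conj (flagG h (F j) x y)) := by
      intro x y
      rw [← Complex.mul_conj, map_sum, Finset.sum_mul_sum]
      refine Finset.sum_congr rfl fun i _ => Finset.sum_congr rfl fun j _ => ?_
      rw [map_mul, Complex.conj_ofReal, Complex.ofReal_mul]
      ring
    simp only [Complex.ofReal_mul, Complex.ofReal_sum, Complex.ofReal_pow, Complex.ofReal_ofNat, he,
      ← flagG_mul_conj hh, Finset.mul_sum, ← Fintype.sum_prod_type']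
    let eq : Fin n × Fin n × (Fin r → Fin 6) × (Fin c → Fin 6) ≃
        ((Fin r → Fin 6) × (Fin c → Fin 6)) × Fin n × Fin n :=
      { toFun := fun w => ((w.2.2.1, w.2.2.2), w.1, w.2.1)
        invFun := fun w => (w.2.1, w.2.2, w.1.1, w.1.2)
        left_inv := fun _ => rfl
        right_inv := fun _ => rfl }
    refine Fintype.sum_equiv eq _ _ fun w => ?_
    simp only [eq, Equiv.coe_fn_mk]
    ring
  have hre := congrArg Complex.re key
  simp only [Complex.re_sum, Complex.re_ofReal_mul, Complex.ofReal_re] at hre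
  rw [hre]
  exact mul_nonneg (by positivity) (Finset.sum_nonneg fun x _ => Finset.sum_nonneg fun y _ =>
    Complex.normSq_nonneg _)

/-- the sums of squares are nonnegative -/
theorem sosG_nonneg {n : ℕ} (hh : InM h) (hr : r + (a + (a + d)) = 6) (hc : c + (b + (b + e)) = 6)
    (F : Fin n → Flag r a c b) (z : Fin n → ℝ) :
    0 ≤ ∑ i, ∑ j, z i * z j * symM h (glueG hr hc (F i) (F j)) := by
  simp only [symM, mul_add, Finset.sum_add_distrib]
  exact add_nonneg (quad_nonneg hh hr hc F z) (quad_nonneg hh.transp hr hc F z)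

/-- exchanging the two flags -/
lemma symM_glueG_comm (hh : InM h) (hr : r + (a + (a + d)) = 6) (hc : c + (b + (b + e)) = 6)
    (p q : Flag r a c b) : symM h (glueG hr hc q p) = symM h (glueG hr hc p q) := by
  let σ : Equiv.Perm (Fin 6) := (side hr).symm.permCongr swapSide_invol.toPerm
  let τ : Equiv.Perm (Fin 6) := (side hc).symm.permCongr swapSide_invol.toPerm
  have h1 : ∀ i, side hr (σ i) = swapSide (side hr i) := fun i => by simp [σ]
  have h2 : ∀ j, side hc (τ j) = swapSide (side hc j) := fun j => by simp [τ]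
  have e : glueG hr hc q p = fun i j => -glueG hr hc p q (σ i) (τ j) := by
    funext i j
    simp only [glueG, neg_sub, placeA, placeB, h1, h2, put, selA_swap, selB_swap]
  rw [e]
  change symM h (fun i j => -(fun i j => glueG hr hc p q (σ i) (τ j)) i j) = _
  rw [symM_neg hh]
  simp only [symM, homM_perm]

/-- the exponents of a flag, four bits per cell -/
def flagOfG (r a c b F : ℕ) : Flag r a c b :=
  fun i j => (((F >>> (4 * ((c + b) * (finSumFinEquiv i).val + (finSumFinEquiv j).val))) % 16 % 15
    : ℕ) : ℤ) - 7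

lemma flagOfG_small (r a c b F : ℕ) (i : Fin r ⊕ Fin a) (j : Fin c ⊕ Fin b) :
    |flagOfG r a c b F i j| ≤ 7 := by
  have := Nat.mod_lt
    (F >>> (4 * ((c + b) * (finSumFinEquiv i).val + (finSumFinEquiv j).val)) % 16)
    (show 15 > 0 by norm_num)
  simp only [flagOfG, abs_le]
  omega

lemma put_small {X Y R C : Type} (u : X → Option R) (v : Y → Option C) {p : R → C → ℤ}
    (hp : ∀ s t, |p s t| ≤ 7) (i : X) (j : Y) : |put u v p i j| ≤ 7 := by
  unfold put
  cases u i <;> cases v j <;> simp [hp _ _]

/-- the placements of a flag are right -/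
def prepG (hr : r + (a + (a + d)) = 6) (hc : c + (b + (b + e)) = 6) (f : FlagData) : Bool :=
  Nat.beq f.pa (packE (placeA hr hc (flagOfG r a c b f.cells)))
    && Nat.beq f.pb (packE fun i j => -placeB hr hc (flagOfG r a c b f.cells) i j)

/-- a pair of flags verified by `check` -/
theorem glueG_sym_pos (hh : InM h) (hr : r + (a + (a + d)) = 6) (hc : c + (b + (b + e)) = 6)
    {p q : Flag r a c b} (hp : ∀ s t, |p s t| ≤ 7) (hq : ∀ s t, |q s t| ≤ 7)
    {PA PB hint j T J : ℕ} (hA : PA = packE (placeA hr hc p))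
    (hB : PB = packE fun i j => -placeB hr hc q i j) (hj : j ≤ J)
    (hck : check (PA + PB - zeroM) hint j T = true) :
    symM h (glueG hr hc p q) = Real.sqrt 6 ^ (J - j) * ((Real.sqrt 6)⁻¹ ^ J * symM h (expoOf T)) := by
  have hsA : ∀ i j, |placeA hr hc p i j| ≤ 7 := fun i j => put_small _ _ hp _ _
  have hsB : ∀ i j, |placeB hr hc q i j| ≤ 7 := fun i j => put_small _ _ hq _ _
  have eM : expoOf (PA + PB - zeroM) = glueG hr hc p q := by
    rw [hA, hB, ← packE_sub _ _ hsA hsB, expoOf_packE]
    · rfl
    · intro i j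
      have h1 := abs_le.mp (hsA i j)
      have h2 := abs_le.mp (hsB i j)
      rw [abs_le]; constructor <;> omega
  have h6 : Real.sqrt 6 ≠ 0 := Real.sqrt_ne_zero'.mpr (by norm_num)
  have hpow : (Real.sqrt 6)⁻¹ ^ j = Real.sqrt 6 ^ (J - j) * (Real.sqrt 6)⁻¹ ^ J := by
    obtain ⟨k, rfl⟩ := Nat.exists_eq_add_of_le hj
    rw [Nat.add_sub_cancel_left, inv_pow, inv_pow, pow_add, mul_inv]
    field_simp
  rw [← eM, check_sym hh hck, ← mul_assoc, ← hpow]

/-- a certified block of any root type gives a nonnegative combination of table values -/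
theorem blockG_lin (hh : InM h) (hr : r + (a + (a + d)) = 6) (hc : c + (b + (b + e)) = 6)
    (p : Par) (lk : Link) (raw canon : Tree) (fs : List FlagData)
    (L : List (ℕ × ℕ)) (qs : List (ℕ × ℕ × Bool × Bool))
    (hlen : fs.length = L.length) (hok : ok p L.length = true)
    (hprep : fs.all (prepG hr hc) = true)
    (hq : qs.length = lk.nraw) (hraw : rawsOK raw canon qs 0 = true)
    (hgood : Good p lk raw fs L 0 fs.length)
    {SP SN : ℕ} (hSP : chunkP p L 0 L.length = SP) (hSN : chunkN p L 0 L.length = SN) :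
    0 ≤ lin (2 ^ (p.sb - 1)) (coX p.wd SP SN) (coY p.wd SP SN) (tableVal h canon lk.top) := by
  let F : ℕ → Flag r a c b := fun i => flagOfG r a c b ((fs.map FlagData.cells).getD i 0)
  refine block_nonneg p L hok (fun i j => symM h (glueG hr hc (F i) (F j))) _ ?_
    (fun i j => symM_glueG_comm hh hr hc (F j) (F i)) ?_ hSP hSN
  · intro z
    have := sosG_nonneg hh hr hc (fun i : Fin L.length => F i) (fun i => z i)
    simp only [Finset.sum_range]
    exact this
  · intro i j hij hj
    rw [← hlen] at hj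
    obtain ⟨x, hint, hpair⟩ := hgood i j (Nat.zero_le _) (by omega) hij (by omega) hj
    simp only [pairOK, Bool.and_eq_true, Nat.blt, Nat.ble_eq] at hpair
    obtain ⟨⟨⟨hJ, hx⟩, hk⟩, hck⟩ := hpair
    have eF : ∀ k (hk : k < fs.length), F k = flagOfG r a c b (fs[k]).cells := fun k hk => by
      simp only [F, List.getD_eq_getElem?_getD, List.getElem?_map, List.getElem?_eq_getElem hk,
        Option.map_some, Option.getD_some]
    simp only [List.all_eq_true, prepG, Bool.and_eq_true] at hprep
    rw [eF i (by omega), eF j hj,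
      glueG_sym_pos hh hr hc (flagOfG_small r a c b _) (flagOfG_small r a c b _)
        (Nat.eq_of_beq_eq_true (hprep _ (List.getElem_mem (by omega : i < fs.length))).1)
        (Nat.eq_of_beq_eq_true (hprep _ (List.getElem_mem hj)).2) (Nat.sub_le lk.top _) hck,
      Nat.sub_sub_self hJ]
    have := rawsOK_get hh raw canon qs 0 hraw x (by omega)
    rw [zero_add] at this
    rw [tableVal, this, Nat.eq_of_beq_eq_true hk]

end Vale.Agent.P355.Cert.BlockG
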