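import Vale.Agent.P355.Cert.BlockG
import Vale.Agent.P355.Cert.Block3D

/-
P355: one block of the certificate for flags of an arbitrary root type whose roots are restricted by
a weight obtained from merge maps. Map `k` sends root rows by `mr k` and root columns by `mc k`; the
Gram factor is paired with all merged glued matrices, and the accumulators are combined with the
weights `wp k - wn k`. This gives a nonnegative form whenever the induced weight of every root
assignment is nonnegative; two distinct root rows and two distinct root columns are the instance at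
the end.
-/

open scoped ComplexConjugate
open Finset

namespace Vale.Agent.P355.Cert.BlockGD

open Packed Block BlockG Block3D

variable {r a d c b e K : ℕ}

/-- a map of the roots as a map of the six vertices of a side -/
def lift (hr : r + (a + (a + d)) = 6) (m : Fin r → Fin r) : Fin 6 → Fin 6 :=
  fun i => (side hr).symm (Sum.map m id (side hr i))

/-- columns sent by a map of the six column vertices -/
def mapCols (m : Fin 6 → Fin 6) (E : Expo) : Expo := fun i j => ∑ k, if m k = j then E i k else 0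

/-- rows and columns merged -/
def mergeE (hr : r + (a + (a + d)) = 6) (hc : c + (b + (b + e)) = 6) (m : Fin r → Fin r)
    (n : Fin c → Fin c) (E : Expo) : Expo :=
  mapCols (lift hc n) (mapRows (lift hr m) E)

/-- two flags glued along the roots, the roots merged -/
def glueGD (hr : r + (a + (a + d)) = 6) (hc : c + (b + (b + e)) = 6) (m : Fin r → Fin r)
    (n : Fin c → Fin c) (p q : Flag r a c b) : Expo :=
  mergeE hr hc m n (glueG hr hc p q)

/-- the first flag placed and merged -/
def placeAGD (hr : r + (a + (a + d)) = 6) (hc : c + (b + (b + e)) = 6) (m : Fin r → Fin r)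
    (n : Fin c → Fin c) (p : Flag r a c b) : Expo :=
  mergeE hr hc m n (placeA hr hc p)

/-- the second flag placed and merged -/
def placeBGD (hr : r + (a + (a + d)) = 6) (hc : c + (b + (b + e)) = 6) (m : Fin r → Fin r)
    (n : Fin c → Fin c) (q : Flag r a c b) : Expo :=
  mergeE hr hc m n (placeB hr hc q)

/-- the number of root assignments sent to `x` -/
def cnt (m : Fin r → Fin r) (x : Fin r → Fin 6) : ℕ :=
  (univ.filter fun f : Fin r → Fin 6 => f ∘ m = x).card

/-- the weights give every root assignment a nonnegative weight -/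
def PosW (mr : Fin K → Fin r → Fin r) (mc : Fin K → Fin c → Fin c) (wp wn : Fin K → ℕ) : Prop :=
  ∀ x y, ∑ k, wn k * cnt (mr k) x * cnt (mc k) y ≤ ∑ k, wp k * cnt (mr k) x * cnt (mc k) y

/-- the combination over the merge maps -/
noncomputable def mixW (wp wn : Fin K → ℕ) (F : Fin K → ℝ) : ℝ :=
  ∑ k, ((wp k : ℝ) - wn k) * F k

variable {h : Fin 6 → Fin 6 → ℂ}

lemma monM_mapCols (hh : InM h) (m : Fin 6 → Fin 6) (E : Expo) (f g : Fin 6 → Fin 6) :
    monM h (mapCols m E) f g = monM h E f (g ∘ m) := by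
  unfold monM mapCols
  simp only [zpow_sum_ne (hh.ne_zero _ _)]
  refine Finset.prod_congr rfl fun i _ => ?_
  rw [Finset.prod_comm]
  refine Finset.prod_congr rfl fun k _ => ?_
  rw [Finset.prod_eq_single (m k)]
  · simp
  · intro j _ hj
    rw [if_neg fun hx => hj hx.symm, zpow_zero]
  · simp

lemma comp_lift (hr : r + (a + (a + d)) = 6) (m : Fin r → Fin r) (x : Fin r → Fin 6)
    (u u' : Fin a → Fin 6) (w : Fin d → Fin 6) :
    (Sum.elim x (Sum.elim u (Sum.elim u' w)) ∘ side hr) ∘ lift hr m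
      = Sum.elim (x ∘ m) (Sum.elim u (Sum.elim u' w)) ∘ side hr := by
  funext i
  simp only [Function.comp_apply, lift, Equiv.apply_symm_apply]
  rcases side hr i with v | v <;> rfl

lemma sum_comp_map (m : Fin r → Fin r) (G : (Fin r → Fin 6) → ℂ) :
    ∑ f : Fin r → Fin 6, G (f ∘ m) = ∑ x, (cnt m x : ℂ) * G x := by
  rw [← Finset.sum_fiberwise univ (fun f : Fin r → Fin 6 => f ∘ m)]
  refine Finset.sum_congr rfl fun x _ => ?_
  rw [Finset.sum_congr rfl fun f hf => by rw [(Finset.mem_filter.mp hf).2],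
    Finset.sum_const, nsmul_eq_mul]
  rfl

lemma homM_glueGD (hh : InM h) (hr : r + (a + (a + d)) = 6) (hc : c + (b + (b + e)) = 6)
    (m : Fin r → Fin r) (n : Fin c → Fin c) (p q : Flag r a c b) :
    homM h (glueGD hr hc m n p q) = ((6 : ℂ) ^ d * 6 ^ e) *
      ∑ x, ∑ y, ((cnt m x : ℂ) * cnt n y) * (flagG h p x y * conj (flagG h q x y)) := by
  have one : ∀ x y, ∑ u : Fin a → Fin 6, ∑ u' : Fin a → Fin 6, ∑ w : Fin d → Fin 6,
      ∑ v : Fin b → Fin 6, ∑ v' : Fin b → Fin 6, ∑ z : Fin e → Fin 6,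
        monM h (glueG hr hc p q) (Sum.elim x (Sum.elim u (Sum.elim u' w)) ∘ side hr)
          (Sum.elim y (Sum.elim v (Sum.elim v' z)) ∘ side hc)
      = ((6 : ℂ) ^ d * 6 ^ e) * (flagG h p x y * conj (flagG h q x y)) := by
    intro x y
    simp only [mon_glueG hh, Finset.sum_const, Finset.card_univ, Fintype.card_fun, Fintype.card_fin,
      nsmul_eq_mul, Nat.cast_pow, Nat.cast_ofNat, ← Finset.mul_sum]
    simp only [flagG, map_sum, Finset.mul_sum, Finset.sum_mul]
    simp only [← Fintype.sum_prod_type', ← mul_assoc]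
    exact Fintype.sum_equiv
      { toFun := fun z => (z.2.1, z.2.2.2, z.1, z.2.2.1)
        invFun := fun z => (z.2.2.1, z.1, z.2.2.2, z.2.1)
        left_inv := fun _ => rfl
        right_inv := fun _ => rfl } _ _ fun _ => rfl
  calc homM h (glueGD hr hc m n p q)
      = ∑ x : Fin r → Fin 6, ∑ y : Fin c → Fin 6,
          ((6 : ℂ) ^ d * 6 ^ e) *
            (flagG h p (x ∘ m) (y ∘ n) * conj (flagG h q (x ∘ m) (y ∘ n))) := by
        rw [homM, sum_side hr]
        simp only [glueGD, mergeE, monM_mapCols hh, monM_mapRows hh, comp_lift, sum_side hc,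
          ← one]
        refine Finset.sum_congr rfl fun x _ => ?_
        simp only [← Fintype.sum_prod_type']
        exact Fintype.sum_equiv
          { toFun := fun z => (z.2.2.2.1, z.1, z.2.1, z.2.2.1, z.2.2.2.2)
            invFun := fun z => (z.2.1, z.2.2.1, z.2.2.2.1, z.1, z.2.2.2.2)
            left_inv := fun _ => rfl
            right_inv := fun _ => rfl } _ _ fun _ => rfl
    _ = ((6 : ℂ) ^ d * 6 ^ e) *
          ∑ x : Fin r → Fin 6, ∑ y : Fin c → Fin 6,
            flagG h p (x ∘ m) (y ∘ n) * conj (flagG h q (x ∘ m) (y ∘ n)) := by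
        simp only [Finset.mul_sum]
    _ = _ := by
        refine congrArg _ ?_
        rw [sum_comp_map m fun x' => ∑ y : Fin c → Fin 6,
          flagG h p x' (y ∘ n) * conj (flagG h q x' (y ∘ n))]
        refine Finset.sum_congr rfl fun x _ => ?_
        rw [sum_comp_map n fun y' => flagG h p x y' * conj (flagG h q x y'), Finset.mul_sum]
        exact Finset.sum_congr rfl fun y _ => (mul_assoc _ _ _).symm

lemma mix_glueGD (hh : InM h) (hr : r + (a + (a + d)) = 6) (hc : c + (b + (b + e)) = 6)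
    (mr : Fin K → Fin r → Fin r) (mc : Fin K → Fin c → Fin c) (wp wn : Fin K → ℕ)
    (p q : Flag r a c b) :
    ∑ k, ((wp k : ℂ) - wn k) * homM h (glueGD hr hc (mr k) (mc k) p q) = ((6 : ℂ) ^ d * 6 ^ e) *
      ∑ x, ∑ y, (((∑ k, wp k * cnt (mr k) x * cnt (mc k) y : ℕ) : ℂ)
        - ((∑ k, wn k * cnt (mr k) x * cnt (mc k) y : ℕ) : ℂ))
          * (flagG h p x y * conj (flagG h q x y)) := by
  simp only [homM_glueGD hh, Nat.cast_sum, Nat.cast_mul, ← Finset.sum_sub_distrib, Finset.sum_mul,
    Finset.mul_sum]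
  rw [Finset.sum_comm]
  refine Finset.sum_congr rfl fun x _ => ?_
  rw [Finset.sum_comm]
  exact Finset.sum_congr rfl fun y _ => Finset.sum_congr rfl fun k _ => by ring

lemma re_mixGD_nonneg {n : ℕ} (hh : InM h) (hr : r + (a + (a + d)) = 6) (hc : c + (b + (b + e)) = 6)
    {mr : Fin K → Fin r → Fin r} {mc : Fin K → Fin c → Fin c} {wp wn : Fin K → ℕ}
    (hw : PosW mr mc wp wn) (F : Fin n → Flag r a c b) (z : Fin n → ℝ) :
    0 ≤ ∑ i, ∑ j, z i * z j *
      mixW wp wn fun k => (homM h (glueGD hr hc (mr k) (mc k) (F i) (F j))).re := by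
  let W : (Fin r → Fin 6) → (Fin c → Fin 6) → ℝ := fun x y =>
    ((∑ k, wp k * cnt (mr k) x * cnt (mc k) y : ℕ) : ℝ)
      - ((∑ k, wn k * cnt (mr k) x * cnt (mc k) y : ℕ) : ℝ)
  have hW : ∀ x y, 0 ≤ W x y := fun x y => sub_nonneg.mpr (by exact_mod_cast hw x y)
  have hWc : ∀ x y, ((W x y : ℝ) : ℂ) = (((∑ k, wp k * cnt (mr k) x * cnt (mc k) y : ℕ) : ℂ)
      - ((∑ k, wn k * cnt (mr k) x * cnt (mc k) y : ℕ) : ℂ)) := fun x y => by simp [W]
  have key : ∑ i, ∑ j, ((z i * z j : ℝ) : ℂ) *
        ∑ k, ((wp k : ℂ) - wn k) * homM h (glueGD hr hc (mr k) (mc k) (F i) (F j))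
      = ((((6 : ℝ) ^ d * 6 ^ e) *
          ∑ x, ∑ y, W x y * Complex.normSq (∑ i, (z i : ℂ) * flagG h (F i) x y) : ℝ) : ℂ) := by
    have he : ∀ x y, ((W x y * Complex.normSq (∑ i, (z i : ℂ) * flagG h (F i) x y) : ℝ) : ℂ)
        = ∑ i, ∑ j, ((z i * z j : ℝ) : ℂ) *
            ((W x y : ℂ) * (flagG h (F i) x y * conj (flagG h (F j) x y))) := by
      intro x y
      rw [Complex.ofReal_mul, ← Complex.mul_conj, map_sum, Finset.sum_mul_sum, Finset.mul_sum]
      refine Finset.sum_congr rfl fun i _ => ?_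
      rw [Finset.mul_sum]
      refine Finset.sum_congr rfl fun j _ => ?_
      rw [map_mul, Complex.conj_ofReal, Complex.ofReal_mul]
      ring
    simp only [mix_glueGD hh, ← hWc]
    simp only [Complex.ofReal_mul, Complex.ofReal_sum, Complex.ofReal_pow, Complex.ofReal_ofNat] at he ⊢
    simp only [he, Finset.mul_sum, ← Fintype.sum_prod_type']
    let eq : Fin n × Fin n × (Fin r → Fin 6) × (Fin c → Fin 6) ≃
        (Fin r → Fin 6) × (Fin c → Fin 6) × Fin n × Fin n :=
      { toFun := fun w => (w.2.2.1, w.2.2.2, w.1, w.2.1)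
        invFun := fun w => (w.2.2.1, w.2.2.2, w.1, w.2.1)
        left_inv := fun _ => rfl
        right_inv := fun _ => rfl }
    refine Fintype.sum_equiv eq _ _ fun w => ?_
    simp only [eq, Equiv.coe_fn_mk]
    ring
  have hre := congrArg Complex.re key
  have hcast : ∀ k, ((wp k : ℂ) - wn k) = (((wp k : ℝ) - wn k : ℝ) : ℂ) := fun k => by simp
  simp only [hcast, Complex.re_sum, Complex.re_ofReal_mul, Complex.ofReal_re] at hre
  simp only [mixW]
  rw [hre]
  exact mul_nonneg (by positivity) (Finset.sum_nonneg fun x _ => Finset.sum_nonneg fun y _ =>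
    mul_nonneg (hW x y) (Complex.normSq_nonneg _))

/-- the weighted sums of squares are nonnegative -/
theorem sosGD_nonneg {n : ℕ} (hh : InM h) (hr : r + (a + (a + d)) = 6) (hc : c + (b + (b + e)) = 6)
    {mr : Fin K → Fin r → Fin r} {mc : Fin K → Fin c → Fin c} {wp wn : Fin K → ℕ}
    (hw : PosW mr mc wp wn) (F : Fin n → Flag r a c b) (z : Fin n → ℝ) :
    0 ≤ ∑ i, ∑ j, z i * z j *
      mixW wp wn fun k => symM h (glueGD hr hc (mr k) (mc k) (F i) (F j)) := by
  refine le_of_le_of_eq (add_nonneg (re_mixGD_nonneg hh hr hc hw F z)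
    (re_mixGD_nonneg hh.transp hr hc hw F z)) ?_
  simp only [mixW, symM, ← Finset.sum_add_distrib, ← mul_add]

/-- exchange the two flags on a side -/
def swapPerm (hr : r + (a + (a + d)) = 6) : Equiv.Perm (Fin 6) :=
  (side hr).symm.permCongr (swapSide_invol (r := r) (a := a) (d := d)).toPerm

lemma lift_swap (hr : r + (a + (a + d)) = 6) (m : Fin r → Fin r) (i : Fin 6) :
    lift hr m (swapPerm hr i) = swapPerm hr (lift hr m i) := by
  simp only [lift, swapPerm, Equiv.permCongr_apply, Equiv.symm_symm, Function.Involutive.coe_toPerm,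
    Equiv.apply_symm_apply]
  refine congrArg _ ?_
  rcases side hr i with v | v | v | v <;> rfl

lemma mapRows_perm {M : Fin 6 → Fin 6} {σ : Equiv.Perm (Fin 6)} (τ : Equiv.Perm (Fin 6))
    (hM : ∀ i, M (σ i) = σ (M i)) (E : Expo) :
    mapRows M (fun i j => -E (σ i) (τ j)) = fun i j => -mapRows M E (σ i) (τ j) := by
  funext i j
  simp only [mapRows, ← Finset.sum_neg_distrib]
  refine Fintype.sum_equiv σ _ _ fun l => ?_
  have hl : (M (σ l) = σ i) ↔ M l = i := by rw [hM l]; exact σ.apply_eq_iff_eq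
  by_cases hx : M l = i <;> simp [hx, hl]

lemma mapCols_perm {M : Fin 6 → Fin 6} (σ : Equiv.Perm (Fin 6)) {τ : Equiv.Perm (Fin 6)}
    (hM : ∀ i, M (τ i) = τ (M i)) (E : Expo) :
    mapCols M (fun i j => -E (σ i) (τ j)) = fun i j => -mapCols M E (σ i) (τ j) := by
  funext i j
  simp only [mapCols, ← Finset.sum_neg_distrib]
  refine Fintype.sum_equiv τ _ _ fun l => ?_
  have hl : (M (τ l) = τ j) ↔ M l = j := by rw [hM l]; exact τ.apply_eq_iff_eq
  by_cases hx : M l = j <;> simp [hx, hl]

/-- exchanging the two flags -/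
lemma symM_glueGD_comm (hh : InM h) (hr : r + (a + (a + d)) = 6) (hc : c + (b + (b + e)) = 6)
    (m : Fin r → Fin r) (n : Fin c → Fin c) (p q : Flag r a c b) :
    symM h (glueGD hr hc m n q p) = symM h (glueGD hr hc m n p q) := by
  have h1 : ∀ i, side hr (swapPerm hr i) = swapSide (side hr i) := fun i => by simp [swapPerm]
  have h2 : ∀ j, side hc (swapPerm hc j) = swapSide (side hc j) := fun j => by simp [swapPerm]
  have e0 : glueG hr hc q p = fun i j => -glueG hr hc p q (swapPerm hr i) (swapPerm hc j) := by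
    funext i j
    simp only [glueG, neg_sub, placeA, placeB, h1, h2, put, selA_swap, selB_swap]
  rw [glueGD, mergeE, e0, mapRows_perm _ (lift_swap hr m), mapCols_perm _ (lift_swap hc n)]
  change symM h (fun i j => -(fun i j => glueGD hr hc m n p q (swapPerm hr i) (swapPerm hc j)) i j) = _
  rw [symM_neg hh]
  simp only [symM, homM_perm]

lemma mergeE_sub (hr : r + (a + (a + d)) = 6) (hc : c + (b + (b + e)) = 6) (m : Fin r → Fin r)
    (n : Fin c → Fin c) (A B : Expo) :
    mergeE hr hc m n (fun i j => A i j - B i j)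
      = fun i j => mergeE hr hc m n A i j - mergeE hr hc m n B i j := by
  have hR : ∀ M, mapRows M (fun i j => A i j - B i j)
      = fun i j => mapRows M A i j - mapRows M B i j := fun M => by
    funext i j
    simp only [mapRows, ← Finset.sum_sub_distrib]
    exact Finset.sum_congr rfl fun l _ => by split <;> simp
  funext i j
  simp only [mergeE, hR, mapCols, ← Finset.sum_sub_distrib]
  exact Finset.sum_congr rfl fun l _ => by split <;> simp

lemma glueGD_eq (hr : r + (a + (a + d)) = 6) (hc : c + (b + (b + e)) = 6) (m : Fin r → Fin r)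
    (n : Fin c → Fin c) (p q : Flag r a c b) :
    glueGD hr hc m n p q = fun i j => placeAGD hr hc m n p i j - placeBGD hr hc m n q i j :=
  mergeE_sub hr hc m n _ _

/-- the merged placements of a flag are right -/
def prepGD (hr : r + (a + (a + d)) = 6) (hc : c + (b + (b + e)) = 6) (m : Fin r → Fin r)
    (n : Fin c → Fin c) (f : FlagData) : Bool :=
  Nat.beq f.pa (packE (placeAGD hr hc m n (flagOfG r a c b f.cells)))
    && Nat.beq f.pb (packE fun i j => -placeBGD hr hc m n (flagOfG r a c b f.cells) i j)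
    && smallE (placeAGD hr hc m n (flagOfG r a c b f.cells))
    && smallE (placeBGD hr hc m n (flagOfG r a c b f.cells))

/-- the combined accumulator parameters leave room; `W` is the sum of all weights -/
def okGD (p : Par) (W n : ℕ) : Bool := ok p n && Nat.blt (W * (n * n * termMax p)) (2 ^ p.wd)

/-- the lists of all maps, scaled by their weights -/
def comb (wp wn : Fin K → ℕ) (X Y : Fin K → List (ℕ × ℕ)) : List (ℕ × ℕ) :=
  (List.finRange K).flatMap fun k => scale (wp k) (X k) ++ scale (wn k) (Y k)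

lemma map_flatMap_sum {M : Type*} [AddCommMonoid M] (f : List (ℕ × ℕ) → M) (h0 : f [] = 0)
    (hadd : ∀ l m, f (l ++ m) = f l + f m) (Z : Fin K → List (ℕ × ℕ)) :
    f ((List.finRange K).flatMap Z) = ∑ k, f (Z k) := by
  rw [Fin.sum_univ_def]
  induction List.finRange K with
  | nil => simpa using h0
  | cons k l ih => simp [hadd, ih]

lemma mem_comb {wp wn : Fin K → ℕ} {X Y : Fin K → List (ℕ × ℕ)} {B : ℕ}
    (hX : ∀ k, ∀ q ∈ X k, q.1 < B) (hY : ∀ k, ∀ q ∈ Y k, q.1 < B) :
    ∀ q ∈ comb wp wn X Y, q.1 < B := by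
  intro q hq
  simp only [comb, List.mem_flatMap, List.mem_append, scale, List.mem_map] at hq
  obtain ⟨k, -, ⟨x, hx, rfl⟩ | ⟨x, hx, rfl⟩⟩ := hq
  exacts [hX k x hx, hY k x hx]

lemma accS_comb (wd : ℕ) (wp wn : Fin K → ℕ) (X Y : Fin K → List (ℕ × ℕ)) :
    accS wd (comb wp wn X Y) = ∑ k, (wp k * accS wd (X k) + wn k * accS wd (Y k)) := by
  rw [comb, map_flatMap_sum (accS wd) (by simp [accS]) (accS_append wd)]
  simp only [accS_append, accS_scale]

lemma sum_scale (x : ℕ) (l : List (ℕ × ℕ)) :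
    ((scale x l).map fun q => q.2).sum = x * (l.map fun q => q.2).sum := by
  induction l with
  | nil => simp [scale]
  | cons q l ih => simp only [scale, List.map_cons, List.sum_cons] at ih ⊢; rw [ih]; ring

lemma sum_comb {wp wn : Fin K → ℕ} {X Y : Fin K → List (ℕ × ℕ)} {M : ℕ}
    (hX : ∀ k, ((X k).map fun q => q.2).sum ≤ M) (hY : ∀ k, ((Y k).map fun q => q.2).sum ≤ M) :
    ((comb wp wn X Y).map fun q => q.2).sum ≤ (∑ k, (wp k + wn k)) * M := by
  rw [comb, map_flatMap_sum (fun l => (l.map fun q => q.2).sum) rfl (fun l m => by simp),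
    Finset.sum_mul]
  refine Finset.sum_le_sum fun k _ => ?_
  simp only [List.map_append, List.sum_append, sum_scale, add_mul]
  exact Nat.add_le_add (Nat.mul_le_mul_left _ (hX k)) (Nat.mul_le_mul_left _ (hY k))

lemma evalL_comb (v : ℕ → ℝ) (wp wn : Fin K → ℕ) (X Y : Fin K → List (ℕ × ℕ)) :
    evalL v (comb wp wn X Y) - evalL v (comb wp wn Y X)
      = ∑ k, ((wp k : ℝ) - wn k) * (evalL v (X k) - evalL v (Y k)) := by
  rw [comb, comb, map_flatMap_sum (evalL v) (by simp [evalL]) (evalL_append v),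
    map_flatMap_sum (evalL v) (by simp [evalL]) (evalL_append v), ← Finset.sum_sub_distrib]
  exact Finset.sum_congr rfl fun k _ => by simp only [evalL_append, evalL_scale]; ring

lemma fst_getD {l m : List (ℕ × ℕ)} (hlm : l.map Prod.fst = m.map Prod.fst) (i : ℕ) :
    (l.getD i (0, 0)).1 = (m.getD i (0, 0)).1 := by
  have := congrArg (fun t => t[i]?) hlm
  simp only [List.getElem?_map] at this
  simp only [List.getD_eq_getElem?_getD]
  cases h1 : l[i]? <;> cases h2 : m[i]? <;> simp_all

lemma row_lists (p : Par) (hsb : 1 ≤ p.sb) (M : List (ℕ × ℕ)) :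
    ((∀ q ∈ (rowsP p M).flatten, q.1 < 2 * 2 ^ (p.sb - 1)) ∧
        ((rowsP p M).flatten.map fun q => q.2).sum ≤ M.length * M.length * termMax p) ∧
      (∀ q ∈ (rowsN p M).flatten, q.1 < 2 * 2 ^ (p.sb - 1)) ∧
        ((rowsN p M).flatten.map fun q => q.2).sum ≤ M.length * M.length * termMax p := by
  obtain ⟨hP, hN⟩ := rows_small p M
  refine ⟨⟨fun q hq => ?_, small_sum hP⟩, fun q hq => ?_, small_sum hN⟩
  · obtain ⟨⟨x, hx⟩, -⟩ := hP.2 q hq
    rw [hx]; exact slot_lt hsb x
  · obtain ⟨⟨x, hx⟩, -⟩ := hN.2 q hq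
    rw [hx]; exact slot_lt hsb x

/-- code lists with one Gram factor give one nonnegative combination -/
theorem mixedGD_nonneg (p : Par) (n : ℕ) (wp wn : Fin K → ℕ) (L : Fin K → List (ℕ × ℕ))
    (L0 : List (ℕ × ℕ)) (hn : ∀ k, (L k).length = n)
    (hL : ∀ k, (L k).map Prod.fst = L0.map Prod.fst) (hok : okGD p (∑ k, (wp k + wn k)) n = true)
    (g : Fin K → ℕ → ℕ → ℝ) (v : ℕ → ℝ)
    (hpos : ∀ z : ℕ → ℝ, 0 ≤ ∑ i ∈ range n, ∑ j ∈ range n, z i * z j * mixW wp wn fun k => g k i j)
    (hsymm : ∀ k i j, g k i j = g k j i)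
    (hval : ∀ k i j, i ≤ j → j < n →
      g k i j = Real.sqrt 6 ^ jOf p (codeAt p (L k) i j) * v (iOf p (codeAt p (L k) i j)))
    {P N : Fin K → ℕ} (hP : ∀ k, chunkP p (L k) 0 n = P k) (hN : ∀ k, chunkN p (L k) 0 n = N k) :
    0 ≤ lin (2 ^ (p.sb - 1))
      (coX p.wd (∑ k, (wp k * P k + wn k * N k)) (∑ k, (wp k * N k + wn k * P k)))
      (coY p.wd (∑ k, (wp k * P k + wn k * N k)) (∑ k, (wp k * N k + wn k * P k))) v := by
  simp only [okGD, ok, Nat.blt, Bool.and_eq_true, Nat.ble_eq] at hok
  obtain ⟨⟨⟨hsb, hr⟩, -⟩, hwd⟩ := hok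
  have hlen : ∀ M : List (ℕ × ℕ), (rowsP p M).length = M.length ∧ (rowsN p M).length = M.length := by
    clear * - p
    intro M; induction M <;> simp_all [rowsP, rowsN]
  let A : Fin K → List (ℕ × ℕ) := fun k => (rowsP p (L k)).flatten
  let B : Fin K → List (ℕ × ℕ) := fun k => (rowsN p (L k)).flatten
  have hA : ∀ k, accS p.wd (A k) = P k := fun k => by
    rw [← accRows_flatten, ← hP k, chunkP, List.drop_zero,
      List.take_of_length_le (by rw [(hlen _).1, hn k])]
  have hB : ∀ k, accS p.wd (B k) = N k := fun k => by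
    rw [← accRows_flatten, ← hN k, chunkN, List.drop_zero,
      List.take_of_length_le (by rw [(hlen _).2, hn k])]
  have bA : ∀ k, ((A k).map fun q => q.2).sum ≤ n * n * termMax p := fun k => by
    have := (row_lists p hsb (L k)).1.2; rwa [hn k] at this
  have bB : ∀ k, ((B k).map fun q => q.2).sum ≤ n * n * termMax p := fun k => by
    have := (row_lists p hsb (L k)).2.2; rwa [hn k] at this
  have eP : accS p.wd (comb wp wn A B) = ∑ k, (wp k * P k + wn k * N k) := by
    rw [accS_comb]; exact Finset.sum_congr rfl fun k _ => by rw [hA, hB]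
  have eN : accS p.wd (comb wp wn B A) = ∑ k, (wp k * N k + wn k * P k) := by
    rw [accS_comb]; exact Finset.sum_congr rfl fun k _ => by rw [hA, hB]
  rw [← evalL_sub_eq_lin p.wd _ (comb wp wn A B) (comb wp wn B A)
    (mem_comb (fun k => (row_lists p hsb (L k)).1.1) fun k => (row_lists p hsb (L k)).2.1)
    (mem_comb (fun k => (row_lists p hsb (L k)).2.1) fun k => (row_lists p hsb (L k)).1.1)
    (lt_of_le_of_lt (sum_comb bA bB) hwd) (lt_of_le_of_lt (sum_comb bB bA) hwd) eP eN v, evalL_comb]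
  have hev : ∀ k, evalL v (A k) - evalL v (B k) = ∑ i ∈ range n, ∑ j ∈ range n,
      (gram p (L0.getD i (0, 0)).1 (L0.getD j (0, 0)).1 : ℝ) * g k i j := by
    intro k
    have he := rows_eval p hr v (L k) (g k) (hsymm k) (fun i j hij hj => hval k i j hij (by rwa [← hn k]))
    rw [hn k] at he
    simp only [fst_getD (hL k)] at he
    exact he
  refine le_of_le_of_eq (gram_form_nonneg p L0 n (fun i j => mixW wp wn fun k => g k i j) hpos) ?_
  simp only [hev, mixW, Finset.mul_sum]
  rw [Finset.sum_comm (γ := Fin K)]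
  refine Finset.sum_congr rfl fun i _ => ?_
  rw [Finset.sum_comm (γ := Fin K)]
  exact Finset.sum_congr rfl fun k _ => Finset.sum_congr rfl fun j _ => by ring

/-- a certified block with weighted roots gives a nonnegative combination of table values -/
theorem blockGD_lin (hh : InM h) (hr : r + (a + (a + d)) = 6) (hc : c + (b + (b + e)) = 6)
    (mr : Fin K → Fin r → Fin r) (mc : Fin K → Fin c → Fin c) (wp wn : Fin K → ℕ)
    (hw : PosW mr mc wp wn)
    (p : Par) (lk : Link) (raw canon : Tree) (n : ℕ) (cells : List ℕ) (rowsL : List ℕ)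
    (fs : Fin K → List FlagData) (L : Fin K → List (ℕ × ℕ)) (qs : List (ℕ × ℕ × Bool × Bool))
    (hfs : ∀ k, (fs k).length = n) (hn : ∀ k, (L k).length = n)
    (hL : ∀ k, (L k).map Prod.fst = rowsL) (hcells : ∀ k, (fs k).map FlagData.cells = cells)
    (hok : okGD p (∑ k, (wp k + wn k)) n = true)
    (hprep : ∀ k, (fs k).all (prepGD hr hc (mr k) (mc k)) = true)
    (hq : qs.length = lk.nraw) (hraw : rawsOK raw canon qs 0 = true)
    (hgood : ∀ k, Good p lk raw (fs k) (L k) 0 n)
    {P N : Fin K → ℕ} (hP : ∀ k, chunkP p (L k) 0 n = P k) (hN : ∀ k, chunkN p (L k) 0 n = N k)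
    {SP SN : ℕ} (hSP : ∑ k, (wp k * P k + wn k * N k) = SP)
    (hSN : ∑ k, (wp k * N k + wn k * P k) = SN) :
    0 ≤ lin (2 ^ (p.sb - 1)) (coX p.wd SP SN) (coY p.wd SP SN) (tableVal h canon lk.top) := by
  subst hSP hSN
  let F : ℕ → Flag r a c b := fun i => flagOfG r a c b (cells.getD i 0)
  refine mixedGD_nonneg p n wp wn L (rowsL.map fun x => (x, 0)) hn
    (fun k => by rw [hL k, List.map_map]; exact (List.map_id' _).symm) hok
    (fun k i j => symM h (glueGD hr hc (mr k) (mc k) (F i) (F j))) _ ?_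
    (fun k i j => symM_glueGD_comm hh hr hc (mr k) (mc k) (F j) (F i)) ?_ hP hN
  · intro z
    have := sosGD_nonneg hh hr hc hw (fun i : Fin n => F i) (fun i => z i)
    simp only [Finset.sum_range]
    exact this
  · intro k i j hij hj
    obtain ⟨x, hint, hck0⟩ := hgood k i j (Nat.zero_le _) (by omega) hij (by rw [hfs]; omega) (by rw [hfs]; omega)
    simp only [pairOK, Bool.and_eq_true, Nat.blt, Nat.ble_eq] at hck0
    obtain ⟨⟨⟨hJ, hx⟩, hk⟩, hck⟩ := hck0
    have eF : ∀ l (hl : l < (fs k).length), F l = flagOfG r a c b ((fs k)[l]).cells := fun l hl => by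
      simp only [F, ← hcells k, List.getD_eq_getElem?_getD, List.getElem?_map,
        List.getElem?_eq_getElem hl, Option.map_some, Option.getD_some]
    have hp := hprep k
    simp only [List.all_eq_true, prepGD, Bool.and_eq_true, smallE, decide_eq_true_eq] at hp
    have hA := hp _ (List.getElem_mem (show i < (fs k).length by rw [hfs]; omega))
    have hB := hp _ (List.getElem_mem (show j < (fs k).length by rw [hfs]; omega))
    have eM : expoOf (((fs k)[i]'(by rw [hfs]; omega)).pa + ((fs k)[j]'(by rw [hfs]; omega)).pb - zeroM)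
        = glueGD hr hc (mr k) (mc k) (F i) (F j) := by
      rw [Nat.eq_of_beq_eq_true hA.1.1.1, Nat.eq_of_beq_eq_true hB.1.1.2,
        eF i (by rw [hfs]; omega), eF j (by rw [hfs]; omega), ← packE_sub _ _ hA.1.2 hB.2,
        expoOf_packE, glueGD_eq]
      intro s t
      have h1 := abs_le.mp (hA.1.2 s t)
      have h2 := abs_le.mp (hB.2 s t)
      rw [abs_le]; constructor <;> omega
    have hs : ∀ (l J : ℕ), l ≤ J → ∀ y : ℝ,
        (Real.sqrt 6)⁻¹ ^ l * y = Real.sqrt 6 ^ (J - l) * ((Real.sqrt 6)⁻¹ ^ J * y) := by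
      intro l J hl y
      have h6 : Real.sqrt 6 ≠ 0 := Real.sqrt_ne_zero'.mpr (by norm_num)
      obtain ⟨s, rfl⟩ := Nat.exists_eq_add_of_le hl
      rw [Nat.add_sub_cancel_left, inv_pow, inv_pow, pow_add, mul_inv]
      field_simp
    have hraw' := rawsOK_get hh raw canon qs 0 hraw x (by omega)
    rw [zero_add] at hraw'
    rw [← eM, check_sym hh hck, hs _ lk.top (Nat.sub_le _ _), Nat.sub_sub_self hJ, hraw',
      Nat.eq_of_beq_eq_true hk, tableVal]

/-- no merge, both rows, both columns, both merged -/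
def mr22 : Fin 4 → Fin 2 → Fin 2 := ![![0, 1], ![0, 0], ![0, 1], ![0, 0]]

/-- no merge, both rows, both columns, both merged -/
def mc22 : Fin 4 → Fin 2 → Fin 2 := ![![0, 1], ![0, 1], ![0, 0], ![0, 0]]

/-- positive weights of two distinct root rows and two distinct root columns -/
def wp22 : Fin 4 → ℕ := ![36, 0, 0, 1]

/-- negative weights of two distinct root rows and two distinct root columns -/
def wn22 : Fin 4 → ℕ := ![0, 6, 6, 0]

lemma cnt_id2 (x : Fin 2 → Fin 6) : cnt ![0, 1] x = 1 := by revert x; decide +kernel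

lemma cnt_merge2 (x : Fin 2 → Fin 6) : cnt ![0, 0] x = if x 0 = x 1 then 6 else 0 := by
  revert x; decide +kernel

/-- two distinct root rows and two distinct root columns -/
theorem posW22 : PosW mr22 mc22 wp22 wn22 := by
  intro x y
  simp only [Fin.sum_univ_four, mr22, mc22, wp22, wn22, Matrix.cons_val, cnt_id2, cnt_merge2]
  split_ifs <;> norm_num

end Vale.Agent.P355.Cert.BlockGD
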