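import Vale.Agent.P355.Cert.BlockG
import Vale.Agent.P355.Cert.Block3D

/-
P355: one block of the certificate for flags of any root type, with the roots weighted. A variant
merges root rows and root columns and carries a weight `wp - wn`; the same Gram factor is paired
with the glued matrices of all variants. The combination is nonnegative as soon as the total weight
of every assignment of the roots is nonnegative, for example the four variants with weights
36, -6, -6, 1 for two root rows and two root columns, which keep the pairs with distinct root rows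
and distinct root columns.
-/

open scoped ComplexConjugate
open Finset

namespace Vale.Agent.P355.Cert.BlockMix

open Packed Block Block3D BlockG

variable {r a d c b e K : ℕ}

/-- a variant: how the roots are merged, and the two parts of its weight -/
structure Var (r c : ℕ) where
  mr : Fin r → Fin r
  mc : Fin c → Fin c
  wp : ℕ
  wn : ℕ

/-- the map of the six vertices given by a map of the roots -/
def mergeMap (hr : r + (a + (a + d)) = 6) (m : Fin r → Fin r) : Fin 6 → Fin 6 :=
  fun i => (side hr).symm (Sum.map m id (side hr i))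

/-- columns sent by a map of the six column vertices -/
def mapCols (m : Fin 6 → Fin 6) (E : Expo) : Expo := fun i j => ∑ l, if m l = j then E i l else 0

/-- a matrix with the roots merged as in a variant -/
def mapV (hr : r + (a + (a + d)) = 6) (hc : c + (b + (b + e)) = 6) (v : Var r c) (E : Expo) : Expo :=
  mapCols (mergeMap hc v.mc) (mapRows (mergeMap hr v.mr) E)

/-- two flags glued along the roots, the roots merged -/
def glueV (hr : r + (a + (a + d)) = 6) (hc : c + (b + (b + e)) = 6) (v : Var r c)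
    (p q : Flag r a c b) : Expo :=
  mapV hr hc v (glueG hr hc p q)

/-- the combination over the variants -/
noncomputable def mixV (V : Fin K → Var r c) (F : Fin K → ℝ) : ℝ :=
  ∑ k, (((V k).wp : ℝ) - (V k).wn) * F k

/-- the assignments that a merge sends to a given one -/
def cnt (m : Fin r → Fin r) (z : Fin r → Fin 6) : ℕ :=
  ((univ : Finset (Fin r → Fin 6)).filter fun x => x ∘ m = z).card

/-- the total weight of an assignment of the roots -/
def weight (V : Fin K → Var r c) (z : Fin r → Fin 6) (t : Fin c → Fin 6) : ℤ :=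
  ∑ k, (((V k).wp : ℤ) - (V k).wn) * ((cnt (V k).mr z : ℤ) * cnt (V k).mc t)

variable {h : Fin 6 → Fin 6 → ℂ}

lemma monM_mapCols (hh : InM h) (m : Fin 6 → Fin 6) (E : Expo) (f g : Fin 6 → Fin 6) :
    monM h (mapCols m E) f g = monM h E f (g ∘ m) := by
  unfold monM mapCols
  simp only [zpow_sum_ne (hh.ne_zero _ _)]
  refine Finset.prod_congr rfl fun i _ => ?_
  rw [Finset.prod_comm]
  refine Finset.prod_congr rfl fun l _ => ?_
  rw [Finset.prod_eq_single (m l)]
  · simp
  · intro j _ hj
    rw [if_neg fun hx => hj hx.symm, zpow_zero]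
  · simp

lemma elim_mergeMap {X : Type} (hr : r + (a + (a + d)) = 6) (m : Fin r → Fin r)
    (x : Fin r → X) (w : Fin a ⊕ Fin a ⊕ Fin d → X) :
    (Sum.elim x w ∘ side hr) ∘ mergeMap hr m = Sum.elim (x ∘ m) w ∘ side hr := by
  funext i
  simp only [mergeMap, Function.comp_apply, Equiv.apply_symm_apply]
  cases side hr i <;> rfl

lemma homM_glueV (hh : InM h) (hr : r + (a + (a + d)) = 6) (hc : c + (b + (b + e)) = 6)
    (v : Var r c) (p q : Flag r a c b) :
    homM h (glueV hr hc v p q) = ((6 : ℂ) ^ d * 6 ^ e) *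
      ∑ x, ∑ y, flagG h p (x ∘ v.mr) (y ∘ v.mc) * conj (flagG h q (x ∘ v.mr) (y ∘ v.mc)) := by
  simp only [homM, glueV, mapV, monM_mapCols hh, monM_mapRows hh]
  rw [sum_side hr, Finset.mul_sum]
  refine Finset.sum_congr rfl fun x _ => ?_
  simp only [sum_side hc, elim_mergeMap, mon_glueG hh, Finset.sum_const, Finset.card_univ,
    Fintype.card_fun, Fintype.card_fin, nsmul_eq_mul, Nat.cast_pow, Nat.cast_ofNat, ← Finset.mul_sum]
  simp only [flagG, map_sum, Finset.mul_sum, Finset.sum_mul]
  simp only [← Fintype.sum_prod_type', ← mul_assoc]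
  exact Fintype.sum_equiv
    { toFun := fun z => (z.2.2.1, z.2.1, z.2.2.2.2, z.1, z.2.2.2.1)
      invFun := fun z => (z.2.2.2.1, z.2.1, z.1, z.2.2.2.2, z.2.2.1)
      left_inv := fun _ => rfl
      right_inv := fun _ => rfl } _ _ fun _ => rfl

lemma sum_merge {M : Type*} [AddCommMonoid M] (m : Fin r → Fin r) (G : (Fin r → Fin 6) → M) :
    ∑ x, G (x ∘ m) = ∑ z, cnt m z • G z := by
  rw [← Finset.sum_fiberwise univ (fun x : Fin r → Fin 6 => x ∘ m) (fun x => G (x ∘ m))]
  refine Finset.sum_congr rfl fun z _ => ?_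
  rw [Finset.sum_congr rfl fun x hx => congrArg G (Finset.mem_filter.mp hx).2, Finset.sum_const]
  rfl

lemma quadV_nonneg {n : ℕ} (hh : InM h) (hr : r + (a + (a + d)) = 6) (hc : c + (b + (b + e)) = 6)
    (V : Fin K → Var r c) (hW : ∀ z t, 0 ≤ weight V z t) (F : Fin n → Flag r a c b)
    (u : Fin n → ℝ) :
    0 ≤ ∑ i, ∑ j, u i * u j * mixV V fun k => (homM h (glueV hr hc (V k) (F i) (F j))).re := by
  let S : (Fin r → Fin 6) → (Fin c → Fin 6) → ℝ := fun x y =>
    Complex.normSq (∑ i, (u i : ℂ) * flagG h (F i) x y)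
  have hS : ∀ x y, ∑ i, ∑ j, u i * u j *
      (flagG h (F i) x y * conj (flagG h (F j) x y)).re = S x y := by
    intro x y
    have he : ((S x y : ℝ) : ℂ) = ∑ i, ∑ j, ((u i * u j : ℝ) : ℂ) *
        (flagG h (F i) x y * conj (flagG h (F j) x y)) := by
      simp only [S]
      rw [← Complex.mul_conj, map_sum, Finset.sum_mul_sum]
      refine Finset.sum_congr rfl fun i _ => Finset.sum_congr rfl fun j _ => ?_
      rw [map_mul, Complex.conj_ofReal, Complex.ofReal_mul]
      ring
    have := congrArg Complex.re he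
    simp only [Complex.re_sum, Complex.re_ofReal_mul, Complex.ofReal_re] at this
    exact this.symm
  have hk : ∀ k, ∑ i, ∑ j, u i * u j * (homM h (glueV hr hc (V k) (F i) (F j))).re
      = ((6 : ℝ) ^ d * 6 ^ e) *
        ∑ z, ∑ t, ((cnt (V k).mr z : ℝ) * cnt (V k).mc t) * S z t := by
    intro k
    have hz : ∀ i j, (homM h (glueV hr hc (V k) (F i) (F j))).re = ((6 : ℝ) ^ d * 6 ^ e) *
        ∑ z, ∑ t, ((cnt (V k).mr z : ℝ) * cnt (V k).mc t) *
          (flagG h (F i) z t * conj (flagG h (F j) z t)).re := by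
      intro i j
      rw [homM_glueV hh,
        show ((6 : ℂ) ^ d * 6 ^ e) = ((((6 : ℝ) ^ d * 6 ^ e : ℝ)) : ℂ) by push_cast; rfl,
        Complex.re_ofReal_mul, Complex.re_sum]
      refine congrArg _ ?_
      simp only [Complex.re_sum]
      rw [sum_merge (V k).mr fun x => ∑ y, (flagG h (F i) x (y ∘ (V k).mc) *
        conj (flagG h (F j) x (y ∘ (V k).mc))).re]
      refine Finset.sum_congr rfl fun z _ => ?_
      rw [sum_merge (V k).mc fun y => (flagG h (F i) z y * conj (flagG h (F j) z y)).re,
        nsmul_eq_mul, Finset.mul_sum]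
      exact Finset.sum_congr rfl fun t _ => by rw [nsmul_eq_mul, mul_assoc]
    simp only [hz, ← hS, Finset.mul_sum]
    simp only [← Fintype.sum_prod_type']
    refine Fintype.sum_equiv
      { toFun := fun w => (w.2.2.1, w.2.2.2, w.1, w.2.1)
        invFun := fun w => (w.2.2.1, w.2.2.2, w.1, w.2.1)
        left_inv := fun _ => rfl
        right_inv := fun _ => rfl } _ _ fun w => ?_
    simp only [Equiv.coe_fn_mk]
    ring
  have key : ∑ i, ∑ j, u i * u j * mixV V (fun k => (homM h (glueV hr hc (V k) (F i) (F j))).re)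
      = ((6 : ℝ) ^ d * 6 ^ e) * ∑ z, ∑ t, (weight V z t : ℝ) * S z t := by
    calc _ = ∑ k, (((V k).wp : ℝ) - (V k).wn) *
          ∑ i, ∑ j, u i * u j * (homM h (glueV hr hc (V k) (F i) (F j))).re := by
          simp only [mixV, Finset.mul_sum]
          simp only [← Fintype.sum_prod_type']
          refine Fintype.sum_equiv
            { toFun := fun w => (w.2.2, w.1, w.2.1)
              invFun := fun w => (w.2.1, w.2.2, w.1)
              left_inv := fun _ => rfl
              right_inv := fun _ => rfl } _ _ fun w => ?_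
          simp only [Equiv.coe_fn_mk]
          ring
      _ = _ := by
          simp only [hk, weight, Int.cast_sum, Int.cast_mul, Int.cast_sub, Int.cast_natCast,
            Finset.mul_sum, Finset.sum_mul]
          simp only [← Fintype.sum_prod_type']
          refine Fintype.sum_equiv
            { toFun := fun w => (w.2.1, w.2.2, w.1)
              invFun := fun w => (w.2.2, w.1, w.2.1)
              left_inv := fun _ => rfl
              right_inv := fun _ => rfl } _ _ fun w => ?_
          simp only [Equiv.coe_fn_mk]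
          ring
  rw [key]
  exact mul_nonneg (by positivity) (Finset.sum_nonneg fun z _ => Finset.sum_nonneg fun t _ =>
    mul_nonneg (by exact_mod_cast hW z t) (Complex.normSq_nonneg _))

/-- the weighted sums of squares are nonnegative -/
theorem sosV_nonneg {n : ℕ} (hh : InM h) (hr : r + (a + (a + d)) = 6) (hc : c + (b + (b + e)) = 6)
    (V : Fin K → Var r c) (hW : ∀ z t, 0 ≤ weight V z t) (F : Fin n → Flag r a c b)
    (u : Fin n → ℝ) :
    0 ≤ ∑ i, ∑ j, u i * u j * mixV V fun k => symM h (glueV hr hc (V k) (F i) (F j)) := by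
  refine le_of_le_of_eq (add_nonneg (quadV_nonneg hh hr hc V hW F u)
    (quadV_nonneg hh.transp hr hc V hW F u)) ?_
  simp only [mixV, symM, mul_add, Finset.sum_add_distrib]

/-- exchanging the two flags -/
lemma symM_glueV_comm (hh : InM h) (hr : r + (a + (a + d)) = 6) (hc : c + (b + (b + e)) = 6)
    (v : Var r c) (p q : Flag r a c b) :
    symM h (glueV hr hc v q p) = symM h (glueV hr hc v p q) := by
  let σ : Equiv.Perm (Fin 6) := (side hr).symm.permCongr swapSide_invol.toPerm
  let τ : Equiv.Perm (Fin 6) := (side hc).symm.permCongr swapSide_invol.toPerm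
  have h1 : ∀ i, side hr (σ i) = swapSide (side hr i) := fun i => by simp [σ]
  have h2 : ∀ j, side hc (τ j) = swapSide (side hc j) := fun j => by simp [τ]
  have e1 : ∀ i, mergeMap hr v.mr (σ i) = σ (mergeMap hr v.mr i) := fun i => by
    apply (side hr).injective
    simp only [mergeMap, h1, Equiv.apply_symm_apply]
    rcases side hr i with x | x | x | x <;> rfl
  have e2 : ∀ j, mergeMap hc v.mc (τ j) = τ (mergeMap hc v.mc j) := fun j => by
    apply (side hc).injective
    simp only [mergeMap, h2, Equiv.apply_symm_apply]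
    rcases side hc j with x | x | x | x <;> rfl
  have eG : ∀ i j, glueG hr hc q p i j = -glueG hr hc p q (σ i) (τ j) := fun i j => by
    simp only [glueG, neg_sub, placeA, placeB, h1, h2, put, selA_swap, selB_swap]
  have eV : glueV hr hc v q p = fun i j => -glueV hr hc v p q (σ i) (τ j) := by
    funext i j
    simp only [glueV, mapV, mapCols, mapRows, ← Finset.sum_neg_distrib]
    refine Fintype.sum_equiv τ _ _ fun l => ?_
    have hl : (mergeMap hc v.mc (τ l) = τ j) ↔ mergeMap hc v.mc l = j := by
      rw [e2 l]; exact τ.apply_eq_iff_eq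
    by_cases hx : mergeMap hc v.mc l = j
    · rw [if_pos hx, if_pos (hl.mpr hx), ← Finset.sum_neg_distrib]
      refine Fintype.sum_equiv σ _ _ fun k => ?_
      have hk : (mergeMap hr v.mr (σ k) = σ i) ↔ mergeMap hr v.mr k = i := by
        rw [e1 k]; exact σ.apply_eq_iff_eq
      by_cases hy : mergeMap hr v.mr k = i
      · rw [if_pos hy, if_pos (hk.mpr hy), eG]
      · rw [if_neg hy, if_neg (fun hz => hy (hk.mp hz)), neg_zero]
    · rw [if_neg hx, if_neg (fun hz => hx (hl.mp hz)), neg_zero]
  rw [eV]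
  change symM h (fun i j => -(fun i j => glueV hr hc v p q (σ i) (τ j)) i j) = _
  rw [symM_neg hh]
  simp only [symM, homM_perm]

lemma glueV_eq (hr : r + (a + (a + d)) = 6) (hc : c + (b + (b + e)) = 6) (v : Var r c)
    (p q : Flag r a c b) :
    glueV hr hc v p q
      = fun i j => mapV hr hc v (placeA hr hc p) i j - mapV hr hc v (placeB hr hc q) i j := by
  funext i j
  simp only [glueV, glueG, mapV, mapCols, mapRows, ← Finset.sum_sub_distrib]
  refine Finset.sum_congr rfl fun l _ => ?_
  by_cases hl : mergeMap hc v.mc l = j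
  · simp only [hl, if_true, ← Finset.sum_sub_distrib]
    exact Finset.sum_congr rfl fun k _ => by
      by_cases hk : mergeMap hr v.mr k = i <;> simp [hk]
  · simp [hl]

/-- the merged placements of a flag are right -/
def prepV (hr : r + (a + (a + d)) = 6) (hc : c + (b + (b + e)) = 6) (v : Var r c) (f : FlagData) :
    Bool :=
  Nat.beq f.pa (packE (mapV hr hc v (placeA hr hc (flagOfG r a c b f.cells))))
    && Nat.beq f.pb (packE fun i j => -mapV hr hc v (placeB hr hc (flagOfG r a c b f.cells)) i j)
    && smallE (mapV hr hc v (placeA hr hc (flagOfG r a c b f.cells)))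
    && smallE (mapV hr hc v (placeB hr hc (flagOfG r a c b f.cells)))

/-- the combined accumulator parameters leave room -/
def okMix (p : Par) (n : ℕ) (V : Fin K → Var r c) : Bool :=
  ok p n && Nat.blt ((∑ k, ((V k).wp + (V k).wn)) * (n * n * termMax p)) (2 ^ p.wd)

lemma flatMap_sum (f : Fin K → List (ℕ × ℕ)) (g : ℕ × ℕ → ℕ) :
    (((List.finRange K).flatMap f).map g).sum = ∑ k, ((f k).map g).sum := by
  rw [List.map_flatMap, List.flatMap_def, List.sum_flatten, List.map_map, ← List.sum_toFinset _
    (List.nodup_finRange K), List.toFinset_finRange]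
  rfl

lemma evalL_flatMap (v : ℕ → ℝ) (f : Fin K → List (ℕ × ℕ)) :
    evalL v ((List.finRange K).flatMap f) = ∑ k, evalL v (f k) := by
  simp only [evalL]
  rw [List.map_flatMap, List.flatMap_def, List.sum_flatten, List.map_map, ← List.sum_toFinset _
    (List.nodup_finRange K), List.toFinset_finRange]
  rfl

lemma accS_flatMap (wd : ℕ) (f : Fin K → List (ℕ × ℕ)) :
    accS wd ((List.finRange K).flatMap f) = ∑ k, accS wd (f k) := by
  have h : ∀ l : List (Fin K), accS wd (l.flatMap f) = (l.map fun k => accS wd (f k)).sum := by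
    intro l
    induction l with
    | nil => simp [accS]
    | cons k l ih => simp [accS_append, ih]
  rw [h, ← List.sum_toFinset _ (List.nodup_finRange K), List.toFinset_finRange]

/-- several code lists with one Gram factor give one nonnegative combination -/
theorem mixedV_nonneg (p : Par) (n : ℕ) (V : Fin K → Var r c) (L : Fin K → List (ℕ × ℕ))
    (K0 : List ℕ) (hn : ∀ k, (L k).length = n) (hL : ∀ k, (L k).map Prod.fst = K0)
    (hok : okMix p n V = true) (g : Fin K → ℕ → ℕ → ℝ) (v : ℕ → ℝ)
    (hpos : ∀ z : ℕ → ℝ, 0 ≤ ∑ a ∈ range n, ∑ b ∈ range n, z a * z b * mixV V fun k => g k a b)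
    (hsymm : ∀ k a b, g k a b = g k b a)
    (hval : ∀ k a b, a ≤ b → b < n →
      g k a b = Real.sqrt 6 ^ jOf p (codeAt p (L k) a b) * v (iOf p (codeAt p (L k) a b)))
    {P N : Fin K → ℕ} (hP : ∀ k, chunkP p (L k) 0 n = P k) (hN : ∀ k, chunkN p (L k) 0 n = N k)
    {SP SN : ℕ} (hSP : ∑ k, ((V k).wp * P k + (V k).wn * N k) = SP)
    (hSN : ∑ k, ((V k).wp * N k + (V k).wn * P k) = SN) :
    0 ≤ lin (2 ^ (p.sb - 1)) (coX p.wd SP SN) (coY p.wd SP SN) v := by
  simp only [okMix, ok, Nat.blt, Bool.and_eq_true, Nat.ble_eq] at hok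
  obtain ⟨⟨⟨hsb, hr⟩, -⟩, hwd⟩ := hok
  have hlen : ∀ M : List (ℕ × ℕ), (rowsP p M).length = M.length ∧ (rowsN p M).length = M.length := by
    intro M; induction M <;> simp_all [rowsP, rowsN]
  let A : Fin K → List (ℕ × ℕ) := fun k => (rowsP p (L k)).flatten
  let B : Fin K → List (ℕ × ℕ) := fun k => (rowsN p (L k)).flatten
  have hA : ∀ k, accS p.wd (A k) = P k := fun k => by
    rw [← accRows_flatten, ← hP k, chunkP, List.drop_zero,
      List.take_of_length_le (by rw [(hlen _).1, hn k])]
  have hB : ∀ k, accS p.wd (B k) = N k := fun k => by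
    rw [← accRows_flatten, ← hN k, chunkN, List.drop_zero,
      List.take_of_length_le (by rw [(hlen _).2, hn k])]
  have bA : ∀ k, (∀ q ∈ A k, q.1 < 2 * 2 ^ (p.sb - 1)) ∧
      ((A k).map fun q => q.2).sum ≤ n * n * termMax p := by
    intro k
    have hs := (rows_small p (L k)).1
    refine ⟨fun q hq => ?_, by have := small_sum hs; rwa [hn k] at this⟩
    obtain ⟨⟨x, hx⟩, -⟩ := hs.2 q hq
    rw [hx]; exact slot_lt hsb x
  have bB : ∀ k, (∀ q ∈ B k, q.1 < 2 * 2 ^ (p.sb - 1)) ∧
      ((B k).map fun q => q.2).sum ≤ n * n * termMax p := by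
    intro k
    have hs := (rows_small p (L k)).2
    refine ⟨fun q hq => ?_, by have := small_sum hs; rwa [hn k] at this⟩
    obtain ⟨⟨x, hx⟩, -⟩ := hs.2 q hq
    rw [hx]; exact slot_lt hsb x
  have hsum : ∀ (w : ℕ) (l : List (ℕ × ℕ)),
      ((scale w l).map fun q => q.2).sum = w * (l.map fun q => q.2).sum := by
    intro w l
    induction l with
    | nil => simp [scale]
    | cons q l ih => simp only [scale, List.map_cons, List.sum_cons] at ih ⊢; rw [ih]; ring
  let lp := (List.finRange K).flatMap fun k => scale (V k).wp (A k) ++ scale (V k).wn (B k)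
  let ln := (List.finRange K).flatMap fun k => scale (V k).wp (B k) ++ scale (V k).wn (A k)
  have hp : ∀ q ∈ lp, q.1 < 2 * 2 ^ (p.sb - 1) := by
    intro q hq
    simp only [lp, scale, List.mem_flatMap, List.mem_append, List.mem_map] at hq
    obtain ⟨k, -, ⟨x, hx, rfl⟩ | ⟨x, hx, rfl⟩⟩ := hq
    exacts [(bA k).1 x hx, (bB k).1 x hx]
  have hq' : ∀ q ∈ ln, q.1 < 2 * 2 ^ (p.sb - 1) := by
    intro q hq
    simp only [ln, scale, List.mem_flatMap, List.mem_append, List.mem_map] at hq
    obtain ⟨k, -, ⟨x, hx, rfl⟩ | ⟨x, hx, rfl⟩⟩ := hq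
    exacts [(bB k).1 x hx, (bA k).1 x hx]
  have sp : (lp.map fun q => q.2).sum < 2 ^ p.wd := by
    refine lt_of_le_of_lt ?_ hwd
    rw [flatMap_sum, Finset.sum_mul]
    refine Finset.sum_le_sum fun k _ => ?_
    rw [List.map_append, List.sum_append, hsum, hsum, add_mul]
    exact Nat.add_le_add (Nat.mul_le_mul_left _ (bA k).2) (Nat.mul_le_mul_left _ (bB k).2)
  have sn : (ln.map fun q => q.2).sum < 2 ^ p.wd := by
    refine lt_of_le_of_lt ?_ hwd
    rw [flatMap_sum, Finset.sum_mul]
    refine Finset.sum_le_sum fun k _ => ?_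
    rw [List.map_append, List.sum_append, hsum, hsum, add_mul]
    exact Nat.add_le_add (Nat.mul_le_mul_left _ (bB k).2) (Nat.mul_le_mul_left _ (bA k).2)
  rw [← evalL_sub_eq_lin p.wd _ lp ln hp hq' sp sn
    (by simp only [lp, accS_flatMap, accS_append, accS_scale, hA, hB, hSP])
    (by simp only [ln, accS_flatMap, accS_append, accS_scale, hA, hB, hSN]) v]
  have hev : ∀ k, evalL v (A k) - evalL v (B k) = ∑ a ∈ range n, ∑ b ∈ range n,
      (gram p (K0.getD a 0) (K0.getD b 0) : ℝ) * g k a b := by
    intro k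
    have he := rows_eval p hr v (L k) (g k) (hsymm k) (fun a b hab hb => hval k a b hab (by rwa [← hn k]))
    have hf : ∀ a, ((L k).getD a (0, 0)).1 = K0.getD a 0 := fun a => by
      rw [← hL k, List.getD_eq_getElem?_getD, List.getD_eq_getElem?_getD, List.getElem?_map]
      cases (L k)[a]? <;> simp
    rw [hn k] at he
    simp only [hf] at he
    exact he
  have hsplit : evalL v lp - evalL v ln = ∑ a ∈ range n, ∑ b ∈ range n,
      (gram p (K0.getD a 0) (K0.getD b 0) : ℝ) * mixV V fun k => g k a b := by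
    simp only [lp, ln, evalL_flatMap, evalL_append, evalL_scale, ← Finset.sum_sub_distrib]
    rw [Finset.sum_congr rfl fun k _ => show (((V k).wp : ℝ) * evalL v (A k) +
        ((V k).wn : ℝ) * evalL v (B k)) - (((V k).wp : ℝ) * evalL v (B k) +
        ((V k).wn : ℝ) * evalL v (A k)) = (((V k).wp : ℝ) - (V k).wn) *
        (evalL v (A k) - evalL v (B k)) by ring]
    simp only [hev, mixV, Finset.mul_sum]
    rw [Finset.sum_comm]
    refine Finset.sum_congr rfl fun a _ => ?_
    rw [Finset.sum_comm]
    exact Finset.sum_congr rfl fun b _ => Finset.sum_congr rfl fun k _ => mul_left_comm _ _ _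
  rw [hsplit]
  have := gram_form_nonneg p (K0.map fun x => (x, 0)) n (fun a b => mixV V fun k => g k a b) hpos
  have hK : ∀ a, ((K0.map fun x => (x, 0)).getD a (0, 0)).1 = K0.getD a 0 := fun a => by
    rw [List.getD_eq_getElem?_getD, List.getD_eq_getElem?_getD, List.getElem?_map]
    cases K0[a]? <;> simp
  simpa only [hK] using this

/-- a certified block with weighted roots gives a nonnegative combination of table values -/
theorem blockMix_lin (hh : InM h) (hr : r + (a + (a + d)) = 6) (hc : c + (b + (b + e)) = 6)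
    (V : Fin K → Var r c) (hW : ∀ z t, 0 ≤ weight V z t)
    (p : Par) (lk : Link) (raw canon : Tree) (n : ℕ)
    (fs : Fin K → List FlagData) (L : Fin K → List (ℕ × ℕ)) (qs : List (ℕ × ℕ × Bool × Bool))
    (K0 C0 : List ℕ) (hfs : ∀ k, (fs k).length = n) (hn : ∀ k, (L k).length = n)
    (hL : ∀ k, (L k).map Prod.fst = K0) (hcells : ∀ k, (fs k).map FlagData.cells = C0)
    (hok : okMix p n V = true) (hprep : ∀ k, (fs k).all (prepV hr hc (V k)) = true)
    (hq : qs.length = lk.nraw) (hraw : rawsOK raw canon qs 0 = true)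
    (hgood : ∀ k, Good p lk raw (fs k) (L k) 0 n)
    {P N : Fin K → ℕ} (hP : ∀ k, chunkP p (L k) 0 n = P k) (hN : ∀ k, chunkN p (L k) 0 n = N k)
    {SP SN : ℕ} (hSP : ∑ k, ((V k).wp * P k + (V k).wn * N k) = SP)
    (hSN : ∑ k, ((V k).wp * N k + (V k).wn * P k) = SN) :
    0 ≤ lin (2 ^ (p.sb - 1)) (coX p.wd SP SN) (coY p.wd SP SN) (tableVal h canon lk.top) := by
  let F : ℕ → Flag r a c b := fun i => flagOfG r a c b (C0.getD i 0)
  refine mixedV_nonneg p n V L K0 hn hL hok
    (fun k i j => symM h (glueV hr hc (V k) (F i) (F j))) _ ?_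
    (fun k i j => symM_glueV_comm hh hr hc (V k) (F j) (F i)) ?_ hP hN hSP hSN
  · intro z
    have := sosV_nonneg hh hr hc V hW (fun i : Fin n => F i) (fun i => z i)
    simp only [Finset.sum_range]
    exact this
  · intro k i j hij hj
    obtain ⟨x, hint, hpair⟩ := hgood k i j (Nat.zero_le _) (by omega) hij (by rw [hfs]; omega)
      (by rw [hfs]; omega)
    simp only [pairOK, Bool.and_eq_true, Nat.blt, Nat.ble_eq] at hpair
    obtain ⟨⟨⟨hJ, hx⟩, hk⟩, hck⟩ := hpair
    have eF : ∀ u (hu : u < (fs k).length), F u = flagOfG r a c b ((fs k)[u]).cells := fun u hu => by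
      simp only [F, ← hcells k, List.getD_eq_getElem?_getD, List.getElem?_map,
        List.getElem?_eq_getElem hu, Option.map_some, Option.getD_some]
    have hp := hprep k
    simp only [List.all_eq_true, prepV, Bool.and_eq_true, smallE, decide_eq_true_eq] at hp
    have hA := hp _ (List.getElem_mem (show i < (fs k).length by rw [hfs]; omega))
    have hB := hp _ (List.getElem_mem (show j < (fs k).length by rw [hfs]; omega))
    have eM : expoOf (((fs k)[i]'(by rw [hfs]; omega)).pa + ((fs k)[j]'(by rw [hfs]; omega)).pb - zeroM)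
        = glueV hr hc (V k) (F i) (F j) := by
      rw [Nat.eq_of_beq_eq_true hA.1.1.1, Nat.eq_of_beq_eq_true hB.1.1.2,
        eF i (by rw [hfs]; omega), eF j (by rw [hfs]; omega), ← packE_sub _ _ hA.1.2 hB.2,
        expoOf_packE, glueV_eq]
      intro u w
      have h1 := abs_le.mp (hA.1.2 u w)
      have h2 := abs_le.mp (hB.2 u w)
      rw [abs_le]; constructor <;> omega
    have hs : ∀ (m J : ℕ), m ≤ J → ∀ y : ℝ,
        (Real.sqrt 6)⁻¹ ^ m * y = Real.sqrt 6 ^ (J - m) * ((Real.sqrt 6)⁻¹ ^ J * y) := by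
      intro m J hm y
      have h6 : Real.sqrt 6 ≠ 0 := Real.sqrt_ne_zero'.mpr (by norm_num)
      obtain ⟨l, rfl⟩ := Nat.exists_eq_add_of_le hm
      rw [Nat.add_sub_cancel_left, inv_pow, inv_pow, pow_add, mul_inv]
      field_simp
    have hr' := rawsOK_get hh raw canon qs 0 hraw x (by omega)
    rw [zero_add] at hr'
    rw [← eM, check_sym hh hck, hs _ lk.top (Nat.sub_le _ _), Nat.sub_sub_self hJ, hr',
      Nat.eq_of_beq_eq_true hk, tableVal]

/-- two root rows and two root columns, both distinct -/
def V22 : Fin 4 → Var 2 2 :=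
  ![⟨id, id, 36, 0⟩, ⟨fun _ => 0, id, 0, 6⟩, ⟨id, fun _ => 0, 0, 6⟩,
    ⟨fun _ => 0, fun _ => 0, 1, 0⟩]

lemma cnt_merge2 : ∀ z : Fin 2 → Fin 6,
    cnt (fun _ => (0 : Fin 2)) z = if z 0 = z 1 then 6 else 0 := by decide +kernel

lemma cnt_id (z : Fin r → Fin 6) : cnt id z = 1 := by simp [cnt, Finset.filter_eq']

lemma weight_V22 (z t : Fin 2 → Fin 6) : 0 ≤ weight V22 z t := by
  simp only [weight, Fin.sum_univ_four, V22, Matrix.cons_val_zero, Matrix.cons_val_one,
    Matrix.cons_val, cnt_merge2, cnt_id]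
  split <;> split <;> norm_num

end Vale.Agent.P355.Cert.BlockMix
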