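import Vale.Agent.P355.Cert.BlockMix

/-
P355: the root weights that keep three distinct root rows next to one root column. The finite check
of the weights is kept apart from the general block file so that it builds in parallel.
-/

open Finset

namespace Vale.Agent.P355.Cert.BlockMix

/-- three distinct root rows and one root column -/
def V31 : Fin 5 → Var 3 1 :=
  ![⟨id, id, 36, 0⟩, ⟨![0, 0, 2], id, 0, 6⟩, ⟨![0, 1, 0], id, 0, 6⟩, ⟨![0, 1, 1], id, 0, 6⟩,
    ⟨fun _ => 0, id, 2, 0⟩]

lemma cnt_rows3 : ∀ z : Fin 3 → Fin 6,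
    0 ≤ ∑ k, (((V31 k).wp : ℤ) - (V31 k).wn) * (cnt (V31 k).mr z : ℤ) := by decide +kernel

lemma weight_V31 (z : Fin 3 → Fin 6) (t : Fin 1 → Fin 6) : 0 ≤ weight V31 z t := by
  have hc : ∀ k, (V31 k).mc = id := fun k => by fin_cases k <;> rfl
  simp only [weight, hc, cnt_id, Nat.cast_one, mul_one]
  exact cnt_rows3 z

end Vale.Agent.P355.Cert.BlockMix
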