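import Vale.Agent.P355.Cert.Glue

/-!
Diagrams with at most six vertices on each side as six by six exponent matrices.
-/

open scoped BigOperators ComplexConjugate

namespace Vale.Agent.P355.Cert

variable {h : Fin 6 → Fin 6 → ℂ}

/-- The exponent matrix of a diagram. -/
def Dg.mat (D : Dg) (i j : Fin 6) : ℤ :=
  (D.edges.map fun e => if e.row = i.val ∧ e.col = j.val then e.expo else 0).sum

lemma prod_mat (hh : InM h) (f g : Fin 6 → Fin 6) : ∀ (es : List Edge),
    (∀ e ∈ es, e.row < 6 ∧ e.col < 6) →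
    ∏ i : Fin 6, ∏ j : Fin 6, h (f i) (g j) ^
      ((es.map fun e => if e.row = i.val ∧ e.col = j.val then e.expo else 0).sum) =
      mon h es (lift f) (lift g)
  | [], _ => by simp [mon]
  | e :: es, he => by
    obtain ⟨hr, hc⟩ := he e (by simp)
    simp only [List.map_cons, List.sum_cons, zpow_add₀ (ne_zero_inM hh _ _), Finset.prod_mul_distrib,
      prod_mat hh f g es fun x hx => he x (List.mem_cons_of_mem _ hx), mon_cons]
    congr 1
    rw [Finset.prod_eq_single (⟨e.row, hr⟩ : Fin 6), Finset.prod_eq_single (⟨e.col, hc⟩ : Fin 6)]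
    · simp [lift, hr, hc]
    · intro j _ hj
      rw [if_neg fun hx => hj (Fin.ext hx.2.symm), zpow_zero]
    · simp
    · intro i _ hi
      exact Finset.prod_eq_one fun j _ => by
        rw [if_neg fun hx => hi (Fin.ext hx.1.symm), zpow_zero]
    · simp

lemma sum_pad {n : ℕ} (k : ℕ) (F : Asg → ℂ) (hF : ∀ v, n ≤ v → Free F v) :
    sumV (List.range (n + k)) F z0 = (6 : ℂ) ^ k * sumV (List.range n) F z0 := by
  induction k with
  | zero => simp
  | succ k ih =>
    rw [← Nat.add_assoc, List.range_succ, sumV_perm (List.perm_append_singleton (n + k) _),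
      sumV_free (hF _ (Nat.le_add_right n k)), ih]
    ring

/-- The sum over all maps of six row labels and six column labels. -/
theorem sum_mat (hh : InM h) (D : Dg) (hD : D.WF) (hr : D.nr ≤ 6) (hc : D.nc ≤ 6) :
    ∑ f : Fin 6 → Fin 6, ∑ g : Fin 6 → Fin 6, ∏ i, ∏ j, h (f i) (g j) ^ D.mat i j =
      (6 : ℂ) ^ (6 - D.nr) * 6 ^ (6 - D.nc) * hom h D := by
  have e : ∀ f g : Fin 6 → Fin 6, ∏ i, ∏ j, h (f i) (g j) ^ D.mat i j =
      mon h D.edges (lift f) (lift g) := fun f g =>
    prod_mat hh f g D.edges fun e he => ⟨(hD e he).1.trans_le hr, (hD e he).2.trans_le hc⟩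
  simp only [e]
  rw [sum_lift 6 fun A => ∑ g : Fin 6 → Fin 6, mon h D.edges A (lift g),
    sumV_congr fun A => sum_lift 6 (mon h D.edges A), hom_eq_val]
  have hC : ∀ A : Asg, sumV (List.range 6) (mon h D.edges A) z0 =
      (6 : ℂ) ^ (6 - D.nc) * sumV (List.range D.nc) (mon h D.edges A) z0 := fun A => by
    conv_lhs => rw [show (6 : ℕ) = D.nc + (6 - D.nc) by omega]
    exact sum_pad _ _ fun v hv => mon_free_c (fun e he => ((hD e he).2.trans_le hv).ne) A
  rw [sumV_congr hC, sumV_mul_left]
  conv_lhs => rw [show List.range 6 = List.range (D.nr + (6 - D.nr)) by congr 1; omega]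
  rw [sum_pad _ _ fun v hv A x => ?_]
  · unfold val
    ring
  · exact sumV_congr (fun B => mon_free_r (fun e he => ((hD e he).1.trans_le hv).ne) B A x) _ _

end Vale.Agent.P355.Cert
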