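import Vale.Agent.P355.Cert.Glue

/-!
The symmetrised moment, its trivial bound, and the quadratic forms for it.
-/

open scoped BigOperators ComplexConjugate

namespace Vale.Agent.P355.Cert

/-- The moment of a diagram, averaged with the transposed matrix (not normalised). -/
noncomputable def momS (h : Fin 6 → Fin 6 → ℂ) (D : Dg) : ℝ :=
  mom h D + mom (fun k l => h l k) D

variable {h : Fin 6 → Fin 6 → ℂ}

lemma norm_mon (hh : InM h) (E : List Edge) (a b : Asg) : ‖mon h E a b‖ = 1 := by
  induction E with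
  | nil => simp [mon]
  | cons e E ih => simp [mon_cons, hh.unimod, ih]

lemma norm_hom_le (hh : InM h) (D : Dg) : ‖hom h D‖ ≤ 6 ^ (D.nr + D.nc) := by
  refine le_trans (norm_sum_le _ _) ?_
  refine le_trans (Finset.sum_le_sum fun f _ => norm_sum_le _ _) ?_
  simp [norm_mon hh, pow_add]

lemma abs_momS_le (hh : InM h) (D : Dg) : |momS h D| ≤ 2 * 6 ^ (D.nr + D.nc) := by
  have h1 := (Complex.abs_re_le_norm (hom h D)).trans (norm_hom_le hh D)
  have h2 := (Complex.abs_re_le_norm _).trans (norm_hom_le (inM_transpose hh) D)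
  unfold momS mom
  refine (abs_add_le _ _).trans ?_
  linarith

lemma momS_tr (D : Dg) : momS h D.tr = momS h D := by
  unfold momS mom
  rw [hom_tr, hom_tr (h := fun k l => h l k), add_comm]

lemma momS_neg (hh : InM h) (D : Dg) : momS h D.neg = momS h D := by
  unfold momS
  rw [mom_neg hh, mom_neg (inM_transpose hh)]

theorem sosS_nonneg (hh : InM h) {n : ℕ} (D : Fin n → Dg)
    (hD : ∀ i, (D i).WF ∧ 2 ≤ (D i).nr ∧ 1 ≤ (D i).nc) {m : ℕ} (x : Fin m → Fin n → ℝ) :
    0 ≤ ∑ i, ∑ j, (∑ k, x k i * x k j) * momS h (glue (D i) (D j)) := by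
  simp only [momS, mul_add, Finset.sum_add_distrib]
  exact add_nonneg (sos_nonneg hh D hD x) (sos_nonneg (inM_transpose hh) D hD x)

end Vale.Agent.P355.Cert
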