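import Vale.Agent.P355.Cert.Check
import Vale.Agent.P355.Cert.Bridge
import Vale.Agent.P355.Cert.Moments

/-!
P355: diagrams of at most six vertices on each side enter the table of packed matrices.
-/

open scoped BigOperators ComplexConjugate

namespace Vale.Agent.P355.Cert

variable {h : Fin 6 → Fin 6 → ℂ}

lemma homM_mat (hh : InM h) (D : Dg) (hD : D.WF) (hr : D.nr ≤ 6) (hc : D.nc ≤ 6) :
    homM h D.mat = (((6 : ℝ) ^ (6 - D.nr) * 6 ^ (6 - D.nc) : ℝ) : ℂ) * hom h D := by
  unfold homM monM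
  rw [sum_mat hh D hD hr hc]
  push_cast
  rfl

/-- The symmetrised moment of a diagram through its exponent matrix. -/
theorem symM_mat (hh : InM h) (D : Dg) (hD : D.WF) (hr : D.nr ≤ 6) (hc : D.nc ≤ 6) :
    symM h D.mat = (6 : ℝ) ^ (6 - D.nr) * 6 ^ (6 - D.nc) * momS h D := by
  have h1 : homM (fun i j => h j i) D.mat =
      (((6 : ℝ) ^ (6 - D.nr) * 6 ^ (6 - D.nc) : ℝ) : ℂ) * hom (fun i j => h j i) D :=
    homM_mat hh.transp D hD hr hc
  unfold symM momS mom
  rw [homM_mat hh D hD hr hc, h1, Complex.re_ofReal_mul, Complex.re_ofReal_mul]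
  ring

/-- A diagram whose exponents pack to `P` and reduce to `T`. -/
theorem momS_check (hh : InM h) (D : Dg) (hD : D.WF) (hr : D.nr ≤ 6) (hc : D.nc ≤ 6)
    {P hint j T : ℕ} (hP : expoOf P = D.mat) (hk : check P hint j T = true) :
    (6 : ℝ) ^ (6 - D.nr) * 6 ^ (6 - D.nc) * momS h D =
      ((Real.sqrt 6)⁻¹) ^ j * symM h (expoOf T) := by
  rw [← symM_mat hh D hD hr hc, ← hP, check_sym hh hk]

/-- exponent matrices agree when their finitely many entries agree -/
def sameExpo (P : ℕ) (D : Dg) : Bool := decide (∀ i j : Fin 6, expoOf P i j = D.mat i j)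

lemma sameExpo_sound {P : ℕ} {D : Dg} (hs : sameExpo P D = true) : expoOf P = D.mat :=
  funext fun i => funext fun j => of_decide_eq_true hs i j

end Vale.Agent.P355.Cert
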