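import Mathlib
import Vale.Agent.P355.PhiDefs

/-
P355: diagrams for the degree eight certificate. A diagram is a small bipartite graph with integer
exponents on its edges; its value is the sum over all maps of its row vertices and column vertices
to indices. On regular Hadamard matrices a column or row vertex with a single edge, or with two
edges of exponents one and minus one, can be summed out, so every value reduces to a short list of
reduced diagrams.
-/

open scoped BigOperators ComplexConjugate
open Finset

namespace Vale.Agent.P355.Cert

/-- an edge: row vertex, column vertex, exponent -/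
structure Edge where
  row : ℕ
  col : ℕ
  expo : ℤ
deriving DecidableEq

/-- a diagram -/
structure Dg where
  nr : ℕ
  nc : ℕ
  edges : List Edge
deriving DecidableEq

/-- all edges lie between existing vertices -/
def Dg.WF (D : Dg) : Prop := ∀ e ∈ D.edges, e.row < D.nr ∧ e.col < D.nc

/-- extend an assignment of finitely many vertices -/
def lift {n : ℕ} (f : Fin n → Fin 6) (i : ℕ) : Fin 6 := if hi : i < n then f ⟨i, hi⟩ else 0

/-- the monomial of a list of edges at an assignment -/
noncomputable def mon (h : Fin 6 → Fin 6 → ℂ) (es : List Edge) (f g : ℕ → Fin 6) : ℂ :=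
  (es.map fun e => h (f e.row) (g e.col) ^ e.expo).prod

/-- the value of a diagram: the sum over all assignments -/
noncomputable def hom (h : Fin 6 → Fin 6 → ℂ) (D : Dg) : ℂ :=
  ∑ f : Fin D.nr → Fin 6, ∑ g : Fin D.nc → Fin 6, mon h D.edges (lift f) (lift g)

/-- the real moment -/
noncomputable def mom (h : Fin 6 → Fin 6 → ℂ) (D : Dg) : ℝ := (hom h D).re

/-- a flag: a diagram whose first two row vertices and first column vertex are roots -/
noncomputable def flag (h : Fin 6 → Fin 6 → ℂ) (D : Dg) (a b : Fin 6) (c : Fin 6) : ℂ :=
  ∑ f : Fin (D.nr - 2) → Fin 6, ∑ g : Fin (D.nc - 1) → Fin 6,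
    mon h D.edges
      (fun i => if i = 0 then a else if i = 1 then b else lift f (i - 2))
      (fun i => if i = 0 then c else lift g (i - 1))

/-- two flags glued along the roots, the second one conjugated -/
def glue (D E : Dg) : Dg where
  nr := D.nr + (E.nr - 2)
  nc := D.nc + (E.nc - 1)
  edges := D.edges ++ E.edges.map fun e =>
    ⟨if e.row < 2 then e.row else D.nr + (e.row - 2),
     if e.col < 1 then e.col else D.nc + (e.col - 1), -e.expo⟩

/-- transposed diagram -/
def Dg.tr (D : Dg) : Dg := ⟨D.nc, D.nr, D.edges.map fun e => ⟨e.col, e.row, e.expo⟩⟩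

/-- conjugate diagram -/
def Dg.neg (D : Dg) : Dg := ⟨D.nr, D.nc, D.edges.map fun e => ⟨e.row, e.col, -e.expo⟩⟩

end Vale.Agent.P355.Cert
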