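import Vale.Agent.P355.Cert.Semantics

/-!
Gluing two flags along their three roots, and nonnegativity of the glued quadratic forms.
-/

open scoped BigOperators ComplexConjugate

namespace Vale.Agent.P355.Cert

variable {h : Fin 6 → Fin 6 → ℂ}

/-- `u` on labels below `p`, then `v`. -/
def cat (p : ℕ) (u v : Asg) : Asg := fun i => if i < p then u i else v (i - p)

/-- The row assignment of a flag. -/
def rootR (a b : Fin 6) (u : Asg) : Asg := fun i => if i = 0 then a else if i = 1 then b else u (i - 2)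

/-- The column assignment of a flag. -/
def rootC (c : Fin 6) (u : Asg) : Asg := fun i => if i = 0 then c else u (i - 1)

lemma lift_append {p q : ℕ} (f : Fin p → Fin 6) (g : Fin q → Fin 6) :
    lift (Fin.append f g) = cat p (lift f) (lift g) := by
  funext i
  unfold cat lift
  by_cases hi : i < p
  · rw [if_pos hi, dif_pos hi, dif_pos (Nat.lt_add_right q hi)]
    exact Fin.append_left f g ⟨i, hi⟩
  · rw [if_neg hi]
    by_cases hq : i - p < q
    · rw [dif_pos hq, dif_pos (show i < p + q by omega),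
        show (⟨i, _⟩ : Fin (p + q)) = Fin.natAdd p ⟨i - p, hq⟩ from Fin.ext (by simp; omega),
        Fin.append_right]
    · rw [dif_neg hq, dif_neg (show ¬ i < p + q by omega)]

lemma sum_cat {M : Type*} [AddCommMonoid M] (p q : ℕ) (F : Asg → M) :
    ∑ f : Fin (p + q) → Fin 6, F (lift f) =
      ∑ f : Fin p → Fin 6, ∑ g : Fin q → Fin 6, F (cat p (lift f) (lift g)) := by
  rw [← (Fin.appendEquiv p q).sum_comp, Fintype.sum_prod_type]
  exact Finset.sum_congr rfl fun f _ => Finset.sum_congr rfl fun g _ => by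
    rw [← lift_append]
    rfl

lemma sum_roots {M : Type*} [AddCommMonoid M] (p : ℕ) (F : Asg → M) :
    ∑ f : Fin (2 + p) → Fin 6, F (lift f) =
      ∑ a, ∑ b, ∑ f : Fin p → Fin 6, F (rootR a b (lift f)) := by
  rw [sum_cat, ← (finTwoArrowEquiv (Fin 6)).symm.sum_comp, Fintype.sum_prod_type]
  refine Finset.sum_congr rfl fun a _ => Finset.sum_congr rfl fun b _ =>
    Finset.sum_congr rfl fun f _ => congrArg F (funext fun i => ?_)
  rcases i with _ | _ | i <;> simp [cat, rootR, lift]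

lemma sum_root {M : Type*} [AddCommMonoid M] (p : ℕ) (F : Asg → M) :
    ∑ f : Fin (1 + p) → Fin 6, F (lift f) = ∑ c, ∑ f : Fin p → Fin 6, F (rootC c (lift f)) := by
  rw [sum_cat, ← (Equiv.funUnique (Fin 1) (Fin 6)).symm.sum_comp]
  refine Finset.sum_congr rfl fun a _ =>
    Finset.sum_congr rfl fun f _ => congrArg F (funext fun i => ?_)
  rcases i with _ | i <;> simp [cat, rootC, lift]

lemma flag_eq (D : Dg) (a b c : Fin 6) :
    flag h D a b c = ∑ f : Fin (D.nr - 2) → Fin 6, ∑ g : Fin (D.nc - 1) → Fin 6,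
      mon h D.edges (rootR a b (lift f)) (rootC c (lift g)) := rfl

lemma sum_prod_swap {ι ι' κ α α' : Type*} [Fintype ι] [Fintype ι'] [Fintype κ] [Fintype α]
    [Fintype α'] (A : ι → κ → α → ℂ) (B : ι' → κ → α' → ℂ) :
    ∑ f, ∑ f', ∑ c, ∑ g, ∑ g', A f c g * B f' c g' =
      ∑ c, (∑ f, ∑ g, A f c g) * ∑ f', ∑ g', B f' c g' := by
  rw [Finset.sum_congr rfl fun f _ => Finset.sum_comm, Finset.sum_comm]
  refine Finset.sum_congr rfl fun c _ => ?_
  rw [Finset.sum_mul_sum]
  exact Finset.sum_congr rfl fun f _ => Finset.sum_congr rfl fun f' _ => by rw [Finset.sum_mul_sum]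

lemma sum_swap32 {ι : Type*} [Fintype ι] (T : Fin 6 → Fin 6 → Fin 6 → ι → ι → ℂ) :
    ∑ a, ∑ b, ∑ c, ∑ i, ∑ j, T a b c i j = ∑ i, ∑ j, ∑ a, ∑ b, ∑ c, T a b c i j := by
  have h1 : ∀ (S : ι → ι → ℂ), ∑ i, ∑ j, S i j = ∑ z : ι × ι, S z.1 z.2 := fun S =>
    (Fintype.sum_prod_type fun z : ι × ι => S z.1 z.2).symm
  simp only [h1]
  calc ∑ a, ∑ b, ∑ c, ∑ z : ι × ι, T a b c z.1 z.2
      = ∑ a, ∑ b, ∑ z : ι × ι, ∑ c, T a b c z.1 z.2 :=
        Finset.sum_congr rfl fun a _ => Finset.sum_congr rfl fun b _ => Finset.sum_comm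
    _ = ∑ a, ∑ z : ι × ι, ∑ b, ∑ c, T a b c z.1 z.2 :=
        Finset.sum_congr rfl fun a _ => Finset.sum_comm
    _ = _ := Finset.sum_comm

lemma flag_eq_of {D : Dg} {p q : ℕ} (hp : D.nr - 2 = p) (hq : D.nc - 1 = q) (a b c : Fin 6) :
    flag h D a b c = ∑ f : Fin p → Fin 6, ∑ g : Fin q → Fin 6,
      mon h D.edges (rootR a b (lift f)) (rootC c (lift g)) := by
  subst hp hq
  rfl

/-- A glued diagram is the sum over the roots of a flag times a conjugated flag. -/
theorem hom_glue (hh : InM h) {D E : Dg} (hD : D.WF) (hDr : 2 ≤ D.nr) (hDc : 1 ≤ D.nc) :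
    hom h (glue D E) = ∑ a, ∑ b, ∑ c, flag h D a b c * conj (flag h E a b c) := by
  obtain ⟨nr, nc, es⟩ := D
  obtain ⟨p, rfl⟩ : ∃ p, nr = 2 + p := ⟨nr - 2, by simp only at hDr; omega⟩
  obtain ⟨q, rfl⟩ : ∃ q, nc = 1 + q := ⟨nc - 1, by simp only at hDc; omega⟩
  have key : ∀ (u v u' v' : Asg) (a b c : Fin 6),
      mon h (glue ⟨2 + p, 1 + q, es⟩ E).edges (cat (2 + p) (rootR a b u) u') (cat (1 + q) (rootC c v) v')
        = mon h es (rootR a b u) (rootC c v) *
            conj (mon h E.edges (rootR a b u') (rootC c v')) := by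
    intro u v u' v' a b c
    simp only [glue]
    rw [mon_append]
    congr 1
    · exact mon_congr (fun e he => if_pos (hD e he).1) fun e he => if_pos (hD e he).2
    · rw [← mon_bar hh]
      simp only [mon, List.map_map]
      congr 1
      refine List.map_congr_left fun e _ => ?_
      simp only [Function.comp_apply, Edge.bar]
      congr 2
      · by_cases h2 : e.row < 2
        · rw [if_pos h2, cat, if_pos (by omega)]
          rcases Nat.lt_succ_iff.1 h2 |> Nat.le_one_iff_eq_zero_or_eq_one.1 with h0 | h1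
          · simp [rootR, h0]
          · simp [rootR, h1]
        · rw [if_neg h2, cat, if_neg (by omega), rootR, if_neg (by omega), if_neg (by omega)]
          congr 1
          omega
      · by_cases h1 : e.col < 1
        · rw [if_pos h1, cat, if_pos (by omega)]
          simp [rootC, Nat.lt_one_iff.1 h1]
        · rw [if_neg h1, cat, if_neg (by omega), rootC, if_neg (by omega)]
          congr 1
          omega
  have hom' : hom h (glue ⟨2 + p, 1 + q, es⟩ E) =
      ∑ a, ∑ b, ∑ f : Fin p → Fin 6, ∑ f' : Fin (E.nr - 2) → Fin 6,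
      ∑ c, ∑ g : Fin q → Fin 6, ∑ g' : Fin (E.nc - 1) → Fin 6,
        mon h (glue ⟨2 + p, 1 + q, es⟩ E).edges (cat (2 + p) (rootR a b (lift f)) (lift f'))
          (cat (1 + q) (rootC c (lift g)) (lift g')) := by
    show ∑ f : Fin (2 + p + (E.nr - 2)) → Fin 6, ∑ g : Fin (1 + q + (E.nc - 1)) → Fin 6,
        mon h (glue ⟨2 + p, 1 + q, es⟩ E).edges (lift f) (lift g) = _
    rw [sum_cat (2 + p) (E.nr - 2) fun A => ∑ g : Fin (1 + q + (E.nc - 1)) → Fin 6,
        mon h (glue ⟨2 + p, 1 + q, es⟩ E).edges A (lift g),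
      sum_roots p fun A => ∑ f' : Fin (E.nr - 2) → Fin 6,
        ∑ g : Fin (1 + q + (E.nc - 1)) → Fin 6,
          mon h (glue ⟨2 + p, 1 + q, es⟩ E).edges (cat (2 + p) A (lift f')) (lift g)]
    refine Finset.sum_congr rfl fun a _ => Finset.sum_congr rfl fun b _ =>
      Finset.sum_congr rfl fun f _ => Finset.sum_congr rfl fun f' _ => ?_
    rw [sum_cat (1 + q) (E.nc - 1),
      sum_root q fun B => ∑ g' : Fin (E.nc - 1) → Fin 6,
        mon h (glue ⟨2 + p, 1 + q, es⟩ E).edges (cat (2 + p) (rootR a b (lift f)) (lift f'))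
          (cat (1 + q) B (lift g'))]
  rw [hom']
  refine Finset.sum_congr rfl fun a _ => Finset.sum_congr rfl fun b _ => ?_
  have e1 : (2 : ℕ) + p - 2 = p := by omega
  have e2 : (1 : ℕ) + q - 1 = q := by omega
  simp only [key, flag_eq_of (D := ⟨2 + p, 1 + q, es⟩) e1 e2, flag_eq E, map_sum]
  exact sum_prod_swap
    (fun f c g => mon h es (rootR a b (lift f)) (rootC c (lift g)))
    (fun f' c g' => conj (mon h E.edges (rootR a b (lift f')) (rootC c (lift g'))))

/-- The glued quadratic form of a real vector is nonnegative. -/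
theorem sos_nonneg (hh : InM h) {n : ℕ} (D : Fin n → Dg)
    (hD : ∀ i, (D i).WF ∧ 2 ≤ (D i).nr ∧ 1 ≤ (D i).nc) {m : ℕ} (x : Fin m → Fin n → ℝ) :
    0 ≤ ∑ i, ∑ j, (∑ k, x k i * x k j) * mom h (glue (D i) (D j)) := by
  have h1 : ∀ k, ∑ i, ∑ j, (x k i * x k j) * mom h (glue (D i) (D j)) =
      ∑ a, ∑ b, ∑ c, Complex.normSq (∑ i, (x k i : ℂ) * flag h (D i) a b c) := fun k => by
    have e : ∀ (a b c : Fin 6), (Complex.normSq (∑ i, (x k i : ℂ) * flag h (D i) a b c) : ℂ) =
        ∑ i, ∑ j, ((x k i * x k j : ℝ) : ℂ) * (flag h (D i) a b c * conj (flag h (D j) a b c)) :=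
      fun a b c => by
      rw [← Complex.mul_conj, map_sum, Finset.sum_mul_sum]
      refine Finset.sum_congr rfl fun i _ => Finset.sum_congr rfl fun j _ => ?_
      rw [map_mul, Complex.conj_ofReal]
      push_cast
      ring
    have e2 : ((∑ a, ∑ b, ∑ c, Complex.normSq (∑ i, (x k i : ℂ) * flag h (D i) a b c) : ℝ) : ℂ) =
        ∑ i, ∑ j, ((x k i * x k j : ℝ) : ℂ) * hom h (glue (D i) (D j)) := by
      push_cast
      simp only [e, hom_glue hh (hD _).1 (hD _).2.1 (hD _).2.2, Finset.mul_sum]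
      push_cast
      exact sum_swap32 fun a b c i j =>
        (x k i : ℂ) * (x k j : ℂ) * (flag h (D i) a b c * conj (flag h (D j) a b c))
    have := congrArg Complex.re e2
    simp only [Complex.ofReal_re, Complex.re_sum, Complex.re_ofReal_mul] at this
    rw [this]
    rfl
  calc (0 : ℝ) ≤ ∑ k, ∑ a, ∑ b, ∑ c, Complex.normSq (∑ i, (x k i : ℂ) * flag h (D i) a b c) :=
        Finset.sum_nonneg fun k _ => Finset.sum_nonneg fun a _ => Finset.sum_nonneg fun b _ =>
          Finset.sum_nonneg fun c _ => Complex.normSq_nonneg _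
    _ = ∑ k, ∑ i, ∑ j, (x k i * x k j) * mom h (glue (D i) (D j)) :=
        Finset.sum_congr rfl fun k _ => (h1 k).symm
    _ = _ := by
        rw [Finset.sum_comm]
        refine Finset.sum_congr rfl fun i _ => ?_
        rw [Finset.sum_comm]
        exact Finset.sum_congr rfl fun j _ => (Finset.sum_mul ..).symm

end Vale.Agent.P355.Cert
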