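import Vale.Agent.P355.Cert.Block

/-
P355: a staged checker for the linear identities given by seven distinct row vertices. A state has
a list of rows with pairwise distinct values and a list of rows with free values; rows are packed
as in `Pack`, columns are always free. One step frees a distinct row, subtracts its merges with the
other distinct rows, removes free rows that sum out, and collects equal states.
-/

open scoped BigOperators ComplexConjugate
open Finset

namespace Vale.Agent.P355.Cert.Ident

/-! ### sums over distinct values -/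

/-- The sum over distinct values outside `U`. -/
def injS : List (Fin 6 → ℂ) → Finset (Fin 6) → ℂ
  | [], _ => 1
  | u :: l, U => ∑ x, if x ∈ U then 0 else u x * injS l (insert x U)

/-- One entry multiplied by `d`, in every position. -/
def mulAt (d : Fin 6 → ℂ) : List (Fin 6 → ℂ) → List (List (Fin 6 → ℂ))
  | [] => []
  | v :: l => ((fun y => d y * v y) :: l) :: (mulAt d l).map (v :: ·)

/-- The total over the positions. -/
def mulSum (d : Fin 6 → ℂ) (l : List (Fin 6 → ℂ)) (U : Finset (Fin 6)) : ℂ :=
  ((mulAt d l).map fun m => injS m U).sum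

lemma mulSum_cons (d v : Fin 6 → ℂ) (l : List (Fin 6 → ℂ)) (U : Finset (Fin 6)) :
    mulSum d (v :: l) U = ∑ y, if y ∈ U then 0 else
      (d y * v y * injS l (insert y U) + v y * mulSum d l (insert y U)) := by
  simp only [mulSum, mulAt, List.map_cons, List.sum_cons, List.map_map, injS]
  generalize mulAt d l = L
  induction L with
  | nil => simp
  | cons m L ih =>
    simp only [List.map_cons, List.sum_cons, Function.comp_apply, injS] at ih ⊢
    rw [add_left_comm, ih, ← Finset.sum_add_distrib]
    refine Finset.sum_congr rfl fun y _ => ?_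
    split_ifs <;> ring

/-- Excluding one more value. -/
lemma injS_insert (x : Fin 6) : ∀ (l : List (Fin 6 → ℂ)) (U : Finset (Fin 6)),
    injS l (insert x U) = injS l U - mulSum (fun y => if y = x then 1 else 0) l U
  | [], U => by simp [injS, mulSum, mulAt]
  | v :: l, U => by
    rw [mulSum_cons, injS, injS, ← Finset.sum_sub_distrib]
    refine Finset.sum_congr rfl fun y _ => ?_
    by_cases hy : y ∈ U
    · simp [hy]
    simp only [hy, if_false]
    by_cases hx : y = x
    · subst hx
      have := injS_insert y l (insert y U)
      rw [Finset.insert_idem] at this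
      simp only [Finset.mem_insert_self, if_true]
      linear_combination (v y) * this
    · simp only [Finset.mem_insert, hx, hy, or_self, if_false]
      rw [Finset.insert_comm, injS_insert x l (insert y U)]
      ring

lemma sum_mulSum (u : Fin 6 → ℂ) : ∀ (l : List (Fin 6 → ℂ)) (U : Finset (Fin 6)),
    ∑ x, u x * mulSum (fun y => if y = x then 1 else 0) l U = mulSum u l U
  | [], U => by simp [mulSum, mulAt]
  | v :: l, U => by
    simp only [mulSum_cons, Finset.mul_sum]
    rw [Finset.sum_comm]
    refine Finset.sum_congr rfl fun y _ => ?_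
    split_ifs with hy
    · simp
    · rw [← sum_mulSum u l (insert y U)]
      simp only [mul_add, Finset.sum_add_distrib, Finset.mul_sum]
      congr 1
      · simp [mul_assoc]
      · exact Finset.sum_congr rfl fun x _ => by ring

/-- Freeing the first value. -/
theorem injS_step (u : Fin 6 → ℂ) (l : List (Fin 6 → ℂ)) :
    injS (u :: l) ∅ = (∑ x, u x) * injS l ∅ - mulSum u l ∅ := by
  rw [injS, ← sum_mulSum u l ∅, Finset.sum_mul, ← Finset.sum_sub_distrib]
  refine Finset.sum_congr rfl fun x _ => ?_
  simp only [Finset.notMem_empty, if_false]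
  rw [injS_insert x l ∅]
  ring

theorem injS_eq_zero : ∀ (l : List (Fin 6 → ℂ)) (U : Finset (Fin 6)),
    6 < U.card + l.length → injS l U = 0
  | [], U, h => by
    have := Finset.card_le_univ U
    simp at h this
    omega
  | u :: l, U, h => by
    rw [injS]
    refine Finset.sum_eq_zero fun x _ => ?_
    split_ifs with hx
    · rfl
    · have hlt : 6 < (insert x U).card + l.length := by
        rw [Finset.card_insert_of_notMem hx]
        simp only [List.length_cons] at h
        omega
      rw [injS_eq_zero l (insert x U) hlt, mul_zero]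

theorem injS_perm {l l' : List (Fin 6 → ℂ)} (p : l.Perm l') : ∀ U, injS l U = injS l' U := by
  induction p with
  | nil => exact fun _ => rfl
  | cons u _ ih => intro U; simp only [injS, ih]
  | swap u v l =>
    intro U
    simp only [injS, mul_ite, Finset.mul_sum, mul_zero]
    have e : ∀ (a c : Fin 6 → ℂ), ∑ x, (if x ∈ U then 0 else ∑ y, if y ∈ insert x U then 0 else
          a x * (c y * injS l (insert y (insert x U)))) =
        ∑ x, ∑ y, if x ∈ U ∨ y ∈ U ∨ x = y then 0 else
          a x * c y * injS l (insert y (insert x U)) := by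
      intro a c
      refine Finset.sum_congr rfl fun x _ => ?_
      by_cases hx : x ∈ U
      · simp [hx]
      · rw [if_neg hx]
        refine Finset.sum_congr rfl fun y _ => ?_
        by_cases hy : y ∈ U
        · simp [hy]
        · by_cases hxy : x = y
          · simp [hxy]
          · simp [hx, hy, hxy, Ne.symm hxy, mul_assoc]
    rw [e, e, Finset.sum_comm]
    refine Finset.sum_congr rfl fun x _ => Finset.sum_congr rfl fun y _ => ?_
    rw [Finset.insert_comm x y]
    refine if_congr ?_ rfl (by ring)
    constructor <;> rintro (h | h | h) <;> simp [h]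
  | trans _ _ ih ih' => exact fun U => (ih U).trans (ih' U)

/-! ### rows -/

/-- The exponents of a packed row. -/
def rowE (r : ℕ) (j : Fin 6) : ℤ := (((r >>> (5 * j.val)) % 32 : ℕ) : ℤ) - 16

/-- The factor of a row vertex. -/
noncomputable def fac (h : Fin 6 → Fin 6 → ℂ) (g : Fin 6 → Fin 6) (r : ℕ) (x : Fin 6) : ℂ :=
  ∏ j, h x (g j) ^ rowE r j

variable {h : Fin 6 → Fin 6 → ℂ}

lemma rowE_zeroR (j : Fin 6) : rowE zeroR j = 0 := by rw [rowE, zeroR_cell]; rfl

lemma sum_fac_zero (g : Fin 6 → Fin 6) : ∑ x, fac h g zeroR x = 6 := by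
  simp [fac, rowE_zeroR]

lemma fac_unit (g : Fin 6 → Fin 6) {r : ℕ} {b : Fin 6} {c : ℤ}
    (hr : ∀ j, rowE r j = if j = b then c else 0) (x : Fin 6) :
    fac h g r x = h x (g b) ^ c := by
  rw [fac, Finset.prod_eq_single b (fun j _ hj => by rw [hr, if_neg hj, zpow_zero])
    (fun hb => absurd (Finset.mem_univ b) hb), hr, if_pos rfl]

lemma sum_zpow_unit (hh : InM h) (k : Fin 6) {c : ℤ} (hc : c = 1 ∨ c = -1) :
    ∑ x, h x k ^ c = (Real.sqrt 6 : ℂ) := by
  rcases hc with rfl | rfl
  · simp only [zpow_one, hh.col_sum]
  · simp only [zpow_neg, zpow_one, hh.inv_eq, ← map_sum, hh.col_sum, Complex.conj_ofReal]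

/-- A row with a single entry plus or minus one. -/
def isUnit6 (r : ℕ) : Bool :=
  isPlusR r 0 || isMinusR r 0 || isPlusR r 1 || isMinusR r 1 || isPlusR r 2 || isMinusR r 2 ||
  isPlusR r 3 || isMinusR r 3 || isPlusR r 4 || isMinusR r 4 || isPlusR r 5 || isMinusR r 5

lemma sum_fac_unit (hh : InM h) (g : Fin 6 → Fin 6) {r : ℕ} (hr : isUnit6 r = true) :
    ∑ x, fac h g r x = (Real.sqrt 6 : ℂ) := by
  have hp : ∀ b : Fin 6, isPlusR r b = true → ∑ x, fac h g r x = (Real.sqrt 6 : ℂ) := by
    intro b hb
    have e : ∀ j, rowE r j = if j = b then 1 else 0 := fun j => by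
      rw [rowE, beq_iff_eq.1 hb, plusR_table b j]
      split <;> simp
    simp only [fac_unit g e]
    exact sum_zpow_unit hh _ (Or.inl rfl)
  have hm : ∀ b : Fin 6, isMinusR r b = true → ∑ x, fac h g r x = (Real.sqrt 6 : ℂ) := by
    intro b hb
    have e : ∀ j, rowE r j = if j = b then -1 else 0 := fun j => by
      rw [rowE, Nat.eq_sub_of_add_eq (beq_iff_eq.1 hb), minusR_table b j]
      split <;> simp
    simp only [fac_unit g e]
    exact sum_zpow_unit hh _ (Or.inr rfl)
  simp only [isUnit6, Bool.or_eq_true] at hr
  rcases hr with (((((((((((h' | h') | h') | h') | h') | h') | h') | h') | h') | h') | h') | h')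
  exacts [hp 0 h', hm 0 h', hp 1 h', hm 1 h', hp 2 h', hm 2 h', hp 3 h', hm 3 h', hp 4 h', hm 4 h',
    hp 5 h', hm 5 h']

/-- The sum of two rows, when the digits stay in range. -/
def addR (r s : ℕ) : Option ℕ :=
  bif rowSumOK ((r + s - zeroR) % 1073741824) r s then some ((r + s - zeroR) % 1073741824) else none

lemma fac_addR (hh : InM h) (g : Fin 6 → Fin 6) {r s n : ℕ} (hn : addR r s = some n) :
    fac h g n = fun x => fac h g r x * fac h g s x := by
  rw [addR] at hn
  cases hc : rowSumOK ((r + s - zeroR) % 1073741824) r s with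
  | false => rw [hc] at hn; simp at hn
  | true =>
    rw [hc] at hn
    obtain rfl := Option.some.inj hn
    funext x
    rw [fac, fac, fac, ← Finset.prod_mul_distrib]
    refine Finset.prod_congr rfl fun j _ => ?_
    rw [← zpow_add₀ (hh.ne_zero _ _)]
    congr 1
    have := rowSumOK_cell hc j
    simp only [rowE]
    omega

/-- A row put in order. -/
def insR (r : ℕ) : List ℕ → List ℕ
  | [] => [r]
  | x :: l => bif Nat.ble r x then r :: x :: l else x :: insR r l

lemma insR_perm (r : ℕ) : ∀ l, (insR r l).Perm (r :: l)
  | [] => List.Perm.refl _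
  | x :: l => by
    rw [insR]
    cases Nat.ble r x with
    | true => exact List.Perm.refl _
    | false => exact ((insR_perm r l).cons x).trans (List.Perm.swap r x l)

/-! ### terms -/

/-- A weighted state: coefficient, power of the square root of six, distinct rows, free rows. -/
structure Term where
  z : ℤ
  j : ℕ
  inj : List ℕ
  free : List ℕ
deriving DecidableEq

/-- The value of a state at an assignment of the columns. -/
noncomputable def sVal (h : Fin 6 → Fin 6 → ℂ) (g : Fin 6 → Fin 6) (I F : List ℕ) : ℂ :=
  injS (I.map (fac h g)) ∅ * (F.map fun r => ∑ x, fac h g r x).prod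

/-- The value of a term. -/
noncomputable def tVal (h : Fin 6 → Fin 6 → ℂ) (t : Term) : ℂ :=
  ((t.z * Real.sqrt 6 ^ t.j : ℝ) : ℂ) * ∑ g : Fin 6 → Fin 6, sVal h g t.inj t.free

/-- The value of a list of terms. -/
noncomputable def lVal (h : Fin 6 → Fin 6 → ℂ) (L : List Term) : ℂ := (L.map (tVal h)).sum

/-- The freed row. -/
def freeTerm (t : Term) (r : ℕ) (I : List ℕ) : Term :=
  bif Nat.beq r zeroR then ⟨t.z, t.j + 2, I, t.free⟩
  else bif isUnit6 r then ⟨t.z, t.j + 1, I, t.free⟩
  else ⟨t.z, t.j, I, insR r t.free⟩

/-- The merges of the freed row; `pre` has been passed. -/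
def mergeTerms (add : ℕ → ℕ → Option ℕ) (t : Term) (r : ℕ) :
    List ℕ → List ℕ → Option (List Term)
  | _, [] => some []
  | pre, x :: post =>
    match add r x, mergeTerms add t r (x :: pre) post with
    | some n, some R => some (⟨-t.z, t.j, insR n (pre.reverse ++ post), t.free⟩ :: R)
    | _, _ => none

/-- One step on one term. -/
def stepTerm (t : Term) : Option (List Term) :=
  match t.inj with
  | [] => none
  | r :: I => (mergeTerms addR t r [] I).map (freeTerm t r I :: ·)

lemma mergeTerms_sound {add : ℕ → ℕ → Option ℕ} (g : Fin 6 → Fin 6)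
    (hadd : ∀ r s n, add r s = some n → fac h g n = fun x => fac h g r x * fac h g s x)
    (t : Term) (r : ℕ) :
    ∀ (post pre : List ℕ) (R : List Term), mergeTerms add t r pre post = some R →
      (R.map fun s : Term => (s.z : ℂ) * sVal h g s.inj s.free).sum =
        -(t.z : ℂ) * (((mulAt (fac h g r) (post.map (fac h g))).map fun m =>
          injS ((pre.reverse.map (fac h g)) ++ m) ∅).sum *
            (t.free.map fun q => ∑ x, fac h g q x).prod) ∧ ∀ s ∈ R, s.j = t.j
  | [], pre, R, hR => by
    simp only [mergeTerms, Option.some.injEq] at hR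
    subst hR
    simp [mulAt]
  | x :: post, pre, R, hR => by
    simp only [mergeTerms] at hR
    cases hn : add r x with
    | none => rw [hn] at hR; simp at hR
    | some n =>
      cases hm : mergeTerms add t r (x :: pre) post with
      | none => rw [hn, hm] at hR; simp at hR
      | some R' =>
        rw [hn, hm] at hR
        obtain rfl := Option.some.inj hR
        obtain ⟨ih, ihj⟩ := mergeTerms_sound g hadd t r post (x :: pre) R' hm
        refine ⟨?_, fun s hs => ?_⟩
        · have hp : injS ((insR n (pre.reverse ++ post)).map (fac h g)) ∅ =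
              injS (pre.reverse.map (fac h g) ++
                ((fun y => fac h g r y * fac h g x y) :: post.map (fac h g))) ∅ := by
            refine injS_perm (((insR_perm n _).map _).trans ?_) ∅
            simp only [List.map_cons, List.map_append, hadd _ _ _ hn]
            exact List.perm_middle.symm
          simp only [List.map_cons, List.sum_cons, mulAt, List.map_map] at ih ⊢
          rw [ih, sVal, hp]
          simp only [List.reverse_cons, List.map_append, List.map_cons, List.map_nil,
            List.append_assoc, List.singleton_append, Function.comp_def]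
          push_cast
          ring
        · rcases List.mem_cons.1 hs with rfl | hs
          exacts [rfl, ihj s hs]

lemma lVal_of_j (j : ℕ) : ∀ M : List Term, (∀ s ∈ M, s.j = j) →
    lVal h M = ((Real.sqrt 6 ^ j : ℝ) : ℂ) *
      ∑ g : Fin 6 → Fin 6, (M.map fun s : Term => (s.z : ℂ) * sVal h g s.inj s.free).sum
  | [], _ => by simp [lVal]
  | s :: M, hj => by
    have ih := lVal_of_j j M fun u hu => hj u (List.mem_cons_of_mem _ hu)
    simp only [lVal, List.map_cons, List.sum_cons, Finset.sum_add_distrib] at ih ⊢
    rw [ih, tVal, hj s (List.mem_cons_self ..), ← Finset.mul_sum]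
    push_cast
    ring

lemma stepTerm_sound (hh : InM h) {t : Term} {R : List Term} (hR : stepTerm t = some R) :
    lVal h R = tVal h t := by
  rcases t with ⟨z, j, _ | ⟨r, I⟩, F⟩
  · simp [stepTerm] at hR
  simp only [stepTerm] at hR
  cases hm : mergeTerms addR ⟨z, j, r :: I, F⟩ r [] I with
  | none => rw [hm] at hR; simp at hR
  | some M =>
    rw [hm] at hR
    obtain rfl := Option.some.inj hR
    have hj : ∀ s ∈ M, s.j = j := (mergeTerms_sound (h := h) (fun _ => 0) (fun _ _ _ hn => fac_addR hh _ hn) _ r I [] M hm).2
    have hM := lVal_of_j (h := h) j M hj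
    have hfree : tVal h (freeTerm ⟨z, j, r :: I, F⟩ r I) = ((z * Real.sqrt 6 ^ j : ℝ) : ℂ) *
        ∑ g : Fin 6 → Fin 6, (∑ x, fac h g r x) * sVal h g I F := by
      have h6 : ((Real.sqrt 6 : ℝ) : ℂ) ^ 2 = 6 := by
        rw [← Complex.ofReal_pow, Real.sq_sqrt (by norm_num)]; norm_num
      unfold freeTerm
      cases hz : Nat.beq r zeroR with
      | true =>
        obtain rfl := Nat.eq_of_beq_eq_true hz
        simp only [cond_true, tVal, sum_fac_zero, ← Finset.mul_sum]
        push_cast
        linear_combination ((z : ℂ) * (Real.sqrt 6 : ℂ) ^ j *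
          ∑ g : Fin 6 → Fin 6, sVal h g I F) * h6
      | false =>
        cases hu : isUnit6 r with
        | true =>
          simp only [cond_true, cond_false, tVal, sum_fac_unit hh _ hu, ← Finset.mul_sum]
          push_cast
          ring
        | false =>
          simp only [cond_false, tVal]
          congr 1
          refine Finset.sum_congr rfl fun g _ => ?_
          rw [sVal, sVal, ((insR_perm r F).map _).prod_eq, List.map_cons, List.prod_cons]
          ring
    have h1 : lVal h (freeTerm ⟨z, j, r :: I, F⟩ r I :: M) =
        tVal h (freeTerm ⟨z, j, r :: I, F⟩ r I) + lVal h M := by simp [lVal]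
    rw [h1, hfree, hM, tVal, Finset.mul_sum, Finset.mul_sum, Finset.mul_sum, ← Finset.sum_add_distrib]
    refine Finset.sum_congr rfl fun g _ => ?_
    rw [(mergeTerms_sound g (fun _ _ _ hn => fac_addR hh g hn) _ r I [] M hm).1, sVal, sVal, List.map_cons, injS_step, mulSum]
    simp only [List.reverse_nil, List.map_nil, List.nil_append]
    push_cast
    ring

/-! ### collecting -/

/-- A store of terms, by a hash of the state. -/
inductive Store where
  | bucket (L : List Term)
  | node (l r : Store)

/-- The empty store. -/
def Store.empty : ℕ → Store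
  | 0 => .bucket []
  | d + 1 => .node (Store.empty d) (Store.empty d)

/-- Equality of row lists. -/
def eqL : List ℕ → List ℕ → Bool
  | [], [] => true
  | x :: l, y :: m => Nat.beq x y && eqL l m
  | _, _ => false

lemma eqL_eq : ∀ {l m : List ℕ}, eqL l m = true → l = m
  | [], [], _ => rfl
  | [], _ :: _, h => by simp [eqL] at h
  | _ :: _, [], h => by simp [eqL] at h
  | x :: l, y :: m, h => by
    simp only [eqL, Bool.and_eq_true] at h
    rw [Nat.eq_of_beq_eq_true h.1, eqL_eq h.2]

/-- Add a term to a bucket. -/
def addTo (t : Term) : List Term → List Term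
  | [] => [t]
  | s :: L => bif Nat.beq t.j s.j && eqL t.inj s.inj && eqL t.free s.free
      then ⟨s.z + t.z, s.j, s.inj, s.free⟩ :: L else s :: addTo t L

lemma lVal_cons (t : Term) (L : List Term) : lVal h (t :: L) = tVal h t + lVal h L := by
  simp [lVal]

lemma lVal_append (L M : List Term) : lVal h (L ++ M) = lVal h L + lVal h M := by
  simp [lVal]

lemma lVal_addTo (t : Term) : ∀ L, lVal h (addTo t L) = tVal h t + lVal h L
  | [] => by simp [addTo, lVal]
  | s :: L => by
    rw [addTo]
    cases hc : (Nat.beq t.j s.j && eqL t.inj s.inj && eqL t.free s.free) with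
    | true =>
      simp only [Bool.and_eq_true] at hc
      simp only [cond_true, lVal_cons, tVal, Nat.eq_of_beq_eq_true hc.1.1, eqL_eq hc.1.2, eqL_eq hc.2]
      push_cast
      ring
    | false => rw [cond_false, lVal_cons, lVal_cons, lVal_addTo t L]; ring

/-- A hash of a row list. -/
def hashL : List ℕ → ℕ → ℕ
  | [], k => k
  | x :: l, k => hashL l ((k * 1000003 + x + x >>> 7 + x >>> 15 + x >>> 23) % 16777216)

/-- Add a term to the store. -/
def Store.add : Store → ℕ → Term → Store
  | .bucket L, _, t => .bucket (addTo t L)
  | .node l r, k, t => bif Nat.beq (k % 2) 0 then .node (l.add (k / 2) t) r else .node l (r.add (k / 2) t)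

/-- The terms of a store, coefficient zero left out. -/
def Store.out : Store → List Term
  | .bucket L => L.filter fun t => !decide (t.z = 0)
  | .node l r => l.out ++ r.out

/-- All terms of a store. -/
def Store.all : Store → List Term
  | .bucket L => L
  | .node l r => l.all ++ r.all

lemma lVal_empty : ∀ d, lVal h (Store.empty d).all = 0
  | 0 => by simp [Store.empty, Store.all, lVal]
  | d + 1 => by simp [Store.empty, Store.all, lVal_append, lVal_empty d]

lemma lVal_add : ∀ (S : Store) (k : ℕ) (t : Term), lVal h (S.add k t).all = tVal h t + lVal h S.all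
  | .bucket L, k, t => lVal_addTo t L
  | .node l r, k, t => by
    rw [Store.add]
    cases Nat.beq (k % 2) 0 with
    | true => simp only [cond_true, Store.all, lVal_append, lVal_add l]; ring
    | false => simp only [cond_false, Store.all, lVal_append, lVal_add r]; ring

lemma lVal_out : ∀ S : Store, lVal h S.out = lVal h S.all
  | .node l r => by simp only [Store.out, Store.all, lVal_append, lVal_out l, lVal_out r]
  | .bucket L => by
    simp only [Store.out, Store.all]
    induction L with
    | nil => rfl
    | cons t L ih =>
      by_cases hz : t.z = 0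
      · simp [hz, lVal_cons, ih, tVal]
      · simp [hz, lVal_cons, ih]

/-- Collect equal states. -/
def collect (L : List Term) : List Term :=
  (L.foldl (fun S t => S.add (hashL t.free (hashL t.inj t.j)) t) (Store.empty 8)).out

lemma lVal_collect (L : List Term) : lVal h (collect L) = lVal h L := by
  have : ∀ (L : List Term) (S : Store),
      lVal h (L.foldl (fun S t => S.add (hashL t.free (hashL t.inj t.j)) t) S).all =
        lVal h L + lVal h S.all := by
    intro L
    induction L with
    | nil => simp [lVal]
    | cons t L ih => intro S; rw [List.foldl_cons, ih, lVal_add, lVal_cons]; ring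
  rw [collect, lVal_out, this, lVal_empty, add_zero]

/-- One step on every term with distinct rows left. -/
def stepAll : List Term → Option (List Term)
  | [] => some []
  | t :: L =>
    match (bif t.inj.isEmpty then some [t] else stepTerm t), stepAll L with
    | some R, some R' => some (R ++ R')
    | _, _ => none

lemma stepAll_sound (hh : InM h) : ∀ {L R : List Term}, stepAll L = some R → lVal h R = lVal h L
  | [], R, hR => by simp [stepAll] at hR; subst hR; rfl
  | t :: L, R, hR => by
    simp only [stepAll] at hR
    cases h1 : (bif t.inj.isEmpty then some [t] else stepTerm t) with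
    | none => rw [h1] at hR; simp at hR
    | some A =>
      cases h2 : stepAll L with
      | none => rw [h1, h2] at hR; simp at hR
      | some B =>
        rw [h1, h2] at hR
        obtain rfl := Option.some.inj hR
        rw [lVal_append, lVal_cons, stepAll_sound hh h2]
        congr 1
        cases he : t.inj.isEmpty with
        | true =>
          rw [he] at h1
          obtain rfl := Option.some.inj h1
          simp [lVal]
        | false =>
          rw [he] at h1
          exact stepTerm_sound hh h1

/-- One level. -/
def next (L : List Term) : Option (List Term) := (stepAll L).map collect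

/-- `n` levels. -/
def levels : ℕ → List Term → Option (List Term)
  | 0, L => some L
  | n + 1, L => (next L).bind (levels n)

theorem next_sound (hh : InM h) {L R : List Term} (hR : next L = some R) : lVal h R = lVal h L := by
  rw [next, Option.map_eq_some_iff] at hR
  obtain ⟨R', hR', rfl⟩ := hR
  rw [lVal_collect, stepAll_sound hh hR']

theorem levels_sound (hh : InM h) : ∀ {n : ℕ} {L R : List Term}, levels n L = some R →
    lVal h R = lVal h L
  | 0, L, R, hR => by rw [levels] at hR; rw [Option.some.inj hR]
  | n + 1, L, R, hR => by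
    rw [levels, Option.bind_eq_some_iff] at hR
    obtain ⟨M, hM, hR⟩ := hR
    rw [levels_sound hh hR, next_sound hh hM]

/-- Every starting term has at least seven distinct rows. -/
def startOK (L : List Term) : Bool := L.all fun t => Nat.ble 7 t.inj.length

theorem start_zero {L : List Term} (hL : startOK L = true) : lVal h L = 0 := by
  refine List.sum_eq_zero fun a ha => ?_
  obtain ⟨t, ht, rfl⟩ := List.mem_map.1 ha
  simp only [startOK, List.all_eq_true, Nat.ble_eq] at hL
  rw [tVal, Finset.sum_eq_zero fun g _ => ?_, mul_zero]
  rw [sVal, injS_eq_zero _ _ (by have := hL t ht; simp; omega), zero_mul]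

/-! ### leaves -/

/-- The packed matrix of at most six rows. -/
def packF : List ℕ → ℕ → ℕ → ℕ
  | [], _, M => M
  | r :: F, i, M => packF F (i + 1) (putRow M i r)

/-- The link data of one leaf: hint, reduction cost, table index, variant, transposed, negated. -/
structure Leaf where
  hint : ℕ
  jj : ℕ
  idx : ℕ
  var : ℕ
  tr : Bool
  ng : Bool

/-- One leaf is linked to the table. -/
noncomputable def leafOK (canon : Block.Tree) (J : ℕ) (t : Term) (q : Leaf) : Bool :=
  t.inj.isEmpty && Nat.ble t.free.length 6 &&
  Nat.ble (q.jj + 2 * (6 - t.free.length)) (t.j + J) &&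
  decide (∀ i : Fin 6, rowOf (packF t.free 0 zeroM) i = t.free.getD i zeroR) &&
  check (packF t.free 0 zeroM) q.hint q.jj q.var &&
  isVariant (canon.get q.idx).1 q.var q.tr q.ng

/-- The exponent of the square root of six of a linked leaf. -/
def leafE (J : ℕ) (t : Term) (q : Leaf) : ℕ := t.j + J - (q.jj + 2 * (6 - t.free.length))

/-- The table terms of the linked leaves: positive part, negative part. -/
def leafTerms (J : ℕ) : List Term → List Leaf → List (ℕ × ℕ) × List (ℕ × ℕ)
  | t :: L, q :: qs =>
    let s := (2 * q.idx + leafE J t q % 2, t.z.natAbs * 6 ^ (leafE J t q / 2))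
    let R := leafTerms J L qs
    bif decide (0 ≤ t.z) then (s :: R.1, R.2) else (R.1, s :: R.2)
  | _, _ => ([], [])

/-- All leaves are linked. -/
noncomputable def leavesOK (canon : Block.Tree) (J : ℕ) : List Term → List Leaf → Bool
  | [], [] => true
  | t :: L, q :: qs => leafOK canon J t q && leavesOK canon J L qs
  | _, _ => false

/-- Symmetrised value of a list. -/
noncomputable def lSym (h : Fin 6 → Fin 6 → ℂ) (L : List Term) : ℝ :=
  (lVal h L).re + (lVal (fun i j => h j i) L).re

lemma range_prod_getD (f : ℕ → ℂ) (d : ℕ) : ∀ (F : List ℕ) (n : ℕ), F.length ≤ n →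
    ∏ i ∈ Finset.range n, f (F.getD i d) = (F.map f).prod * f d ^ (n - F.length)
  | [], n, _ => by simp
  | r :: F, 0, hn => by simp at hn
  | r :: F, n + 1, hn => by
    rw [Finset.prod_range_succ', List.map_cons, List.prod_cons]
    simp only [List.getD_cons_succ, List.getD_cons_zero, List.length_cons, Nat.succ_sub_succ]
    rw [range_prod_getD f d F n (by simpa using hn)]
    ring

lemma leaf_homM {F : List ℕ} (hF : F.length ≤ 6) {P : ℕ}
    (hP : ∀ i : Fin 6, rowOf P i = F.getD i zeroR) :
    homM h (expoOf P) = 6 ^ (6 - F.length) * ∑ g : Fin 6 → Fin 6, sVal h g [] F := by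
  unfold homM monM
  rw [Finset.sum_comm, Finset.mul_sum]
  refine Finset.sum_congr rfl fun g _ => ?_
  have e : ∀ (i : Fin 6) (j : Fin 6), expoOf P i j = rowE (F.getD i zeroR) j := fun i j => by
    rw [rowCell, hP]; rfl
  simp only [e]
  have := (Fintype.prod_sum fun (i : Fin 6) (x : Fin 6) => fac h g (F.getD i zeroR) x).symm
  simp only [fac] at this
  rw [this]
  have h2 := range_prod_getD (fun r => ∑ x, fac h g r x) zeroR F 6 hF
  rw [Finset.prod_range] at h2
  simp only [fac] at h2
  rw [h2]
  have h3 := sum_fac_zero (h := h) g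
  simp only [fac] at h3
  rw [h3]
  simp only [sVal, List.map_nil, injS, fac]
  ring

lemma lSym_cons (t : Term) (L : List Term) : lSym h (t :: L) =
    ((tVal h t).re + (tVal (fun i j => h j i) t).re) + lSym h L := by
  simp only [lSym, lVal_cons, Complex.add_re]
  ring

lemma leaf_sym (hh : InM h) {canon : Block.Tree} {J : ℕ} {t : Term} {q : Leaf}
    (hq : leafOK canon J t q = true) :
    (tVal h t).re + (tVal (fun i j => h j i) t).re =
      (t.z : ℝ) * (Real.sqrt 6 ^ leafE J t q * Block.tableVal h canon J q.idx) := by
  simp only [leafOK, Bool.and_eq_true, Nat.ble_eq, decide_eq_true_eq, List.isEmpty_iff] at hq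
  obtain ⟨⟨⟨⟨⟨hI, hn⟩, hJ⟩, hP⟩, hc⟩, hv⟩ := hq
  have hsym := (check_sym hh hc).trans
    (congrArg ((Real.sqrt 6)⁻¹ ^ q.jj * ·) (isVariant_sound hh hv))
  have one : ∀ k : Fin 6 → Fin 6 → ℂ, (tVal k t).re * 6 ^ (6 - t.free.length) =
      (t.z : ℝ) * Real.sqrt 6 ^ t.j * (homM k (expoOf (packF t.free 0 zeroM))).re := by
    intro k
    rw [leaf_homM (h := k) hn hP, tVal, hI]
    have e6 : ((6 : ℂ) ^ (6 - t.free.length)) = ((((6 : ℝ) ^ (6 - t.free.length)) : ℝ) : ℂ) := by
      push_cast; rfl
    rw [e6, Complex.re_ofReal_mul, Complex.re_ofReal_mul]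
    ring
  have h6 : Real.sqrt 6 ≠ 0 := Real.sqrt_ne_zero'.mpr (by norm_num)
  have h66 : (6 : ℝ) ^ (6 - t.free.length) = Real.sqrt 6 ^ (2 * (6 - t.free.length)) := by
    rw [pow_mul, Real.sq_sqrt (by norm_num)]
  refine mul_right_cancel₀ (pow_ne_zero (6 - t.free.length) (by norm_num : (6 : ℝ) ≠ 0)) ?_
  have h2 : (homM h (expoOf (packF t.free 0 zeroM))).re +
      (homM (fun i j => h j i) (expoOf (packF t.free 0 zeroM))).re =
      (Real.sqrt 6)⁻¹ ^ q.jj * symM h (expoOf (canon.get q.idx).1) := hsym
  rw [add_mul, one, one, ← mul_add, h2, Block.tableVal, h66]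
  have hpow : Real.sqrt 6 ^ t.j * (Real.sqrt 6)⁻¹ ^ q.jj =
      Real.sqrt 6 ^ leafE J t q * (Real.sqrt 6)⁻¹ ^ J * Real.sqrt 6 ^ (2 * (6 - t.free.length)) := by
    have : q.jj + leafE J t q + 2 * (6 - t.free.length) = t.j + J := by unfold leafE; omega
    rw [inv_pow, inv_pow]
    field_simp
    rw [← pow_add, ← pow_add, ← pow_add, this]
  linear_combination ((t.z : ℝ) * symM h (expoOf (canon.get q.idx).1)) * hpow

theorem leaves_sound (hh : InM h) {canon : Block.Tree} {J : ℕ} :
    ∀ {L : List Term} {qs : List Leaf}, leavesOK canon J L qs = true →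
      lSym h L = Packed.evalL (Block.tableVal h canon J) (leafTerms J L qs).1 -
        Packed.evalL (Block.tableVal h canon J) (leafTerms J L qs).2
  | [], [], _ => by simp [lSym, lVal, leafTerms, Packed.evalL]
  | [], _ :: _, h => by simp [leavesOK] at h
  | _ :: _, [], h => by simp [leavesOK] at h
  | t :: L, q :: qs, hq => by
    simp only [leavesOK, Bool.and_eq_true] at hq
    rw [lSym_cons, leaf_sym hh hq.1, leaves_sound hh hq.2, leafTerms]
    have hphi : Packed.phi (Block.tableVal h canon J) (2 * q.idx + leafE J t q % 2) *
        (6 : ℝ) ^ (leafE J t q / 2) = Real.sqrt 6 ^ leafE J t q * Block.tableVal h canon J q.idx := by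
      have e1 : (2 * q.idx + leafE J t q % 2) % 2 = leafE J t q % 2 := by omega
      have e2 : (2 * q.idx + leafE J t q % 2) / 2 = q.idx := by omega
      rw [Packed.phi, e1, e2]
      conv_rhs => rw [← Nat.mod_add_div (leafE J t q) 2, pow_add, pow_mul,
        Real.sq_sqrt (show (0 : ℝ) ≤ 6 by norm_num)]
      ring
    rcases le_or_gt 0 t.z with hz | hz
    · rw [decide_eq_true hz, cond_true]
      simp only [Packed.evalL, List.map_cons, List.sum_cons]
      have : ((t.z.natAbs : ℕ) : ℝ) = (t.z : ℝ) := by
        rw [Nat.cast_natAbs, abs_of_nonneg hz]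
      push_cast
      rw [this]
      linear_combination (-(t.z : ℝ)) * hphi
    · rw [decide_eq_false (not_le.2 hz), cond_false]
      simp only [Packed.evalL, List.map_cons, List.sum_cons]
      have : ((t.z.natAbs : ℕ) : ℝ) = -(t.z : ℝ) := by
        rw [Nat.cast_natAbs, abs_of_neg hz]; push_cast; ring
      push_cast
      rw [this]
      linear_combination (-(t.z : ℝ)) * hphi

/-- A checked identity: a combination of table values that vanishes. -/
theorem ident_lin (hh : InM h) {canon : Block.Tree} {J n : ℕ} {start fin : List Term}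
    {qs : List Leaf} (hs : startOK start = true) (hl : levels n start = some fin)
    (hq : leavesOK canon J fin qs = true) :
    Packed.evalL (Block.tableVal h canon J) (leafTerms J fin qs).1 -
      Packed.evalL (Block.tableVal h canon J) (leafTerms J fin qs).2 = 0 := by
  rw [← leaves_sound hh hq, lSym, levels_sound hh hl, levels_sound hh.transp hl, start_zero hs,
    start_zero hs]
  simp

end Vale.Agent.P355.Cert.Ident
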