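import Vale.Agent.P355.Cert.IdentPart

/-
P355: a low-level version of the staged identity checker. A state is one natural number (rows of
thirty bits, the number of free rows, the power of the square root of six), a level is three packed
numbers (states, positive weights, negative weights), and hints say at which index each child lives.
-/

open scoped BigOperators ComplexConjugate
open Finset

namespace Vale.Agent.P355.Cert.IdentFast

open Packed Ident

variable {h : Fin 6 → Fin 6 → ℂ}

/-! ### packed lists of rows -/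

/-- the first `n` rows of a packed list -/
def pl (B : ℕ) : ℕ → List ℕ
  | 0 => []
  | n + 1 => B % 1073741824 :: pl (B >>> 30) n

/-- one row inserted -/
def ins (p v B : ℕ) : ℕ :=
  B % 2 ^ (30 * p) + (v <<< (30 * p)) + ((B >>> (30 * p)) <<< (30 * (p + 1)))

/-- one row removed -/
def del (q B : ℕ) : ℕ := B % 2 ^ (30 * q) + ((B >>> (30 * (q + 1))) <<< (30 * q))

lemma pl_length : ∀ n B, (pl B n).length = n
  | 0, _ => rfl
  | n + 1, B => by simp [pl, pl_length n]

lemma shift30 (B k : ℕ) : B >>> (30 * (k + 1)) = (B >>> 30) >>> (30 * k) := by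
  rw [← Nat.shiftRight_add]; congr 1; ring

lemma ins_head (p v B : ℕ) : ins (p + 1) v B % 1073741824 = B % 1073741824 ∧
    ins (p + 1) v B >>> 30 = ins p v (B >>> 30) := by
  simp only [ins, Nat.shiftLeft_eq, Nat.shiftRight_eq_div_pow, Nat.div_div_eq_div_mul]
  have e1 : 2 ^ (30 * (p + 1)) = 1073741824 * 2 ^ (30 * p) := by
    rw [Nat.mul_succ, pow_add]; norm_num; ring
  have e2 : 2 ^ (30 * (p + 1 + 1)) = 1073741824 * 2 ^ (30 * (p + 1)) := by
    rw [Nat.mul_succ 30 (p + 1), pow_add]; norm_num; ring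
  have e3 : B % (1073741824 * 2 ^ (30 * p)) =
      B % 1073741824 + 1073741824 * (B / 1073741824 % 2 ^ (30 * p)) := Nat.mod_mul
  rw [e2, e1, e3, show (2 : ℕ) ^ 30 = 1073741824 by norm_num]
  constructor
  · rw [show ∀ a b c : ℕ, B % 1073741824 + 1073741824 * a + v * (1073741824 * b)
        + c * (1073741824 * (1073741824 * b)) = B % 1073741824 + 1073741824 * (a + v * b + c * (1073741824 * b))
        from fun a b c => by ring, Nat.add_mul_mod_self_left, Nat.mod_mod]
  · rw [show ∀ a b c : ℕ, B % 1073741824 + 1073741824 * a + v * (1073741824 * b)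
        + c * (1073741824 * (1073741824 * b)) = B % 1073741824 + 1073741824 * (a + v * b + c * (1073741824 * b))
        from fun a b c => by ring, Nat.add_mul_div_left _ _ (by norm_num),
      Nat.div_eq_of_lt (Nat.mod_lt _ (by norm_num)), zero_add]

lemma ins_zero (v B : ℕ) (hv : v < 1073741824) : ins 0 v B % 1073741824 = v ∧ ins 0 v B >>> 30 = B := by
  simp [ins, Nat.shiftLeft_eq, Nat.shiftRight_eq_div_pow, Nat.mod_one]
  omega

lemma del_head (q B : ℕ) : del (q + 1) B % 1073741824 = B % 1073741824 ∧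
    del (q + 1) B >>> 30 = del q (B >>> 30) := by
  simp only [del, shift30 B (q + 1), Nat.shiftLeft_eq, Nat.shiftRight_eq_div_pow]
  have e1 : 2 ^ (30 * (q + 1)) = 1073741824 * 2 ^ (30 * q) := by
    rw [Nat.mul_succ, pow_add]; norm_num; ring
  have e3 : B % (1073741824 * 2 ^ (30 * q)) =
      B % 1073741824 + 1073741824 * (B / 1073741824 % 2 ^ (30 * q)) := Nat.mod_mul
  rw [e1, e3, show (2 : ℕ) ^ 30 = 1073741824 by norm_num]
  constructor
  · rw [show ∀ a b c : ℕ, B % 1073741824 + 1073741824 * a + c * (1073741824 * b)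
        = B % 1073741824 + 1073741824 * (a + c * b) from fun a b c => by ring,
      Nat.add_mul_mod_self_left, Nat.mod_mod]
  · rw [show ∀ a b c : ℕ, B % 1073741824 + 1073741824 * a + c * (1073741824 * b)
        = B % 1073741824 + 1073741824 * (a + c * b) from fun a b c => by ring,
      Nat.add_mul_div_left _ _ (by norm_num), Nat.div_eq_of_lt (Nat.mod_lt _ (by norm_num)), zero_add]

lemma pl_ins : ∀ (p n v B : ℕ), p ≤ n → v < 1073741824 →
    pl (ins p v B) (n + 1) = (pl B n).take p ++ v :: (pl B n).drop p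
  | 0, n, v, B, _, hv => by
    rw [pl, (ins_zero v B hv).1, (ins_zero v B hv).2]; simp
  | p + 1, 0, _, _, hp, _ => by omega
  | p + 1, n + 1, v, B, hp, hv => by
    rw [pl, (ins_head p v B).1, (ins_head p v B).2, pl_ins p n v (B >>> 30) (by omega) hv, pl]
    simp

lemma pl_ins_perm {p n v B : ℕ} (hp : p ≤ n) (hv : v < 1073741824) :
    (pl (ins p v B) (n + 1)).Perm (v :: pl B n) := by
  rw [pl_ins p n v B hp hv]
  exact List.perm_middle.trans (by rw [List.take_append_drop])

lemma ins_shift : ∀ (p n v B : ℕ), p ≤ n → v < 1073741824 →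
    ins p v B >>> (30 * (n + 1)) = B >>> (30 * n)
  | 0, n, v, B, _, hv => by rw [shift30, (ins_zero v B hv).2]
  | p + 1, 0, _, _, hp, _ => by omega
  | p + 1, n + 1, v, B, hp, hv => by
    rw [shift30, (ins_head p v B).2, ins_shift p n v (B >>> 30) (by omega) hv, shift30 B n]

lemma del_zero (B : ℕ) : del 0 B = B >>> 30 := by simp [del, Nat.mod_one]

lemma pl_del : ∀ (q n B : ℕ), q ≤ n → pl (del q B) n = (pl B (n + 1)).eraseIdx q
  | 0, n, B, _ => by rw [del_zero]; simp [pl]
  | q + 1, 0, _, hq => by omega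
  | q + 1, n + 1, B, hq => by
    rw [pl, (del_head q B).1, (del_head q B).2, pl_del q n (B >>> 30) (by omega)]
    simp [pl]

lemma del_shift : ∀ (q n B : ℕ), q ≤ n → del q B >>> (30 * n) = B >>> (30 * (n + 1))
  | 0, n, B, _ => by rw [del_zero, shift30]
  | q + 1, 0, _, hq => by omega
  | q + 1, n + 1, B, hq => by
    rw [shift30, (del_head q B).2, del_shift q n (B >>> 30) (by omega), ← shift30 B (n + 1)]

lemma pl_get : ∀ (n q B : ℕ), q < n → (pl B n).getD q 0 = slot 30 B q
  | 0, q, _, hq => by omega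
  | n + 1, 0, B, _ => by simp [pl, slot]
  | n + 1, q + 1, B, hq => by
    rw [pl, List.getD_cons_succ, pl_get n q (B >>> 30) (by omega), slot, slot, shift30]

lemma pl_low : ∀ (m B C : ℕ),
    pl (B % 2 ^ (30 * m) + C <<< (30 * m)) m = pl B m ∧
      (B % 2 ^ (30 * m) + C <<< (30 * m)) >>> (30 * m) = C
  | 0, B, C => by simp [pl, Nat.mod_one]
  | m + 1, B, C => by
    have e1 : 2 ^ (30 * (m + 1)) = 1073741824 * 2 ^ (30 * m) := by
      rw [Nat.mul_succ, pow_add]; norm_num; ring
    have key : (B % 2 ^ (30 * (m + 1)) + C <<< (30 * (m + 1))) % 1073741824 = B % 1073741824 ∧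
        (B % 2 ^ (30 * (m + 1)) + C <<< (30 * (m + 1))) >>> 30
          = (B >>> 30) % 2 ^ (30 * m) + C <<< (30 * m) := by
      simp only [Nat.shiftLeft_eq, Nat.shiftRight_eq_div_pow, e1,
        show (2 : ℕ) ^ 30 = 1073741824 by norm_num, Nat.mod_mul]
      rw [show ∀ a b : ℕ, B % 1073741824 + 1073741824 * a + C * (1073741824 * b)
          = B % 1073741824 + 1073741824 * (a + C * b) from fun a b => by ring]
      constructor
      · rw [Nat.add_mul_mod_self_left, Nat.mod_mod]
      · rw [Nat.add_mul_div_left _ _ (by norm_num), Nat.div_eq_of_lt (Nat.mod_lt _ (by norm_num)),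
          zero_add]
    obtain ⟨i1, i2⟩ := pl_low m (B >>> 30) C
    exact ⟨by rw [pl, key.1, key.2, i1, pl], by rw [shift30, key.2, i2]⟩

/-! ### rows in range -/

/-- every exponent between minus eight and seven -/
noncomputable def good (v : ℕ) : Bool :=
  Nat.beq (Nat.land (v + 277094664) zeroR) zeroR && Nat.blt v 1073741824

lemma good_cell {v : ℕ} (hv : good v = true) :
    v < 1073741824 ∧ (8 ≤ v % 32 ∧ v % 32 < 24) ∧ (8 ≤ v / 32 % 32 ∧ v / 32 % 32 < 24) ∧
      (8 ≤ v / 1024 % 32 ∧ v / 1024 % 32 < 24) ∧ (8 ≤ v / 32768 % 32 ∧ v / 32768 % 32 < 24) ∧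
      (8 ≤ v / 1048576 % 32 ∧ v / 1048576 % 32 < 24) ∧
      (8 ≤ v / 33554432 % 32 ∧ v / 33554432 % 32 < 24) := by
  simp only [good, Bool.and_eq_true, Nat.blt, Nat.ble_eq] at hv
  obtain ⟨ha, hb⟩ := hv
  have ha : (v + 277094664) &&& zeroR = zeroR := Nat.eq_of_beq_eq_true ha
  have bit : ∀ k, zeroR.testBit k = true → (v + 277094664) / 2 ^ k % 2 = 1 := by
    intro k hk
    have := congrArg (Nat.testBit · k) ha
    simp only [Nat.testBit_and, hk, Bool.and_true] at this
    simpa [Nat.testBit_eq_decide_div_mod_eq] using this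
  have b0 := bit 4 (by decide +kernel)
  have b1 := bit 9 (by decide +kernel)
  have b2 := bit 14 (by decide +kernel)
  have b3 := bit 19 (by decide +kernel)
  have b4 := bit 24 (by decide +kernel)
  have b5 := bit 29 (by decide +kernel)
  norm_num at b0 b1 b2 b3 b4 b5
  omega

lemma digits {n a0 a1 a2 a3 a4 a5 : ℕ}
    (e : n = a0 + 32 * a1 + 1024 * a2 + 32768 * a3 + 1048576 * a4 + 33554432 * a5)
    (h0 : a0 < 32) (h1 : a1 < 32) (h2 : a2 < 32) (h3 : a3 < 32) (h4 : a4 < 32) (h5 : a5 < 32) :
    n < 1073741824 ∧ n % 32 = a0 ∧ n / 32 % 32 = a1 ∧ n / 1024 % 32 = a2 ∧ n / 32768 % 32 = a3 ∧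
      n / 1048576 % 32 = a4 ∧ n / 33554432 % 32 = a5 := by
  omega

lemma undigits {v : ℕ} (hv : v < 1073741824) :
    v = v % 32 + 32 * (v / 32 % 32) + 1024 * (v / 1024 % 32) + 32768 * (v / 32768 % 32) +
      1048576 * (v / 1048576 % 32) + 33554432 * (v / 33554432 % 32) := by
  omega

lemma good_add {r x : ℕ} (hr : good r = true) (hx : good x = true) :
    addR r x = some (r + x - zeroR) ∧ r + x - zeroR < 1073741824 := by
  obtain ⟨r1, r0, ra, rb, rc, rd, re⟩ := good_cell hr
  obtain ⟨x1, x0, xa, xb, xc, xd, xe⟩ := good_cell hx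
  have er := undigits r1
  have ex := undigits x1
  have hrow : ∀ v : ℕ, v >>> 5 = v / 32 ∧ v >>> 10 = v / 1024 ∧ v >>> 15 = v / 32768 ∧
      v >>> 20 = v / 1048576 ∧ v >>> 25 = v / 33554432 := fun v => by
    simp [Nat.shiftRight_eq_div_pow]
  rw [addR, rowSumOK]
  simp only [(hrow _).1, (hrow _).2.1, (hrow _).2.2.1, (hrow _).2.2.2.1, (hrow _).2.2.2.2]
  generalize r % 32 = a0, r / 32 % 32 = a1, r / 1024 % 32 = a2, r / 32768 % 32 = a3,
    r / 1048576 % 32 = a4, r / 33554432 % 32 = a5 at er r0 ra rb rc rd re ⊢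
  generalize x % 32 = b0, x / 32 % 32 = b1, x / 1024 % 32 = b2, x / 32768 % 32 = b3,
    x / 1048576 % 32 = b4, x / 33554432 % 32 = b5 at ex x0 xa xb xc xd xe ⊢
  have en : r + x - zeroR = (a0 + b0 - 16) + 32 * (a1 + b1 - 16) + 1024 * (a2 + b2 - 16) +
      32768 * (a3 + b3 - 16) + 1048576 * (a4 + b4 - 16) + 33554432 * (a5 + b5 - 16) := by
    simp only [zeroR]; omega
  obtain ⟨hn, n0, n1, n2, n3, n4, n5⟩ :=
    digits en (by omega) (by omega) (by omega) (by omega) (by omega) (by omega)
  refine ⟨?_, hn⟩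
  rw [Nat.mod_eq_of_lt hn, n0, n1, n2, n3, n4, n5]
  have c : ∀ a b : ℕ, 8 ≤ a → 8 ≤ b → (a + b - 16 + 16 == a + b) = true := fun a b _ _ =>
    beq_iff_eq.2 (by omega)
  rw [c a0 b0 r0.1 x0.1, c a1 b1 ra.1 xa.1, c a2 b2 rb.1 xb.1, c a3 b3 rc.1 xc.1,
    c a4 b4 rd.1 xd.1, c a5 b5 re.1 xe.1]
  rfl

/-- the sum of two rows stays in range: by the quick test, else digit by digit -/
noncomputable def addOK (r x : ℕ) : Bool :=
  (good r && good x) || (Nat.blt (r + x - zeroR) 1073741824 && rowSumOK (r + x - zeroR) r x)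

lemma addOK_sound {r x : ℕ} (ha : addOK r x = true) :
    addR r x = some (r + x - zeroR) ∧ r + x - zeroR < 1073741824 := by
  simp only [addOK, Bool.or_eq_true, Bool.and_eq_true, Nat.blt, Nat.ble_eq] at ha
  rcases ha with ⟨hr, hx⟩ | ⟨hlt, hs⟩
  · exact good_add hr hx
  · have hlt : r + x - zeroR < 1073741824 := by omega
    exact ⟨by rw [addR, Nat.mod_eq_of_lt hlt, hs]; rfl, hlt⟩

/-! ### states -/

/-- a state as one number -/
def key (B nF j : ℕ) : ℕ := (B * 8 + nF) * 32 + j

/-- the term of a state with `m` distinct rows -/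
def termOf (m K : ℕ) : Term :=
  ⟨1, K % 32, pl (K / 256) m, pl ((K / 256) >>> (30 * m)) (K / 32 % 8)⟩

/-- the symmetrised value of a state -/
noncomputable def node (h : Fin 6 → Fin 6 → ℂ) (m K : ℕ) : ℝ :=
  (tVal h (termOf m K)).re + (tVal (fun i j => h j i) (termOf m K)).re

lemma key_parts {B nF j : ℕ} (hF : nF < 8) (hj : j < 32) :
    key B nF j % 32 = j ∧ key B nF j / 256 = B ∧ key B nF j / 32 % 8 = nF := by
  simp only [key]; omega

/-- kind `0`: free row, `1 + b`: plus one at `b`, `7 + b`: minus one at `b`, otherwise a zero row -/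
noncomputable def freeKey (rest r m nF j kind pf : ℕ) : ℕ :=
  bif Nat.beq kind 0 then
    key (rest % 2 ^ (30 * m) + ((ins pf r (rest >>> (30 * m))) <<< (30 * m))) (nF + 1) j
  else bif Nat.ble kind 12 then key rest nF (j + 1) else key rest nF (j + 2)

/-- the hint of the freed row is right -/
noncomputable def freeOK (r nF j kind pf : ℕ) : Bool :=
  bif Nat.beq kind 0 then Nat.blt nF 7 && Nat.ble pf nF
  else bif Nat.ble kind 6 then Nat.blt (j + 2) 32 && Nat.beq r (zeroR + (1 <<< (5 * (kind - 1))))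
  else bif Nat.ble kind 12 then Nat.blt (j + 2) 32 && Nat.beq (r + (1 <<< (5 * (kind - 7)))) zeroR
  else Nat.blt (j + 2) 32 && Nat.beq r zeroR

/-- the merged state -/
def mergeKey (rest r nF j q p : ℕ) : ℕ :=
  key (ins p (r + slot 30 rest q - zeroR) (del q rest)) nF j

/-! ### one parent -/

lemma mulAt_sum (d : Fin 6 → ℂ) : ∀ (l : List (Fin 6 → ℂ)) (G : List (Fin 6 → ℂ) → ℂ),
    ((mulAt d l).map G).sum =
      ∑ q ∈ range l.length, G (l.set q fun y => d y * l.getD q 0 y)
  | [], G => by simp [mulAt]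
  | v :: l, G => by
    rw [mulAt, List.map_cons, List.sum_cons, List.map_map, mulAt_sum d l, List.length_cons,
      Finset.sum_range_succ', add_comm]
    simp

lemma set_perm {α : Type} : ∀ (l : List α) (q : ℕ) (a : α), q < l.length →
    (l.set q a).Perm (a :: l.eraseIdx q)
  | [], _, _, hq => by simp at hq
  | x :: l, 0, a, _ => by simp
  | x :: l, q + 1, a, hq => by
    simpa using ((set_perm l q a (by simpa using hq)).cons x).trans (List.Perm.swap a x _)

lemma sVal_perm (g : Fin 6 → Fin 6) {I I' F F' : List ℕ} (hI : I.Perm I') (hF : F.Perm F') :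
    sVal h g I F = sVal h g I' F' := by
  rw [sVal, sVal, injS_perm (hI.map _) ∅, (hF.map _).prod_eq]

lemma freeKey_sound (hh : InM h) {B rest r m nF j kind pf : ℕ} (hrest : rest = B >>> 30)
    (hnF : nF < 8) (hr : r < 1073741824) (hk : freeOK r nF j kind pf = true) (hj : j < 32) :
    tVal h (termOf m (freeKey rest r m nF j kind pf)) = ((Real.sqrt 6 ^ j : ℝ) : ℂ) *
      ∑ g : Fin 6 → Fin 6, (∑ x, fac h g r x) * sVal h g (pl rest m) (pl (rest >>> (30 * m)) nF) := by
  have h6 : ((Real.sqrt 6 : ℝ) : ℂ) ^ 2 = 6 := by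
    rw [← Complex.ofReal_pow, Real.sq_sqrt (by norm_num)]; norm_num
  simp only [freeOK] at hk
  by_cases k0 : kind = 0
  · subst k0
    simp only [show Nat.beq 0 0 = true from rfl, cond_true, Bool.and_eq_true, Nat.blt,
      Nat.ble_eq] at hk
    simp only [freeKey, show Nat.beq 0 0 = true from rfl, cond_true, tVal, termOf]
    obtain ⟨e1, e2, e3⟩ := key_parts (B := rest % 2 ^ (30 * m) + ins pf r (rest >>> (30 * m)) <<< (30 * m))
      (show nF + 1 < 8 by omega) hj
    rw [e1, e2, e3, (pl_low m rest _).1, (pl_low m rest _).2, Int.cast_one, one_mul]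
    congr 1
    refine Finset.sum_congr rfl fun g _ => ?_
    rw [sVal_perm g (List.Perm.refl _) (pl_ins_perm hk.2 hr), sVal, sVal, List.map_cons,
      List.prod_cons]
    ring
  · have hb : Nat.beq kind 0 = false := Bool.eq_false_iff.2 fun e => k0 (Nat.eq_of_beq_eq_true e)
    rw [hb, cond_false] at hk
    simp only [freeKey, hb, cond_false]
    have unit : kind ≤ 12 → j + 2 < 32 ∧ ∀ g, ∑ x, fac h g r x = (Real.sqrt 6 : ℂ) := by
      intro h12
      by_cases h6' : kind ≤ 6
      · rw [Nat.ble_eq_true_of_le h6', cond_true] at hk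
        simp only [Bool.and_eq_true, Nat.blt, Nat.ble_eq] at hk
        refine ⟨by omega, fun g => sum_fac_unit hh g ?_⟩
        have e : isPlusR r (kind - 1) = true := beq_iff_eq.2 (Nat.eq_of_beq_eq_true hk.2)
        obtain ⟨b, hb', hkb⟩ : ∃ b, b < 6 ∧ kind - 1 = b := ⟨_, by omega, rfl⟩
        rw [hkb] at e
        interval_cases b <;> simp [isUnit6, e]
      · have f6 : Nat.ble kind 6 = false := Bool.eq_false_iff.2 fun e => h6' (Nat.le_of_ble_eq_true e)
        rw [f6, cond_false, Nat.ble_eq_true_of_le h12, cond_true] at hk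
        simp only [Bool.and_eq_true, Nat.blt, Nat.ble_eq] at hk
        refine ⟨by omega, fun g => sum_fac_unit hh g ?_⟩
        have e : isMinusR r (kind - 7) = true := beq_iff_eq.2 (Nat.eq_of_beq_eq_true hk.2)
        obtain ⟨b, hb', hkb⟩ : ∃ b, b < 6 ∧ kind - 7 = b := ⟨_, by omega, rfl⟩
        rw [hkb] at e
        interval_cases b <;> simp [isUnit6, e]
    by_cases h12 : kind ≤ 12
    · obtain ⟨hj2, hs⟩ := unit h12
      rw [Nat.ble_eq_true_of_le h12, cond_true, tVal, termOf]
      obtain ⟨e1, e2, e3⟩ := key_parts (B := rest) hnF (show j + 1 < 32 by omega)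
      simp only [e1, e2, e3, hs, ← Finset.mul_sum]
      push_cast
      ring
    · have f12 : Nat.ble kind 12 = false := Bool.eq_false_iff.2 fun e => h12 (Nat.le_of_ble_eq_true e)
      have f6 : Nat.ble kind 6 = false :=
        Bool.eq_false_iff.2 fun e => h12 (le_trans (Nat.le_of_ble_eq_true e) (by norm_num))
      rw [f6, cond_false, f12, cond_false] at hk
      simp only [Bool.and_eq_true, Nat.blt, Nat.ble_eq] at hk
      obtain rfl := Nat.eq_of_beq_eq_true hk.2
      rw [f12, cond_false, tVal, termOf]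
      obtain ⟨e1, e2, e3⟩ := key_parts (B := rest) hnF (show j + 2 < 32 by omega)
      simp only [e1, e2, e3, sum_fac_zero, ← Finset.mul_sum]
      push_cast
      linear_combination ((Real.sqrt 6 : ℂ) ^ j *
        ∑ g : Fin 6 → Fin 6, sVal h g (pl rest m) (pl (rest >>> (30 * m)) nF)) * h6

/-- the linear rule of one parent with `m + 1` distinct rows -/
theorem parent_sound (hh : InM h) {m K kind pf : ℕ} (p : ℕ → ℕ)
    (hk : freeOK (K / 256 % 1073741824) (K / 32 % 8) (K % 32) kind pf = true)
    (hq : ∀ q < m, addOK (K / 256 % 1073741824) (slot 30 ((K / 256) >>> 30) q) = true ∧ p q < m) :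
    tVal h (termOf (m + 1) K) =
      tVal h (termOf m (freeKey ((K / 256) >>> 30) (K / 256 % 1073741824) m (K / 32 % 8) (K % 32) kind pf))
      - ∑ q ∈ range m, tVal h (termOf m
          (mergeKey ((K / 256) >>> 30) (K / 256 % 1073741824) (K / 32 % 8) (K % 32) q (p q))) := by
  have hF : K / 32 % 8 < 8 := Nat.mod_lt _ (by norm_num)
  have hj : K % 32 < 32 := Nat.mod_lt _ (by norm_num)
  set r := K / 256 % 1073741824 with hr'
  set rest := (K / 256) >>> 30 with hrest
  set j := K % 32 with hj'
  set nF := K / 32 % 8 with hF'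
  set F := pl (rest >>> (30 * m)) nF with hFl
  have hT : termOf (m + 1) K = ⟨1, j, r :: pl rest m, F⟩ := by
    rw [termOf, pl, shift30]
  rw [hT, freeKey_sound hh hrest hF (Nat.mod_lt _ (by norm_num)) hk hj]
  have child : ∀ q ∈ range m, tVal h (termOf m (mergeKey rest r nF j q (p q))) =
      ((Real.sqrt 6 ^ j : ℝ) : ℂ) * ∑ g : Fin 6 → Fin 6,
        injS (((pl rest m).map (fac h g)).set q fun y =>
          fac h g r y * ((pl rest m).map (fac h g)).getD q 0 y) ∅ *
          (F.map fun r => ∑ x, fac h g r x).prod := by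
    intro q hqm
    have hqm : q < m := mem_range.1 hqm
    obtain ⟨hx, hp⟩ := hq q hqm
    obtain ⟨hadd, hn⟩ := addOK_sound hx
    obtain ⟨m', rfl⟩ : ∃ m', m = m' + 1 := ⟨m - 1, by omega⟩
    rw [mergeKey, tVal, termOf]
    obtain ⟨e1, e2, e3⟩ := key_parts (B := ins (p q) (r + slot 30 rest q - zeroR) (del q rest)) hF hj
    rw [e1, e2, e3, ins_shift _ _ _ _ (by omega) hn, del_shift q m' rest (by omega), ← hFl,
      Int.cast_one, one_mul]
    congr 1
    refine Finset.sum_congr rfl fun g _ => ?_
    rw [sVal_perm g (pl_ins_perm (by omega) hn) (List.Perm.refl _), pl_del q m' rest (by omega),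
      sVal, List.map_cons, ← List.eraseIdx_map, fac_addR hh g hadd]
    congr 1
    refine (injS_perm ((set_perm _ q _ (by simp [pl_length]; omega)).trans ?_) ∅).symm
    have : ((pl rest (m' + 1)).map (fac h g)).getD q 0 = fac h g (slot 30 rest q) := by
      rw [← pl_get _ q rest hqm, List.getD_eq_getElem _ _ (by simp [pl_length]; omega),
        List.getD_eq_getElem _ _ (by simp [pl_length]; omega), List.getElem_map]
    rw [this]
  rw [Finset.sum_congr rfl child, ← Finset.mul_sum, Finset.sum_comm, ← mul_sub, tVal,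
    ← Finset.sum_sub_distrib, Int.cast_one, one_mul]
  congr 1
  refine Finset.sum_congr rfl fun g _ => ?_
  rw [sVal, sVal, List.map_cons, injS_step, mulSum, mulAt_sum, List.length_map, pl_length,
    ← Finset.sum_mul]
  ring

/-! ### levels -/

/-- a level: slot widths, number of states, states, positive and negative weights -/
structure Lev where
  kw : ℕ
  wd : ℕ
  n : ℕ
  keys : ℕ
  pos : ℕ
  neg : ℕ

/-- the value of a level with `m` distinct rows -/
noncomputable def Lev.val (h : Fin 6 → Fin 6 → ℂ) (m : ℕ) (A : Lev) : ℝ :=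
  ∑ i ∈ range A.n, ((slot A.wd A.pos i : ℝ) - (slot A.wd A.neg i : ℝ)) * node h m (slot A.kw A.keys i)

/-- the index of a merged child -/
def mIdx (iw hint q : ℕ) : ℕ := (hint >>> (7 + iw + (iw + 3) * q)) % 2 ^ iw

/-- the position of a merged child -/
def mPos (iw hint q : ℕ) : ℕ := (hint >>> (7 + iw + (iw + 3) * q + iw)) % 8

/-- the index of the freed child -/
def fIdx (iw hint : ℕ) : ℕ := (hint >>> 7) % 2 ^ iw

/-- all merged children are found -/
noncomputable def mergesOK (B : Lev) (iw hint rest r nF j m : ℕ) : ℕ → Bool :=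
  Nat.rec (motive := fun _ => Bool) true fun q ih =>
    addOK r (slot 30 rest q) && Nat.blt (mPos iw hint q) m && Nat.blt (mIdx iw hint q) B.n
      && Nat.beq (slot B.kw B.keys (mIdx iw hint q)) (mergeKey rest r nF j q (mPos iw hint q)) && ih

/-- the slots of the merged children -/
noncomputable def mergesSum (wd iw hint : ℕ) : ℕ → ℕ :=
  Nat.rec (motive := fun _ => ℕ) 0 fun q ih => ih + 1 <<< (wd * mIdx iw hint q)

/-- one parent is linked -/
noncomputable def parentOK (B : Lev) (iw hint K m : ℕ) : Bool :=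
  freeOK (K / 256 % 1073741824) (K / 32 % 8) (K % 32) (hint % 16) ((hint >>> 4) % 8)
    && Nat.blt (fIdx iw hint) B.n
    && Nat.beq (slot B.kw B.keys (fIdx iw hint))
        (freeKey ((K / 256) >>> 30) (K / 256 % 1073741824) m (K / 32 % 8) (K % 32) (hint % 16) ((hint >>> 4) % 8))
    && mergesOK B iw hint ((K / 256) >>> 30) (K / 256 % 1073741824) (K / 32 % 8) (K % 32) m m

/-- all parents, from the last one down -/
noncomputable def parents (A B : Lev) (iw hw H m : ℕ) : ℕ → ℕ → ℕ → ℕ → ℕ → Bool :=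
  Nat.rec (motive := fun _ => ℕ → ℕ → ℕ → ℕ → Bool)
    (fun P N bP bN => Nat.blt bP (2 ^ B.wd) && Nat.blt bN (2 ^ B.wd)
      && Nat.beq P B.pos && Nat.beq N B.neg)
    fun i ih P N bP bN =>
      force (slot A.wd A.pos i) fun a => force (slot A.wd A.neg i) fun b =>
      bif Nat.beq a b then ih P N bP bN else
      bif parentOK B iw (slot hw H i) (slot A.kw A.keys i) m then
        bif Nat.ble b a then
          force (P + (a - b) * (1 <<< (B.wd * fIdx iw (slot hw H i)))) fun P' =>
          force (N + (a - b) * mergesSum B.wd iw (slot hw H i) m) fun N' =>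
          force (bP + (a - b)) fun bP' => force (bN + (a - b) * m) fun bN' => ih P' N' bP' bN'
        else
          force (P + (b - a) * mergesSum B.wd iw (slot hw H i) m) fun P' =>
          force (N + (b - a) * (1 <<< (B.wd * fIdx iw (slot hw H i)))) fun N' =>
          force (bP + (b - a) * m) fun bP' => force (bN + (b - a)) fun bN' => ih P' N' bP' bN'
      else false

/-- one level maps to the next -/
noncomputable def stepOK (A B : Lev) (iw hw H m : ℕ) : Bool := parents A B iw hw H m A.n 0 0 0 0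

/-- accumulators of two slot lists with a given signed total -/
def Rep (wd n P N bP bN : ℕ) (v : ℕ → ℝ) (X : ℝ) : Prop :=
  ∃ lp ln : List (ℕ × ℕ),
    (∀ q ∈ lp, q.1 < n) ∧ (∀ q ∈ ln, q.1 < n) ∧
      (lp.map fun q => q.2).sum = bP ∧ (ln.map fun q => q.2).sum = bN ∧
      accS wd lp = P ∧ accS wd ln = N ∧
      (lp.map fun q => (q.2 : ℝ) * v q.1).sum - (ln.map fun q => (q.2 : ℝ) * v q.1).sum = X

lemma Rep.value {wd n P N bP bN : ℕ} {v : ℕ → ℝ} {X : ℝ} (hR : Rep wd n P N bP bN v X)
    (hP : bP < 2 ^ wd) (hN : bN < 2 ^ wd) :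
    ∑ i ∈ range n, ((slot wd P i : ℝ) - (slot wd N i : ℝ)) * v i = X := by
  obtain ⟨lp, ln, a1, a2, a3, a4, rfl, rfl, rfl⟩ := hR
  rw [← total_linear n v lp a1, ← total_linear n v ln a2, ← Finset.sum_sub_distrib]
  refine Finset.sum_congr rfl fun i hi => ?_
  rw [slot_accS wd n lp a1 (a3 ▸ hP) i (mem_range.1 hi), slot_accS wd n ln a2 (a4 ▸ hN) i (mem_range.1 hi)]
  ring

lemma Rep.add {wd n P N bP bN : ℕ} {v : ℕ → ℝ} {X : ℝ} (hR : Rep wd n P N bP bN v X)
    (mp mn : List (ℕ × ℕ)) (h1 : ∀ q ∈ mp, q.1 < n) (h2 : ∀ q ∈ mn, q.1 < n) :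
    Rep wd n (P + accS wd mp) (N + accS wd mn) (bP + (mp.map fun q => q.2).sum)
      (bN + (mn.map fun q => q.2).sum) v
      (X + ((mp.map fun q => (q.2 : ℝ) * v q.1).sum - (mn.map fun q => (q.2 : ℝ) * v q.1).sum)) := by
  obtain ⟨lp, ln, a1, a2, a3, a4, rfl, rfl, rfl⟩ := hR
  refine ⟨lp ++ mp, ln ++ mn, ?_, ?_, by simp [a3], by simp [a4], accS_append .., accS_append .., ?_⟩
  · intro q hq; rcases List.mem_append.1 hq with hq | hq
    exacts [a1 q hq, h1 q hq]
  · intro q hq; rcases List.mem_append.1 hq with hq | hq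
    exacts [a2 q hq, h2 q hq]
  · simp only [List.map_append, List.sum_append]; ring

lemma accS_merges (wd iw hint z : ℕ) : ∀ m,
    accS wd ((List.range m).map fun q => (mIdx iw hint q, z)) = z * mergesSum wd iw hint m
  | 0 => by simp [accS, mergesSum]
  | m + 1 => by
    rw [List.range_succ, List.map_append, accS_append, accS_merges wd iw hint z m]
    simp only [List.map_cons, List.map_nil, accS, mergesSum, Nat.shiftLeft_eq]
    ring

lemma mergesOK_get {B : Lev} {iw hint rest r nF j m : ℕ} : ∀ k,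
    mergesOK B iw hint rest r nF j m k = true → ∀ q < k,
      addOK r (slot 30 rest q) = true ∧ mPos iw hint q < m ∧ mIdx iw hint q < B.n ∧
        slot B.kw B.keys (mIdx iw hint q) = mergeKey rest r nF j q (mPos iw hint q)
  | 0, _, q, hq => absurd hq (Nat.not_lt_zero q)
  | k + 1, hk, q, hq => by
    simp only [mergesOK, Bool.and_eq_true, Nat.blt, Nat.ble_eq] at hk
    rcases Nat.lt_or_eq_of_le (Nat.lt_succ_iff.1 hq) with hq | rfl
    · exact mergesOK_get k hk.2 q hq
    · exact ⟨hk.1.1.1.1, hk.1.1.1.2, hk.1.1.2, Nat.eq_of_beq_eq_true hk.1.2⟩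

/-- a checked parent: its state equals the freed child minus the merged children -/
lemma parentOK_sound (hh : InM h) {B : Lev} {iw hint K m : ℕ}
    (hp : parentOK B iw hint K m = true) :
    fIdx iw hint < B.n ∧ (∀ q < m, mIdx iw hint q < B.n) ∧
      node h (m + 1) K = node h m (slot B.kw B.keys (fIdx iw hint)) -
        ∑ q ∈ range m, node h m (slot B.kw B.keys (mIdx iw hint q)) := by
  simp only [parentOK, Bool.and_eq_true, Nat.blt, Nat.ble_eq] at hp
  obtain ⟨⟨⟨hk, hf⟩, hfk⟩, hm⟩ := hp
  have hq := mergesOK_get m hm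
  refine ⟨hf, fun q hqm => (hq q hqm).2.2.1, ?_⟩
  have e := fun k (hk' : InM k) => parent_sound (h := k) hk' (mPos iw hint) hk
    fun q hqm => ⟨(hq q hqm).1, (hq q hqm).2.1⟩
  have es : ∀ q ∈ range m, node h m (slot B.kw B.keys (mIdx iw hint q)) = node h m
      (mergeKey ((K / 256) >>> 30) (K / 256 % 1073741824) (K / 32 % 8) (K % 32) q (mPos iw hint q)) :=
    fun q hqm => by rw [(hq q (mem_range.1 hqm)).2.2.2]
  rw [Finset.sum_congr rfl es, Nat.eq_of_beq_eq_true hfk]
  simp only [node, e h hh, e _ hh.transp, Complex.sub_re, Complex.re_sum, Finset.sum_add_distrib]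
  ring

lemma parents_zero (A B : Lev) (iw hw H m P N bP bN : ℕ) :
    parents A B iw hw H m 0 P N bP bN = (Nat.blt bP (2 ^ B.wd) && Nat.blt bN (2 ^ B.wd)
      && Nat.beq P B.pos && Nat.beq N B.neg) := rfl

lemma parents_succ (A B : Lev) (iw hw H m i P N bP bN : ℕ) :
    parents A B iw hw H m (i + 1) P N bP bN =
      force (slot A.wd A.pos i) fun a => force (slot A.wd A.neg i) fun b =>
      bif Nat.beq a b then parents A B iw hw H m i P N bP bN else
      bif parentOK B iw (slot hw H i) (slot A.kw A.keys i) m then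
        bif Nat.ble b a then
          force (P + (a - b) * (1 <<< (B.wd * fIdx iw (slot hw H i)))) fun P' =>
          force (N + (a - b) * mergesSum B.wd iw (slot hw H i) m) fun N' =>
          force (bP + (a - b)) fun bP' => force (bN + (a - b) * m) fun bN' =>
            parents A B iw hw H m i P' N' bP' bN'
        else
          force (P + (b - a) * mergesSum B.wd iw (slot hw H i) m) fun P' =>
          force (N + (b - a) * (1 <<< (B.wd * fIdx iw (slot hw H i)))) fun N' =>
          force (bP + (b - a) * m) fun bP' => force (bN + (b - a)) fun bN' =>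
            parents A B iw hw H m i P' N' bP' bN'
      else false := rfl

lemma parents_sound (hh : InM h) {A B : Lev} {iw hw H m : ℕ} : ∀ (i P N bP bN : ℕ) (X : ℝ),
    parents A B iw hw H m i P N bP bN = true →
    Rep B.wd B.n P N bP bN (fun s => node h m (slot B.kw B.keys s)) X →
    B.val h m = X + ∑ s ∈ range i,
      ((slot A.wd A.pos s : ℝ) - (slot A.wd A.neg s : ℝ)) * node h (m + 1) (slot A.kw A.keys s)
  | 0, P, N, bP, bN, X, ht, hR => by
    simp only [parents_zero, Bool.and_eq_true, Nat.blt, Nat.ble_eq] at ht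
    rw [Lev.val, ← Nat.eq_of_beq_eq_true ht.1.2, ← Nat.eq_of_beq_eq_true ht.2,
      hR.value ht.1.1.1 ht.1.1.2, Finset.range_zero, Finset.sum_empty, add_zero]
  | i + 1, P, N, bP, bN, X, ht, hR => by
    simp only [parents_succ, force_eq] at ht
    rw [Finset.sum_range_succ]
    by_cases hab : slot A.wd A.pos i = slot A.wd A.neg i
    · rw [hab, show Nat.beq (slot A.wd A.neg i) (slot A.wd A.neg i) = true from Nat.beq_refl _,
        cond_true] at ht
      rw [parents_sound hh i P N bP bN X ht hR, hab]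
      ring
    rw [Bool.eq_false_iff.2 fun e => hab (Nat.eq_of_beq_eq_true e), cond_false] at ht
    cases hok : parentOK B iw (slot hw H i) (slot A.kw A.keys i) m with
    | false => rw [hok] at ht; simp at ht
    | true =>
      rw [hok, cond_true] at ht
      obtain ⟨hf, hm, hnode⟩ := parentOK_sound hh hok
      set hint := slot hw H i with hhint
      have hml : ∀ z : ℕ, ∀ q ∈ (List.range m).map (fun q => (mIdx iw hint q, z)), q.1 < B.n := by
        intro z q hq
        obtain ⟨u, hu, rfl⟩ := List.mem_map.1 hq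
        exact hm u (List.mem_range.1 hu)
      have hfl : ∀ z : ℕ, ∀ q ∈ [(fIdx iw hint, z)], q.1 < B.n := by
        intro z q hq; obtain rfl := List.mem_singleton.1 hq; exact hf
      have sums : ∀ z : ℕ, (((List.range m).map fun q => (mIdx iw hint q, z)).map fun q => q.2).sum = z * m ∧
          (((List.range m).map fun q => (mIdx iw hint q, z)).map
              fun q => (q.2 : ℝ) * node h m (slot B.kw B.keys q.1)).sum
            = (z : ℝ) * ∑ q ∈ range m, node h m (slot B.kw B.keys (mIdx iw hint q)) := by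
        intro z
        constructor
        · simp [Function.comp_def, mul_comm]
        · rw [List.map_map, Finset.mul_sum]; rfl
      cases hle : Nat.ble (slot A.wd A.neg i) (slot A.wd A.pos i) with
      | true =>
        rw [hle, cond_true] at ht
        have hle' := Nat.le_of_ble_eq_true hle
        have h1 := hR.add [(fIdx iw hint, slot A.wd A.pos i - slot A.wd A.neg i)]
          ((List.range m).map fun q => (mIdx iw hint q, slot A.wd A.pos i - slot A.wd A.neg i))
          (hfl _) (hml _)
        rw [accS_merges, (sums _).1, (sums _).2] at h1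
        simp only [accS, List.map_cons, List.map_nil, List.sum_cons, List.sum_nil, add_zero,
          Nat.shiftLeft_eq, one_mul] at h1
        simp only [Nat.shiftLeft_eq, one_mul] at ht
        rw [parents_sound hh i _ _ _ _ _ ht h1, hnode, Nat.cast_sub hle']
        ring
      | false =>
        rw [hle, cond_false] at ht
        have hle' : slot A.wd A.pos i ≤ slot A.wd A.neg i :=
          le_of_not_ge fun e => by rw [Nat.ble_eq_true_of_le e] at hle; simp at hle
        have h1 := hR.add
          ((List.range m).map fun q => (mIdx iw hint q, slot A.wd A.neg i - slot A.wd A.pos i))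
          [(fIdx iw hint, slot A.wd A.neg i - slot A.wd A.pos i)] (hml _) (hfl _)
        rw [accS_merges, (sums _).1, (sums _).2] at h1
        simp only [accS, List.map_cons, List.map_nil, List.sum_cons, List.sum_nil, add_zero,
          Nat.shiftLeft_eq, one_mul] at h1
        simp only [Nat.shiftLeft_eq, one_mul] at ht
        rw [parents_sound hh i _ _ _ _ _ ht h1, hnode, Nat.cast_sub hle']
        ring

/-- a checked level keeps the value -/
theorem step_sound (hh : InM h) {A B : Lev} {iw hw H m : ℕ} (ht : stepOK A B iw hw H m = true) :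
    A.val h (m + 1) = B.val h m := by
  rw [parents_sound hh A.n 0 0 0 0 0 ht ⟨[], [], by simp, by simp, rfl, rfl, rfl, rfl, by simp⟩,
    zero_add, Lev.val]

end Vale.Agent.P355.Cert.IdentFast
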