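import Vale.Agent.P355.Cert.IdentFast
import Vale.Agent.P355.Cert.IdentCT

/-
P355: leaves and starting levels of the low-level identity checker. The distinct lists of free rows
are linked to the table once, in shards; a last level only looks its states up there.
-/

open scoped BigOperators ComplexConjugate
open Finset

namespace Vale.Agent.P355.Cert.IdentFast

open Packed Ident

variable {h : Fin 6 → Fin 6 → ℂ}

/-- the packed matrix of a list of free rows: `t % 8` rows, the others zero -/
def padM (t : ℕ) : ℕ :=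
  t / 8 % 2 ^ (30 * (t % 8)) + (zeroM >>> (30 * (t % 8))) <<< (30 * (t % 8))

/-- the table index of a link -/
def lIdx (k : ℕ) : ℕ := k % 65536
/-- the reduction cost of a link -/
def lJJ (k : ℕ) : ℕ := (k >>> 16) % 32
/-- transposed -/
noncomputable def lTr (k : ℕ) : Bool := Nat.beq ((k >>> 21) % 2) 1
/-- negated -/
noncomputable def lNg (k : ℕ) : Bool := Nat.beq ((k >>> 22) % 2) 1
/-- the reduced variant -/
def lVar (k : ℕ) : ℕ := (k >>> 23) % 2 ^ 180
/-- the hint -/
def lHint (k : ℕ) : ℕ := k >>> 203

/-- one list of free rows is linked -/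
noncomputable def linkOK (canon : Block.Tree) (t k : ℕ) : Bool :=
  Nat.ble (t % 8) 6 && check (padM t) (lHint k) (lJJ k) (lVar k)
    && isVariant (canon.get (lIdx k)).1 (lVar k) (lTr k) (lNg k)

/-- every entry of one shard is linked -/
noncomputable def shardOK (canon : Block.Tree) (tw lw n T L : ℕ) : Bool :=
  Nat.rec (motive := fun _ => Bool) true (fun i ih => linkOK canon (slot tw T i) (slot lw L i) && ih) n

lemma shardOK_get {canon : Block.Tree} {tw lw T L : ℕ} : ∀ {n : ℕ},
    shardOK canon tw lw n T L = true → ∀ i < n, linkOK canon (slot tw T i) (slot lw L i) = true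
  | 0, _, i, hi => absurd hi (Nat.not_lt_zero i)
  | n + 1, hn, i, hi => by
    simp only [shardOK, Bool.and_eq_true] at hn
    rcases Nat.lt_or_eq_of_le (Nat.lt_succ_iff.1 hi) with hi | rfl
    exacts [shardOK_get hn.2 i hi, hn.1]

/-- every shard of the table is linked -/
def TabOK (canon : Block.Tree) (tw lw n : ℕ) (tab : Block.Tree) : Prop :=
  ∀ s i, i < n → linkOK canon (slot tw (tab.get s).1 i) (slot lw (tab.get s).2 i) = true

theorem TabOK.leaf {canon : Block.Tree} {tw lw n T L : ℕ} (hT : shardOK canon tw lw n T L = true) :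
    TabOK canon tw lw n (.leaf T L) := fun _ i hi => shardOK_get hT i hi

theorem TabOK.node {canon : Block.Tree} {tw lw n : ℕ} {l r : Block.Tree}
    (hl : TabOK canon tw lw n l) (hr : TabOK canon tw lw n r) :
    TabOK canon tw lw n (.node l r) := by
  intro s i hi
  have e : (Block.Tree.node l r).get s
      = bif Nat.beq (s % 2) 0 then l.get (s / 2) else r.get (s / 2) := rfl
  rw [e]
  cases Nat.beq (s % 2) 0
  exacts [hr _ i hi, hl _ i hi]

/-- the exponent of the square root of six of a linked leaf -/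
def lExp (J K k : ℕ) : ℕ := K % 32 + J - (lJJ k + 2 * (6 - K / 32 % 8))

lemma shift_add_mul (B a b : ℕ) : B >>> (30 * (a + b)) = (B >>> (30 * a)) >>> (30 * b) := by
  rw [← Nat.shiftRight_add, Nat.mul_add]

lemma padM_rows {t : ℕ} (ht : t % 8 ≤ 6) (i : Fin 6) :
    rowOf (padM t) i = (pl (t / 8) (t % 8)).getD i zeroR := by
  obtain ⟨e1, e2⟩ := pl_low (t % 8) (t / 8) (zeroM >>> (30 * (t % 8)))
  by_cases hi : (i : ℕ) < t % 8
  · have hlen : (i : ℕ) < (pl (t / 8) (t % 8)).length := by rw [pl_length]; exact hi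
    rw [List.getD_eq_getElem _ _ hlen, ← List.getD_eq_getElem _ 0 hlen, ← e1]
    rw [pl_get _ _ _ hi]
    rfl
  · have hlen : (pl (t / 8) (t % 8)).length ≤ (i : ℕ) := by rw [pl_length]; omega
    rw [List.getD_eq_default _ _ hlen]
    obtain ⟨d, hd⟩ : ∃ d, (i : ℕ) = t % 8 + d := ⟨(i : ℕ) - t % 8, by omega⟩
    have hz : ∀ u : Fin 6, rowOf zeroM u = zeroR := by decide +kernel
    have : rowOf (padM t) i = rowOf zeroM i := by
      rw [rowOf, rowOf, padM, hd, shift_add_mul, e2, ← shift_add_mul]
    rw [this, hz i]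

/-- the value of a last-level state -/
lemma node_leaf (hh : InM h) {canon : Block.Tree} {J K k : ℕ}
    (hk : linkOK canon (K / 32) k = true)
    (he : lJJ k + 2 * (6 - K / 32 % 8) ≤ K % 32 + J) :
    node h 0 K = Real.sqrt 6 ^ lExp J K k * Block.tableVal h canon J (lIdx k) := by
  simp only [linkOK, Bool.and_eq_true, Nat.ble_eq] at hk
  obtain ⟨⟨hn, hc⟩, hv⟩ := hk
  have hrows := padM_rows hn
  have hF : (K / 256) >>> (30 * 0) = K / 32 / 8 := by simp [Nat.div_div_eq_div_mul]
  have hsym := (check_sym hh hc).trans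
    (congrArg ((Real.sqrt 6)⁻¹ ^ lJJ k * ·) (isVariant_sound hh hv))
  set F := pl (K / 32 / 8) (K / 32 % 8) with hFd
  have hlen : F.length = K / 32 % 8 := pl_length _ _
  have one : ∀ q : Fin 6 → Fin 6 → ℂ, (tVal q (termOf 0 K)).re * 6 ^ (6 - F.length) =
      Real.sqrt 6 ^ (K % 32) * (homM q (expoOf (padM (K / 32)))).re := by
    intro q
    rw [leaf_homM (h := q) (by omega : F.length ≤ 6) hrows, tVal, termOf, hF, Int.cast_one, one_mul]
    have e6 : ((6 : ℂ) ^ (6 - F.length)) = ((((6 : ℝ) ^ (6 - F.length)) : ℝ) : ℂ) := by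
      push_cast; rfl
    rw [e6, Complex.re_ofReal_mul, Complex.re_ofReal_mul]
    simp only [pl, ← hFd]
    ring
  have h6 : Real.sqrt 6 ≠ 0 := Real.sqrt_ne_zero'.mpr (by norm_num)
  have h66 : (6 : ℝ) ^ (6 - F.length) = Real.sqrt 6 ^ (2 * (6 - F.length)) := by
    rw [pow_mul, Real.sq_sqrt (by norm_num)]
  refine mul_right_cancel₀ (pow_ne_zero (6 - F.length) (by norm_num : (6 : ℝ) ≠ 0)) ?_
  have h2 : (homM h (expoOf (padM (K / 32)))).re +
      (homM (fun i j => h j i) (expoOf (padM (K / 32)))).re =
      (Real.sqrt 6)⁻¹ ^ lJJ k * symM h (expoOf (canon.get (lIdx k)).1) := hsym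
  rw [node, add_mul, one, one, ← mul_add, h2, Block.tableVal, h66]
  have hpow : Real.sqrt 6 ^ (K % 32) * (Real.sqrt 6)⁻¹ ^ lJJ k =
      Real.sqrt 6 ^ lExp J K k * (Real.sqrt 6)⁻¹ ^ J * Real.sqrt 6 ^ (2 * (6 - F.length)) := by
    have : lJJ k + lExp J K k + 2 * (6 - F.length) = K % 32 + J := by
      rw [hlen]; unfold lExp; omega
    rw [inv_pow, inv_pow]
    field_simp
    rw [← pow_add, ← pow_add, ← pow_add, this]
  linear_combination (symM h (expoOf (canon.get (lIdx k)).1)) * hpow

/-- widths of the leaf table, of its index hints and of the accumulators -/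
structure Sink where
  tw : ℕ
  lw : ℕ
  sh : ℕ
  liw : ℕ
  wd : ℕ
  KE : ℕ
  J : ℕ

/-- one leaf is found in the table -/
noncomputable def foundOK (c : Sink) (tab : Block.Tree) (K li : ℕ) : Bool :=
  Nat.blt (li % c.sh) c.sh
    && Nat.beq (slot c.tw (tab.get (li / c.sh)).1 (li % c.sh)) (K / 32)
    && Nat.ble (lJJ (slot c.lw (tab.get (li / c.sh)).2 (li % c.sh)) + 2 * (6 - K / 32 % 8)) (K % 32 + c.J)
    && Nat.blt (lIdx (slot c.lw (tab.get (li / c.sh)).2 (li % c.sh))) c.KE

/-- the slot of a leaf -/
def sinkS (c : Sink) (K k : ℕ) : ℕ := 2 * lIdx k + lExp c.J K k % 2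

/-- the weight of a leaf -/
def sinkW (c : Sink) (K k z : ℕ) : ℕ := z * 6 ^ (lExp c.J K k / 2)

/-- all leaves, from the last one down -/
noncomputable def leaves (c : Sink) (A : Lev) (tab : Block.Tree) (LI SP SN bP bN : ℕ) :
    ℕ → ℕ → ℕ → ℕ → ℕ → Bool :=
  Nat.rec (motive := fun _ => ℕ → ℕ → ℕ → ℕ → Bool)
    (fun P N u v => Nat.beq P SP && Nat.beq N SN && Nat.beq u bP && Nat.beq v bN)
    fun i ih P N u v =>
      force (slot A.wd A.pos i) fun a => force (slot A.wd A.neg i) fun b =>
      bif Nat.beq a b then ih P N u v else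
      force (slot A.kw A.keys i) fun K => force (slot c.liw LI i) fun li =>
      bif foundOK c tab K li then
        force (slot c.lw (tab.get (li / c.sh)).2 (li % c.sh)) fun k =>
        bif Nat.ble b a then
          force (P + sinkW c K k (a - b) <<< (c.wd * sinkS c K k)) fun P' =>
          force (u + sinkW c K k (a - b)) fun u' => ih P' N u' v
        else
          force (N + sinkW c K k (b - a) <<< (c.wd * sinkS c K k)) fun N' =>
          force (v + sinkW c K k (b - a)) fun v' => ih P N' u v'
      else false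

lemma leaves_succ (c : Sink) (A : Lev) (tab : Block.Tree) (LI SP SN bP bN i P N u v : ℕ) :
    leaves c A tab LI SP SN bP bN (i + 1) P N u v =
      force (slot A.wd A.pos i) fun a => force (slot A.wd A.neg i) fun b =>
      bif Nat.beq a b then leaves c A tab LI SP SN bP bN i P N u v else
      force (slot A.kw A.keys i) fun K => force (slot c.liw LI i) fun li =>
      bif foundOK c tab K li then
        force (slot c.lw (tab.get (li / c.sh)).2 (li % c.sh)) fun k =>
        bif Nat.ble b a then
          force (P + sinkW c K k (a - b) <<< (c.wd * sinkS c K k)) fun P' =>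
          force (u + sinkW c K k (a - b)) fun u' => leaves c A tab LI SP SN bP bN i P' N u' v
        else
          force (N + sinkW c K k (b - a) <<< (c.wd * sinkS c K k)) fun N' =>
          force (v + sinkW c K k (b - a)) fun v' => leaves c A tab LI SP SN bP bN i P N' u v'
      else false := rfl

/-- accumulators with a given value -/
def Acc (c : Sink) (w : ℕ → ℝ) (P N u v : ℕ) (X : ℝ) : Prop :=
  ∃ lp ln : List (ℕ × ℕ),
    (∀ q ∈ lp, q.1 < 2 * c.KE) ∧ (∀ q ∈ ln, q.1 < 2 * c.KE) ∧
      (lp.map fun q => q.2).sum = u ∧ (ln.map fun q => q.2).sum = v ∧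
      accS c.wd lp = P ∧ accS c.wd ln = N ∧ evalL w lp - evalL w ln = X

lemma phi_slot (w : ℕ → ℝ) (idx e z : ℕ) :
    ((z * 6 ^ (e / 2) : ℕ) : ℝ) * phi w (2 * idx + e % 2) = (z : ℝ) * (Real.sqrt 6 ^ e * w idx) := by
  rw [phi, show (2 * idx + e % 2) % 2 = e % 2 by omega, show (2 * idx + e % 2) / 2 = idx by omega]
  conv_rhs => rw [← Nat.mod_add_div e 2, pow_add, pow_mul,
    Real.sq_sqrt (show (0 : ℝ) ≤ 6 by norm_num)]
  push_cast
  ring

lemma leaves_sound (hh : InM h) {c : Sink} {canon tab : Block.Tree}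
    (htab : TabOK canon c.tw c.lw c.sh tab) {A : Lev} {LI SP SN bP bN : ℕ} :
    ∀ (i P N u v : ℕ) (X : ℝ), leaves c A tab LI SP SN bP bN i P N u v = true →
    Acc c (Block.tableVal h canon c.J) P N u v X →
    Acc c (Block.tableVal h canon c.J) SP SN bP bN (X + ∑ s ∈ range i,
      ((slot A.wd A.pos s : ℝ) - (slot A.wd A.neg s : ℝ)) * node h 0 (slot A.kw A.keys s))
  | 0, P, N, u, v, X, ht, hR => by
    have e : leaves c A tab LI SP SN bP bN 0 P N u v
        = (Nat.beq P SP && Nat.beq N SN && Nat.beq u bP && Nat.beq v bN) := rfl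
    simp only [e, Bool.and_eq_true] at ht
    rw [← Nat.eq_of_beq_eq_true ht.1.1.1, ← Nat.eq_of_beq_eq_true ht.1.1.2,
      ← Nat.eq_of_beq_eq_true ht.1.2, ← Nat.eq_of_beq_eq_true ht.2]
    simpa using hR
  | i + 1, P, N, u, v, X, ht, hR => by
    simp only [leaves_succ, force_eq] at ht
    rw [Finset.sum_range_succ]
    set a := slot A.wd A.pos i
    set b := slot A.wd A.neg i
    set K := slot A.kw A.keys i
    by_cases hab : a = b
    · rw [hab, show Nat.beq b b = true from Nat.beq_refl _, cond_true] at ht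
      have := leaves_sound hh htab i P N u v X ht hR
      rwa [hab, sub_self, zero_mul, add_zero]
    rw [Bool.eq_false_iff.2 fun e => hab (Nat.eq_of_beq_eq_true e), cond_false] at ht
    cases hok : foundOK c tab K (slot c.liw LI i) with
    | false => rw [hok] at ht; simp at ht
    | true =>
      rw [hok, cond_true] at ht
      set li := slot c.liw LI i
      set k := slot c.lw (tab.get (li / c.sh)).2 (li % c.sh) with hk
      simp only [foundOK, Bool.and_eq_true, Nat.blt, Nat.ble_eq, ← hk] at hok
      obtain ⟨⟨⟨hpos, hkey⟩, hexp⟩, hidx⟩ := hok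
      have hlink := htab (li / c.sh) (li % c.sh) hpos
      rw [Nat.eq_of_beq_eq_true hkey, ← hk] at hlink
      have hnode := node_leaf hh hlink hexp
      have hs : sinkS c K k < 2 * c.KE := by unfold sinkS; omega
      obtain ⟨lp, ln, a1, a2, a3, a4, a5, a6, a7⟩ := hR
      have hphi := fun z => phi_slot (Block.tableVal h canon c.J) (lIdx k) (lExp c.J K k) z
      cases hle : Nat.ble b a with
      | true =>
        rw [hle, cond_true] at ht
        have hle' := Nat.le_of_ble_eq_true hle
        have h1 : Acc c (Block.tableVal h canon c.J)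
            (P + sinkW c K k (a - b) <<< (c.wd * sinkS c K k)) N (u + sinkW c K k (a - b)) v
            (X + ((a : ℝ) - b) * node h 0 K) := by
          refine ⟨(sinkS c K k, sinkW c K k (a - b)) :: lp, ln, ?_, a2, ?_, a4, ?_, a6, ?_⟩
          · intro q hq
            rcases List.mem_cons.1 hq with rfl | hq
            exacts [hs, a1 q hq]
          · rw [List.map_cons, List.sum_cons, a3, add_comm]
          · rw [accS, a5, add_comm]
          · simp only [evalL, List.map_cons, List.sum_cons, sinkW, sinkS, hphi] at a7 ⊢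
            rw [hnode, ← a7, Nat.cast_sub hle']
            ring
        have := leaves_sound hh htab i _ _ _ _ _ ht h1
        rwa [add_assoc, add_comm (((a : ℝ) - b) * node h 0 K)] at this
      | false =>
        rw [hle, cond_false] at ht
        have hle' : a ≤ b :=
          le_of_not_ge fun e => by rw [Nat.ble_eq_true_of_le e] at hle; simp at hle
        have h1 : Acc c (Block.tableVal h canon c.J)
            P (N + sinkW c K k (b - a) <<< (c.wd * sinkS c K k)) u (v + sinkW c K k (b - a))
            (X + ((a : ℝ) - b) * node h 0 K) := by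
          refine ⟨lp, (sinkS c K k, sinkW c K k (b - a)) :: ln, a1, ?_, a3, ?_, a5, ?_, ?_⟩
          · intro q hq
            rcases List.mem_cons.1 hq with rfl | hq
            exacts [hs, a2 q hq]
          · rw [List.map_cons, List.sum_cons, a4, add_comm]
          · rw [accS, a6, add_comm]
          · simp only [evalL, List.map_cons, List.sum_cons, sinkW, sinkS, hphi] at a7 ⊢
            rw [hnode, ← a7, Nat.cast_sub hle']
            ring
        have := leaves_sound hh htab i _ _ _ _ _ ht h1
        rwa [add_assoc, add_comm (((a : ℝ) - b) * node h 0 K)] at this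

/-! ### starting levels -/

/-- seven distinct values among six: the level is zero -/
theorem start_zero7 {m : ℕ} (hm : Nat.ble 7 m = true) (A : Lev) : A.val h m = 0 := by
  refine Finset.sum_eq_zero fun i _ => ?_
  have e : ∀ q : Fin 6 → Fin 6 → ℂ, tVal q (termOf m (slot A.kw A.keys i)) = 0 := by
    intro q
    rw [tVal, Finset.sum_eq_zero fun g _ => ?_, mul_zero]
    rw [sVal, injS_eq_zero _ _ (by
      have := Nat.le_of_ble_eq_true hm
      simp [termOf, pl_length]; omega), zero_mul]
  rw [node, e, e, Complex.zero_re, add_zero, mul_zero]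

/-- every state of a level has six distinct rows and a balanced column -/
noncomputable def startCT (A : Lev) : Bool :=
  Nat.rec (motive := fun _ => Bool) true (fun i ih =>
    ((List.finRange 6).any fun j => IdentCT.ctRow j (termOf 6 (slot A.kw A.keys i))) && ih) A.n

/-- on the branch of vanishing product sums such a level is zero -/
theorem start_zero6 (hC : IdentCT.CT h) (hC' : IdentCT.CT fun i j => h j i) {A : Lev}
    (hA : startCT A = true) : A.val h 6 = 0 := by
  refine Finset.sum_eq_zero fun i hi => ?_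
  have := allRec_get (fun i => (List.finRange 6).any fun j =>
    IdentCT.ctRow j (termOf 6 (slot A.kw A.keys i))) hA i (mem_range.1 hi)
  obtain ⟨j, -, hj⟩ := List.any_eq_true.1 this
  have z := IdentCT.sum_sVal_zero hC hj
  have z' := IdentCT.sum_sVal_zero hC' hj
  simp [node, tVal, z, z']

/-- a checked last level of value zero gives a chunk -/
theorem zero_sink (hh : InM h) {c : Sink} {canon tab : Block.Tree} {J J' : ℕ} (hJ : c.J = J + J')
    (htab : TabOK canon c.tw c.lw c.sh tab) {A : Lev} (hA : A.val h 0 = 0) {LI SP SN bP bN : ℕ}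
    (ht : leaves c A tab LI SP SN bP bN A.n 0 0 0 0 = true) :
    IdentPart.Zero (Block.tableVal h canon J) c.wd c.KE SP SN bP bN := by
  obtain ⟨lp, ln, a1, a2, a3, a4, a5, a6, a7⟩ := leaves_sound hh htab A.n 0 0 0 0 0 ht
    ⟨[], [], by simp, by simp, rfl, rfl, rfl, rfl, by simp⟩
  rw [zero_add, ← Lev.val, hA, hJ, IdentPart.tableVal_add, IdentPart.evalL_smul,
    IdentPart.evalL_smul, ← mul_sub, mul_eq_zero] at a7
  have h6 : (Real.sqrt 6)⁻¹ ^ J' ≠ 0 := by positivity
  exact ⟨lp, ln, a1, a2, a3, a4, a5, a6, sub_eq_zero.1 (a7.resolve_left h6)⟩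

end Vale.Agent.P355.Cert.IdentFast
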