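import Vale.Agent.P355.Cert.Block
import Vale.Agent.P355.Cert.CheckBridge

/-!
P355: assembly of the certificate. Nonnegative parts (blocks and identities) and one functional given
by packed terms are added; a checked residual makes the functional negative.
-/

open Finset

namespace Vale.Agent.P355.Cert.Main

open Packed Block

variable {h : Fin 6 → Fin 6 → ℂ}

/-- A weighted packed matrix with its reduction to a table entry. -/
structure Term where
  P : ℕ
  hint : ℕ
  cost : ℕ
  T : ℕ
  tr : Bool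
  neg : Bool
  idx : ℕ
  e : ℕ
  w : ℕ

/-- the value of a term -/
noncomputable def Term.val (h : Fin 6 → Fin 6 → ℂ) (t : Term) : ℝ :=
  (t.w : ℝ) * Real.sqrt 6 ^ t.e * symM h (expoOf t.P)

/-- the slot and weight of a term relative to the top power -/
def Term.entry (J : ℕ) (t : Term) : ℕ × ℕ :=
  (2 * t.idx + (t.e + J - t.cost) % 2, t.w * 6 ^ ((t.e + J - t.cost) / 2))

/-- the reductions of a term are right -/
noncomputable def Term.ok (canon : Tree) (J : ℕ) (t : Term) : Bool :=
  check t.P t.hint t.cost t.T && isVariant (canon.get t.idx).1 t.T t.tr t.neg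
    && Nat.ble t.cost (t.e + J)

/-- all terms of a list -/
noncomputable def termsOk (canon : Tree) (J : ℕ) : List Term → Bool
  | [] => true
  | t :: ts => t.ok canon J && termsOk canon J ts

lemma Term.val_entry (hh : InM h) {canon : Tree} {J : ℕ} {t : Term} (ht : t.ok canon J = true) :
    t.val h = ((t.entry J).2 : ℝ) * phi (tableVal h canon J) (t.entry J).1 := by
  simp only [Term.ok, Bool.and_eq_true, Nat.ble_eq] at ht
  obtain ⟨⟨hc, hv⟩, hJ⟩ := ht
  obtain ⟨n, hn⟩ : ∃ n, t.e + J = t.cost + n := ⟨t.e + J - t.cost, by omega⟩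
  have hsub : t.e + J - t.cost = n := by omega
  have h6 : Real.sqrt 6 ≠ 0 := Real.sqrt_ne_zero'.mpr (by norm_num)
  rw [Term.val, check_sym hh hc, isVariant_sound hh hv]
  simp only [Term.entry, hsub, phi, tableVal, Nat.cast_mul, Nat.cast_pow, Nat.cast_ofNat]
  rw [show (2 * t.idx + n % 2) / 2 = t.idx by omega, show (2 * t.idx + n % 2) % 2 = n % 2 by omega]
  have hs : (6 : ℝ) ^ (n / 2) * Real.sqrt 6 ^ (n % 2) = Real.sqrt 6 ^ n := by
    conv_lhs => rw [show (6 : ℝ) = Real.sqrt 6 ^ 2 from (Real.sq_sqrt (by norm_num)).symm]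
    rw [← pow_mul, Real.sqrt_sq (Real.sqrt_nonneg 6), ← pow_add, Nat.div_add_mod]
  have key : Real.sqrt 6 ^ t.e * (Real.sqrt 6)⁻¹ ^ t.cost = Real.sqrt 6 ^ n * (Real.sqrt 6)⁻¹ ^ J := by
    rw [inv_pow, inv_pow]
    field_simp
    rw [← pow_add, ← pow_add]
    congr 1
  linear_combination ((t.w : ℝ) * symM h (expoOf (canon.get t.idx).1)) * key
    - ((t.w : ℝ) * (Real.sqrt 6)⁻¹ ^ J * symM h (expoOf (canon.get t.idx).1)) * hs

lemma terms_eval (hh : InM h) {canon : Tree} {J : ℕ} : ∀ {ts : List Term}, termsOk canon J ts = true →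
    (ts.map (Term.val h)).sum = evalL (tableVal h canon J) (ts.map (Term.entry J))
  | [], _ => by simp [evalL]
  | t :: ts, ht => by
    simp only [termsOk, Bool.and_eq_true] at ht
    rw [List.map_cons, List.sum_cons, terms_eval hh ht.2, t.val_entry hh ht.1]
    simp [evalL]

/-- A combination of terms is read from two accumulators. -/
theorem terms_lin (hh : InM h) {canon : Tree} {J wd K : ℕ} {pos neg : List Term}
    (hp : termsOk canon J pos = true) (hn : termsOk canon J neg = true)
    (hpl : listOk wd K (pos.map (Term.entry J)) = true)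
    (hnl : listOk wd K (neg.map (Term.entry J)) = true) {SP SN : ℕ}
    (hSP : accS wd (pos.map (Term.entry J)) = SP) (hSN : accS wd (neg.map (Term.entry J)) = SN) :
    (pos.map (Term.val h)).sum - (neg.map (Term.val h)).sum =
      lin K (coX wd SP SN) (coY wd SP SN) (tableVal h canon J) := by
  rw [terms_eval hh hp, terms_eval hh hn]
  exact terms_eq_lin wd K _ _ hpl hnl hSP hSN _

/-- A part of the certificate: a nonnegative multiplier and two accumulators. -/
structure Part where
  m : ℕ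
  SP : ℕ
  SN : ℕ

/-- the rational coefficient of a list of parts -/
def totX (wd : ℕ) : List Part → ℕ → ℤ
  | [], _ => 0
  | p :: ps, k => (p.m : ℤ) * coX wd p.SP p.SN k + totX wd ps k

/-- the coefficient of the square root of six of a list of parts -/
def totY (wd : ℕ) : List Part → ℕ → ℤ
  | [], _ => 0
  | p :: ps, k => (p.m : ℤ) * coY wd p.SP p.SN k + totY wd ps k

/-- a part is nonnegative at a value vector -/
def Part.Nonneg (wd K : ℕ) (v : ℕ → ℝ) (p : Part) : Prop :=
  0 ≤ lin K (coX wd p.SP p.SN) (coY wd p.SP p.SN) v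

lemma tot_nonneg (wd K : ℕ) (v : ℕ → ℝ) : ∀ {ps : List Part}, (∀ p ∈ ps, p.Nonneg wd K v) →
    0 ≤ lin K (totX wd ps) (totY wd ps) v
  | [], _ => by simp [lin, totX, totY]
  | p :: ps, hp => by
    have h1 := tot_nonneg wd K v fun q hq => hp q (List.mem_cons_of_mem _ hq)
    have h2 := mul_nonneg (Nat.cast_nonneg' p.m : (0 : ℝ) ≤ (p.m : ℝ)) (hp p (by simp))
    have h3 := lin_add K (fun k => (p.m : ℤ) * coX wd p.SP p.SN k)
      (fun k => (p.m : ℤ) * coY wd p.SP p.SN k) (totX wd ps) (totY wd ps) v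
    rw [lin_smul] at h3
    simp only [totX, totY, Int.cast_natCast] at h3 ⊢
    rw [h3]
    linarith

/-- A checked residual makes the first part negative. -/
theorem head_neg {wd q s K c : ℕ} {B : ℕ → ℕ} {f : Part} {ps : List Part} {v : ℕ → ℝ}
    (hok : finalOk q s K c B (totX wd (f :: ps)) (totY wd (f :: ps)) = true)
    (hv0 : v 0 = (c : ℝ)) (hv : ∀ k, 1 ≤ k → k < K → |v k| ≤ (B k : ℝ))
    (hps : ∀ p ∈ ps, p.Nonneg wd K v) : lin K (coX wd f.SP f.SN) (coY wd f.SP f.SN) v < 0 := by
  have h1 := lin_neg q s K c B _ _ hok v hv0 hv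
  have h2 := tot_nonneg wd K v hps
  have h3 := lin_add K (fun k => (f.m : ℤ) * coX wd f.SP f.SN k)
    (fun k => (f.m : ℤ) * coY wd f.SP f.SN k) (totX wd ps) (totY wd ps) v
  rw [lin_smul] at h3
  simp only [totX, totY, Int.cast_natCast] at h1 h3
  rw [h3] at h1
  by_contra hf
  have := mul_nonneg (Nat.cast_nonneg' f.m : (0 : ℝ) ≤ (f.m : ℝ)) (not_lt.mp hf)
  linarith

/-- A part of value zero is nonnegative. -/
lemma nonneg_of_eq_zero {wd K : ℕ} {v : ℕ → ℝ} {p : Part}
    (h0 : lin K (coX wd p.SP p.SN) (coY wd p.SP p.SN) v = 0) : p.Nonneg wd K v := h0.ge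

/-- An identity with exchanged accumulators. -/
lemma nonneg_swap {wd K : ℕ} {v : ℕ → ℝ} {m SP SN : ℕ}
    (h0 : lin K (coX wd SP SN) (coY wd SP SN) v = 0) : (Part.mk m SN SP).Nonneg wd K v := by
  have e : lin K (coX wd SN SP) (coY wd SN SP) v = -lin K (coX wd SP SN) (coY wd SP SN) v := by
    simp only [lin, coX, coY, ← Finset.sum_neg_distrib]
    exact Finset.sum_congr rfl fun k _ => by push_cast; ring
  unfold Part.Nonneg
  rw [e, h0, neg_zero]

lemma norm_homM_le (hh : InM h) (e : Expo) : ‖homM h e‖ ≤ 6 ^ 12 := by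
  refine le_trans (norm_sum_le _ _) ?_
  refine le_trans (Finset.sum_le_sum fun f _ => norm_sum_le _ _) ?_
  simp [monM, hh.unimod]
  norm_num

lemma abs_symM_le (hh : InM h) (e : Expo) : |symM h e| ≤ 2 * 6 ^ 12 := by
  have h1 := (Complex.abs_re_le_norm _).trans (norm_homM_le hh e)
  have h2 := (Complex.abs_re_le_norm _).trans (norm_homM_le hh.transp e)
  unfold symM
  refine (abs_add_le _ _).trans ?_
  linarith

lemma symM_zero : symM h (fun _ _ => 0) = 2 * 6 ^ 12 := by
  simp [symM, homM, monM]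
  norm_num

lemma expoOf_zeroM : expoOf zeroM = fun _ _ => 0 := by
  funext i j
  revert i j
  decide +kernel

lemma scale_table {i : ℕ} (hi : i ≤ 12) :
    (Real.sqrt 6)⁻¹ ^ (2 * i) * (2 * 6 ^ 12) = ((2 * 6 ^ (12 - i) : ℕ) : ℝ) := by
  rw [inv_pow, pow_mul, Real.sq_sqrt (by norm_num)]
  push_cast
  rw [show (6 : ℝ) ^ 12 = 6 ^ (12 - i) * 6 ^ i by rw [← pow_add, Nat.sub_add_cancel hi]]
  field_simp

lemma abs_tableVal_le (hh : InM h) (canon : Tree) {i : ℕ} (hi : i ≤ 12) (k : ℕ) :
    |tableVal h canon (2 * i) k| ≤ ((2 * 6 ^ (12 - i) : ℕ) : ℝ) := by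
  rw [← scale_table hi, tableVal, abs_mul, abs_of_nonneg (by positivity)]
  exact mul_le_mul_of_nonneg_left (abs_symM_le hh _) (by positivity)

lemma tableVal_zero (canon : Tree) {i : ℕ} (hi : i ≤ 12)
    (h0 : Nat.beq (canon.get 0).1 zeroM = true) :
    tableVal h canon (2 * i) 0 = ((2 * 6 ^ (12 - i) : ℕ) : ℝ) := by
  rw [← scale_table hi, tableVal, Nat.eq_of_beq_eq_true h0, expoOf_zeroM, symM_zero]

/-- The certificate: a functional given by terms is negative at a regular Hadamard matrix, from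
nonnegative parts and a checked residual. -/
theorem terms_neg (hh : InM h) {canon : Tree} {i wd K q s : ℕ} (hi : i ≤ 12)
    (h0 : Nat.beq (canon.get 0).1 zeroM = true) {pos neg : List Term}
    (hp : termsOk canon (2 * i) pos = true) (hn : termsOk canon (2 * i) neg = true)
    (hpl : listOk wd K (pos.map (Term.entry (2 * i))) = true)
    (hnl : listOk wd K (neg.map (Term.entry (2 * i))) = true) {m SP SN : ℕ}
    (hSP : accS wd (pos.map (Term.entry (2 * i))) = SP)
    (hSN : accS wd (neg.map (Term.entry (2 * i))) = SN) {ps : List Part}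
    (hps : ∀ p ∈ ps, p.Nonneg wd K (tableVal h canon (2 * i)))
    (hfin : finalOk q s K (2 * 6 ^ (12 - i)) (fun _ => 2 * 6 ^ (12 - i))
      (totX wd (⟨m, SP, SN⟩ :: ps)) (totY wd (⟨m, SP, SN⟩ :: ps)) = true) :
    (pos.map (Term.val h)).sum < (neg.map (Term.val h)).sum := by
  have e := terms_lin hh hp hn hpl hnl hSP hSN
  have h1 := head_neg (f := ⟨m, SP, SN⟩) hfin (tableVal_zero canon hi h0)
    (fun k _ _ => abs_tableVal_le hh canon hi k) hps
  linarith

/-- An identity among terms as a part. -/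
theorem ident_part (hh : InM h) {canon : Tree} {J wd K : ℕ} {pos neg : List Term}
    (hp : termsOk canon J pos = true) (hn : termsOk canon J neg = true)
    (hpl : listOk wd K (pos.map (Term.entry J)) = true)
    (hnl : listOk wd K (neg.map (Term.entry J)) = true) {SP SN : ℕ}
    (hSP : accS wd (pos.map (Term.entry J)) = SP) (hSN : accS wd (neg.map (Term.entry J)) = SN)
    (hid : (pos.map (Term.val h)).sum = (neg.map (Term.val h)).sum) (m : ℕ) :
    (Part.mk m SP SN).Nonneg wd K (tableVal h canon J) ∧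
      (Part.mk m SN SP).Nonneg wd K (tableVal h canon J) := by
  have e := terms_lin hh hp hn hpl hnl hSP hSN
  rw [hid, sub_self] at e
  exact ⟨nonneg_of_eq_zero e.symm, nonneg_swap e.symm⟩

/-- The value of a term whose matrix is that of a diagram. -/
theorem Term.val_dg (hh : InM h) (t : Term) (D : Dg) (hD : D.WF) (hr : D.nr ≤ 6) (hc : D.nc ≤ 6)
    (hs : sameExpo t.P D = true) :
    t.val h = (t.w : ℝ) * Real.sqrt 6 ^ t.e * ((6 : ℝ) ^ (6 - D.nr) * 6 ^ (6 - D.nc) * momS h D) := by
  rw [Term.val, sameExpo_sound hs, symM_mat hh D hD hr hc]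

end Vale.Agent.P355.Cert.Main
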