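import Vale.Agent.P355.Cert.Ident
import Vale.Agent.P355.Cert.Main

/-!
P355: checked row identities as parts of the certificate. Starting diagrams are expanded chunk by
chunk against an extended table; the chunks are added, and once every entry above the table
cancels, the low entries form a part of value zero.
-/

open Finset

namespace Vale.Agent.P355.Cert.IdentPart

open Packed Block

variable {h : Fin 6 → Fin 6 → ℂ}

lemma evalL_append (v : ℕ → ℝ) (l m : List (ℕ × ℕ)) : evalL v (l ++ m) = evalL v l + evalL v m := by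
  simp [evalL]

lemma evalL_smul (c : ℝ) (v : ℕ → ℝ) (l : List (ℕ × ℕ)) :
    evalL (fun k => c * v k) l = c * evalL v l := by
  induction l with
  | nil => simp [evalL]
  | cons q qs ih =>
    simp only [evalL, List.map_cons, List.sum_cons, phi] at ih ⊢
    rw [ih]
    ring

lemma tableVal_add (canon : Tree) (J J' : ℕ) :
    tableVal h canon (J + J') = fun k => (Real.sqrt 6)⁻¹ ^ J' * tableVal h canon J k := by
  funext k
  rw [tableVal, tableVal, pow_add]
  ring

/-- accumulators and totals of two term lists of the same value -/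
def Zero (v : ℕ → ℝ) (wd KE SP SN bP bN : ℕ) : Prop :=
  ∃ lp ln : List (ℕ × ℕ),
    (∀ q ∈ lp, q.1 < 2 * KE) ∧ (∀ q ∈ ln, q.1 < 2 * KE) ∧
      (lp.map fun q => q.2).sum = bP ∧ (ln.map fun q => q.2).sum = bN ∧
      accS wd lp = SP ∧ accS wd ln = SN ∧ evalL v lp = evalL v ln

/-- slots in range, total and accumulator of one list -/
def sideOk (wd KE b S : ℕ) (l : List (ℕ × ℕ)) : Bool :=
  (l.all fun q => Nat.blt q.1 (2 * KE)) && Nat.beq (l.map fun q => q.2).sum b &&
    Nat.beq (accS wd l) S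

/-- one chunk of starting diagrams; `J'` lifts the table exponent to that of the leaves -/
theorem zero_chunk (hh : InM h) {canon : Tree} {J J' n wd KE : ℕ} {start fin : List Ident.Term}
    {qs : List Ident.Leaf} (hs : Ident.startOK start = true) (hl : Ident.levels n start = some fin)
    (hq : Ident.leavesOK canon (J + J') fin qs = true) {SP SN bP bN : ℕ}
    (hP : sideOk wd KE bP SP (Ident.leafTerms (J + J') fin qs).1 = true)
    (hN : sideOk wd KE bN SN (Ident.leafTerms (J + J') fin qs).2 = true) :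
    Zero (tableVal h canon J) wd KE SP SN bP bN := by
  have e := Ident.ident_lin hh hs hl hq
  rw [tableVal_add, evalL_smul, evalL_smul, ← mul_sub, mul_eq_zero] at e
  have h6 : (Real.sqrt 6)⁻¹ ^ J' ≠ 0 := by positivity
  simp only [sideOk, Nat.blt, Bool.and_eq_true, List.all_eq_true, Nat.ble_eq] at hP hN
  exact ⟨_, _, fun q hq => hP.1.1 q hq, fun q hq => hN.1.1 q hq, Nat.eq_of_beq_eq_true hP.1.2,
    Nat.eq_of_beq_eq_true hN.1.2, Nat.eq_of_beq_eq_true hP.2, Nat.eq_of_beq_eq_true hN.2,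
    sub_eq_zero.1 (e.resolve_left h6)⟩

/-- chunks add -/
theorem Zero.add {v : ℕ → ℝ} {wd KE SP SN bP bN SP' SN' bP' bN' : ℕ}
    (h₁ : Zero v wd KE SP SN bP bN) (h₂ : Zero v wd KE SP' SN' bP' bN') :
    Zero v wd KE (SP + SP') (SN + SN') (bP + bP') (bN + bN') := by
  obtain ⟨lp, ln, a1, a2, a3, a4, a5, a6, a7⟩ := h₁
  obtain ⟨mp, mn, b1, b2, b3, b4, b5, b6, b7⟩ := h₂
  refine ⟨lp ++ mp, ln ++ mn, ?_, ?_, ?_, ?_, ?_, ?_, ?_⟩
  · intro q hq
    rcases List.mem_append.1 hq with hq | hq
    exacts [a1 q hq, b1 q hq]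
  · intro q hq
    rcases List.mem_append.1 hq with hq | hq
    exacts [a2 q hq, b2 q hq]
  · rw [List.map_append, List.sum_append, a3, b3]
  · rw [List.map_append, List.sum_append, a4, b4]
  · rw [accS_append, a5, b5]
  · rw [accS_append, a6, b6]
  · rw [evalL_append, evalL_append, a7, b7]

lemma slot_high (wd S n s : ℕ) (hs : n ≤ s) :
    slot wd S s = slot wd (S >>> (wd * n)) (s - n) := by
  rw [slot, slot, ← Nat.shiftRight_add, ← Nat.mul_add, Nat.add_sub_cancel' hs]

lemma slot_low (wd S n s : ℕ) (hs : s < n) : slot wd (S % 2 ^ (wd * n)) s = slot wd S s := by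
  refine Nat.eq_of_testBit_eq fun t => ?_
  simp only [slot, Nat.testBit_mod_two_pow, Nat.testBit_shiftRight]
  by_cases ht : t < wd
  · have : wd * s + t < wd * n := by
      calc wd * s + t < wd * s + wd := by omega
        _ = wd * (s + 1) := by ring
        _ ≤ wd * n := Nat.mul_le_mul_left _ hs
    simp [ht, this]
  · simp [ht]

lemma lin_trunc (wd K KE SP SN : ℕ) (hK : K ≤ KE)
    (hhigh : SP >>> (wd * (2 * K)) = SN >>> (wd * (2 * K))) (v w : ℕ → ℝ)
    (hv : ∀ k < K, v k = w k) :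
    lin K (coX wd (SP % 2 ^ (wd * (2 * K))) (SN % 2 ^ (wd * (2 * K))))
        (coY wd (SP % 2 ^ (wd * (2 * K))) (SN % 2 ^ (wd * (2 * K)))) v =
      lin KE (coX wd SP SN) (coY wd SP SN) w := by
  obtain ⟨d, rfl⟩ := Nat.exists_eq_add_of_le hK
  have z : ∀ s, 2 * K ≤ s → slot wd SP s = slot wd SN s := fun s hs => by
    rw [slot_high wd SP _ _ hs, slot_high wd SN _ _ hs, hhigh]
  rw [lin, lin, sum_range_add]
  have hzero : ∑ x ∈ range d, (((coX wd SP SN (K + x) : ℤ) : ℝ) +
      ((coY wd SP SN (K + x) : ℤ) : ℝ) * Real.sqrt 6) * w (K + x) = 0 := by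
    refine sum_eq_zero fun x _ => ?_
    simp [coX, coY, z (2 * (K + x)) (by omega), z (2 * (K + x) + 1) (by omega)]
  rw [hzero, add_zero]
  refine sum_congr rfl fun k hk => ?_
  have hk : k < K := mem_range.1 hk
  rw [hv k hk]
  simp only [coX, coY]
  rw [slot_low wd SP _ _ (by omega : 2 * k < 2 * K),
    slot_low wd SN _ _ (by omega : 2 * k < 2 * K),
    slot_low wd SP _ _ (by omega : 2 * k + 1 < 2 * K),
    slot_low wd SN _ _ (by omega : 2 * k + 1 < 2 * K)]

/-- the checks that make a part from accumulated chunks -/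
noncomputable def partOk (canon ext : Tree) (wd K KE SP SN bP bN P N : ℕ) : Bool :=
  Nat.ble K KE && Nat.blt bP (2 ^ wd) && Nat.blt bN (2 ^ wd)
    && Nat.beq (SP >>> (wd * (2 * K))) (SN >>> (wd * (2 * K)))
    && Nat.beq (SP % 2 ^ (wd * (2 * K))) P && Nat.beq (SN % 2 ^ (wd * (2 * K))) N
    && (List.range K).all fun k => Nat.beq (canon.get k).1 (ext.get k).1

/-- accumulated identities are a part of value zero, in both signs -/
theorem Zero.part {canon ext : Tree} {J wd K KE SP SN bP bN P N : ℕ}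
    (hz : Zero (tableVal h ext J) wd KE SP SN bP bN)
    (hok : partOk canon ext wd K KE SP SN bP bN P N = true) (m : ℕ) :
    (Main.Part.mk m P N).Nonneg wd K (tableVal h canon J) ∧
      (Main.Part.mk m N P).Nonneg wd K (tableVal h canon J) := by
  simp only [partOk, Bool.and_eq_true, Nat.blt, Nat.ble_eq, List.all_eq_true, List.mem_range]
    at hok
  obtain ⟨⟨⟨⟨⟨⟨hK, hbP⟩, hbN⟩, hhigh⟩, hP⟩, hN⟩, hcan⟩ := hok
  obtain ⟨lp, ln, a1, a2, a3, a4, a5, a6, a7⟩ := hz
  have e := evalL_sub_eq_lin wd KE lp ln a1 a2 (a3 ▸ hbP) (a4 ▸ hbN) a5 a6 (tableVal h ext J)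
  rw [a7, sub_self] at e
  have e2 := (lin_trunc wd K KE SP SN hK (Nat.eq_of_beq_eq_true hhigh) (tableVal h canon J)
    (tableVal h ext J) fun k hk => by
      rw [tableVal, tableVal, Nat.eq_of_beq_eq_true (hcan k hk)]).trans e.symm
  rw [Nat.eq_of_beq_eq_true hP, Nat.eq_of_beq_eq_true hN] at e2
  exact ⟨Main.nonneg_of_eq_zero e2, Main.nonneg_swap e2⟩

end Vale.Agent.P355.Cert.IdentPart
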