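import Vale.Agent.P355.PhiDefs

/-
P355: values of exponent matrices on regular Hadamard matrices, and the rules that sum out a row
with one entry of exponent one, or with two entries of exponents one and minus one.
-/

open scoped BigOperators ComplexConjugate
open Finset

namespace Vale.Agent.P355.Cert

/-- exponent matrices -/
abbrev Expo := Fin 6 → Fin 6 → ℤ

/-- monomial of an exponent matrix at an assignment -/
noncomputable def monM (h : Fin 6 → Fin 6 → ℂ) (e : Expo) (f g : Fin 6 → Fin 6) : ℂ :=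
  ∏ i, ∏ j, h (f i) (g j) ^ e i j

/-- the sum over all assignments of the six row and six column vertices -/
noncomputable def homM (h : Fin 6 → Fin 6 → ℂ) (e : Expo) : ℂ :=
  ∑ f : Fin 6 → Fin 6, ∑ g : Fin 6 → Fin 6, monM h e f g

/-- `L`, the symmetrised real moment -/
noncomputable def symM (h : Fin 6 → Fin 6 → ℂ) (e : Expo) : ℝ :=
  (homM h e).re + (homM (fun i j => h j i) e).re

/-- the square root of six as a complex number -/
noncomputable def s6 : ℂ := (Real.sqrt 6 : ℂ)

variable {h : Fin 6 → Fin 6 → ℂ}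

lemma _root_.Vale.Agent.P355.InM.ne_zero (hh : InM h) (i j : Fin 6) : h i j ≠ 0 := fun e => by
  simpa [e] using hh.unimod i j

lemma _root_.Vale.Agent.P355.InM.inv_eq (hh : InM h) (i j : Fin 6) : (h i j)⁻¹ = conj (h i j) :=
  Complex.inv_eq_conj (hh.unimod i j)

lemma _root_.Vale.Agent.P355.InM.transp (hh : InM h) : InM (fun i j => h j i) :=
  ⟨fun l k => hh.unimod k l, fun l m hlm => hh.col_orth l m hlm, fun k k' hk => hh.row_orth k k' hk,
    hh.col_sum, hh.row_sum⟩

lemma homM_transp (e : Expo) : homM (fun i j => h j i) e = homM h (fun i j => e j i) := by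
  unfold homM monM
  rw [Finset.sum_comm]
  refine Finset.sum_congr rfl fun f _ => Finset.sum_congr rfl fun g _ => ?_
  exact Finset.prod_comm

lemma symM_transp (e : Expo) : symM h (fun i j => e j i) = symM h e := by
  have h1 := homM_transp (h := h) e
  have h2 := homM_transp (h := fun i j => h j i) e
  unfold symM
  rw [← h1, ← h2, add_comm]

lemma homM_neg (hh : InM h) (e : Expo) : homM h (fun i j => -e i j) = conj (homM h e) := by
  unfold homM monM
  simp only [map_sum, map_prod]
  refine Finset.sum_congr rfl fun f _ => Finset.sum_congr rfl fun g _ =>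
    Finset.prod_congr rfl fun i _ => Finset.prod_congr rfl fun j _ => ?_
  rw [map_zpow₀, ← hh.inv_eq, inv_zpow, zpow_neg]

lemma symM_neg (hh : InM h) (e : Expo) : symM h (fun i j => -e i j) = symM h e := by
  unfold symM
  rw [homM_neg hh, homM_neg hh.transp, Complex.conj_re, Complex.conj_re]

/-- relabel the vertices -/
lemma homM_perm (e : Expo) (σ τ : Equiv.Perm (Fin 6)) : homM h (fun i j => e (σ i) (τ j)) = homM h e := by
  unfold homM monM
  rw [← (Equiv.arrowCongr σ.symm (Equiv.refl (Fin 6))).sum_comp]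
  refine Finset.sum_congr rfl fun f _ => ?_
  rw [← (Equiv.arrowCongr τ.symm (Equiv.refl (Fin 6))).sum_comp]
  refine Finset.sum_congr rfl fun g _ => ?_
  refine Fintype.prod_equiv σ _ _ fun i => ?_
  refine Fintype.prod_equiv τ _ _ fun j => ?_
  simp

/-- a row set to zero -/
def zeroRow (e : Expo) (i₀ : Fin 6) : Expo := fun i j => if i = i₀ then 0 else e i j

/-- column `l` added onto column `k` -/
def addCol (e : Expo) (k l : Fin 6) : Expo :=
  fun i j => if j = k then e i k + e i l else if j = l then 0 else e i j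

lemma monM_update (e : Expo) (i₀ : Fin 6) (f g : Fin 6 → Fin 6) (a : Fin 6) :
    monM h e (Function.update f i₀ a) g = (∏ j, h a (g j) ^ e i₀ j) * monM h (zeroRow e i₀) f g := by
  unfold monM
  rw [← Finset.mul_prod_erase _ _ (Finset.mem_univ i₀), ← Finset.mul_prod_erase
    (s := Finset.univ) (f := fun i => ∏ j, h (f i) (g j) ^ zeroRow e i₀ i j) (Finset.mem_univ i₀)]
  simp only [Function.update_self, zeroRow, if_true, zpow_zero, Finset.prod_const_one, one_mul]
  refine congrArg _ (Finset.prod_congr rfl fun i hi => ?_)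
  simp only [if_neg (Finset.ne_of_mem_erase hi), Function.update_of_ne (Finset.ne_of_mem_erase hi)]

lemma sum_update_six (i₀ : Fin 6) (F : (Fin 6 → Fin 6) → ℂ) :
    ∑ f : Fin 6 → Fin 6, ∑ a : Fin 6, F (Function.update f i₀ a) = 6 * ∑ f : Fin 6 → Fin 6, F f := by
  have : ∀ f : Fin 6 → Fin 6, F f = F (Function.update f i₀ (f i₀)) := fun f => by
    rw [Function.update_eq_self]
  rw [← (Equiv.funSplitAt i₀ (Fin 6)).symm.sum_comp, ← (Equiv.funSplitAt i₀ (Fin 6)).symm.sum_comp,
    Fintype.sum_prod_type, Fintype.sum_prod_type]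
  have e : ∀ (a b : Fin 6) (r : {j // j ≠ i₀} → Fin 6),
      Function.update ((Equiv.funSplitAt i₀ (Fin 6)).symm (b, r)) i₀ a
        = (Equiv.funSplitAt i₀ (Fin 6)).symm (a, r) := fun a b r => by
    funext j
    by_cases hj : j = i₀
    · subst hj; simp [Equiv.funSplitAt, Equiv.piSplitAt]
    · simp [Equiv.funSplitAt, Equiv.piSplitAt, hj]
  simp only [e]
  rw [Finset.sum_const, Finset.card_univ, Fintype.card_fin]
  rw [Finset.sum_comm]
  simp

lemma six_homM (e : Expo) (i₀ : Fin 6) : 6 * homM h e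
    = ∑ g : Fin 6 → Fin 6, ∑ f : Fin 6 → Fin 6,
        (∑ a, ∏ j, h a (g j) ^ e i₀ j) * monM h (zeroRow e i₀) f g := by
  unfold homM
  rw [Finset.sum_comm, Finset.mul_sum]
  refine Finset.sum_congr rfl fun g _ => ?_
  rw [← sum_update_six i₀]
  refine Finset.sum_congr rfl fun f _ => ?_
  rw [Finset.sum_mul]
  exact Finset.sum_congr rfl fun a _ => monM_update e i₀ f g a

lemma s6_mul_self : s6 * s6 = 6 := by
  unfold s6
  rw [← Complex.ofReal_mul, Real.mul_self_sqrt (by norm_num)]
  norm_num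

lemma s6_ne_zero : s6 ≠ 0 := fun e => by
  have := s6_mul_self
  rw [e] at this
  norm_num at this

/-- a row with a single entry of exponent one or minus one -/
lemma homM_del (hh : InM h) (e : Expo) (i₀ k : Fin 6) (σ : ℤ) (hσ : σ = 1 ∨ σ = -1)
    (he : ∀ j, e i₀ j = if j = k then σ else 0) : homM h e = s6⁻¹ * homM h (zeroRow e i₀) := by
  have hrow : ∀ g : Fin 6 → Fin 6, ∑ a, ∏ j, h a (g j) ^ e i₀ j = s6 := by
    intro g
    have hp : ∀ a, ∏ j, h a (g j) ^ e i₀ j = h a (g k) ^ σ := fun a => by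
      rw [Finset.prod_eq_single k (fun j _ hj => by rw [he, if_neg hj, zpow_zero]) (by simp), he, if_pos rfl]
    simp only [hp]
    rcases hσ with rfl | rfl
    · simpa [s6] using hh.col_sum (g k)
    · simp only [zpow_neg, zpow_one, hh.inv_eq, ← map_sum, hh.col_sum]
      exact Complex.conj_ofReal _
  have h6 := six_homM (h := h) e i₀
  simp only [hrow, ← Finset.mul_sum] at h6
  rw [Finset.sum_comm] at h6
  change 6 * homM h e = s6 * homM h (zeroRow e i₀) at h6
  rw [eq_inv_mul_iff_mul_eq₀ s6_ne_zero]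
  refine mul_left_cancel₀ s6_ne_zero ?_
  linear_combination h6 + homM h e * s6_mul_self

/-- a row with exponents one and minus one joins two columns -/
lemma homM_merge (hh : InM h) (e : Expo) (i₀ k l : Fin 6) (hkl : k ≠ l)
    (he : ∀ j, e i₀ j = if j = k then 1 else if j = l then -1 else 0) :
    homM h e = (s6⁻¹) ^ 2 * homM h (addCol (zeroRow e i₀) k l) := by
  have hrow : ∀ g : Fin 6 → Fin 6,
      ∑ a, ∏ j, h a (g j) ^ e i₀ j = if g k = g l then 6 else 0 := by
    intro g
    have hp : ∀ a, ∏ j, h a (g j) ^ e i₀ j = h a (g k) * conj (h a (g l)) := fun a => by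
      rw [← Finset.mul_prod_erase _ _ (Finset.mem_univ k),
        Finset.prod_eq_single l (fun j hj hjl => by
          rw [he, if_neg (Finset.ne_of_mem_erase hj), if_neg hjl, zpow_zero])
          (fun hl => absurd (Finset.mem_erase.mpr ⟨Ne.symm hkl, Finset.mem_univ _⟩) hl),
        he, he, if_pos rfl, if_neg (Ne.symm hkl), if_pos rfl, zpow_one, zpow_neg, zpow_one, hh.inv_eq]
    simp only [hp]
    split
    · rename_i hg
      rw [hg, Finset.sum_congr rfl (g := fun _ => (1 : ℂ)) fun a _ => by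
        rw [Complex.mul_conj, Complex.normSq_eq_norm_sq, hh.unimod]; norm_num]
      simp
    · rename_i hg
      exact hh.col_orth _ _ hg
  set z := zeroRow e i₀ with hz
  have hF : ∀ f g : Fin 6 → Fin 6, g k = g l → monM h z f g = monM h (addCol z k l) f g := by
    intro f g hg
    refine Finset.prod_congr rfl fun i _ => ?_
    rw [← Finset.mul_prod_erase _ _ (Finset.mem_univ k), ← Finset.mul_prod_erase _ _
        (Finset.mem_erase.mpr ⟨Ne.symm hkl, Finset.mem_univ l⟩),
      ← Finset.mul_prod_erase (s := Finset.univ) (f := fun j => h (f i) (g j) ^ addCol z k l i j) (Finset.mem_univ k),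
      ← Finset.mul_prod_erase (Finset.univ.erase k) (fun j => h (f i) (g j) ^ addCol z k l i j)
        (Finset.mem_erase.mpr ⟨Ne.symm hkl, Finset.mem_univ l⟩)]
    simp only [addCol, if_true, if_neg (Ne.symm hkl), zpow_zero, one_mul]
    rw [hg, zpow_add₀ (hh.ne_zero _ _), mul_assoc]
    refine congrArg _ (congrArg _ (Finset.prod_congr rfl fun j hj => ?_))
    obtain ⟨hjl, hj⟩ := Finset.mem_erase.mp hj
    rw [if_neg (Finset.ne_of_mem_erase hj), if_neg hjl]
  have hind : ∀ f g : Fin 6 → Fin 6, ∀ a, monM h (addCol z k l) f (Function.update g l a)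
      = monM h (addCol z k l) f g := by
    intro f g a
    refine Finset.prod_congr rfl fun i _ => Finset.prod_congr rfl fun j _ => ?_
    by_cases hj : j = l
    · subst hj; simp [addCol, Ne.symm hkl]
    · rw [Function.update_of_ne hj]
  have h6 := six_homM (h := h) e i₀
  rw [← hz] at h6
  simp only [hrow] at h6
  have key : ∀ f : Fin 6 → Fin 6,
      6 * ∑ g : Fin 6 → Fin 6, (if g k = g l then (6 : ℂ) else 0) * monM h z f g
        = 6 * ∑ g : Fin 6 → Fin 6, monM h (addCol z k l) f g := by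
    intro f
    rw [← sum_update_six l]
    simp only [Function.update_self, Function.update_of_ne hkl]
    rw [Finset.mul_sum]
    refine Finset.sum_congr rfl fun g _ => ?_
    rw [Finset.sum_eq_single (g k)]
    · rw [if_pos rfl, hF _ _ (by simp [Function.update_of_ne hkl]), hind]
    · intro a _ ha
      rw [if_neg (Ne.symm ha), zero_mul]
    · simp
  have h36 : 6 * (6 * homM h e) = 6 * homM h (addCol z k l) := by
    rw [h6, Finset.sum_comm, Finset.mul_sum, Finset.sum_congr rfl fun f _ => key f, ← Finset.mul_sum]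
    rfl
  rw [inv_pow, sq, s6_mul_self, eq_inv_mul_iff_mul_eq₀ (by norm_num : (6 : ℂ) ≠ 0)]
  exact mul_left_cancel₀ (by norm_num : (6 : ℂ) ≠ 0) h36

/-- a column set to zero -/
def zeroCol (e : Expo) (j₀ : Fin 6) : Expo := fun i j => if j = j₀ then 0 else e i j

/-- row `l` added onto row `k` -/
def addRow (e : Expo) (k l : Fin 6) : Expo :=
  fun i j => if i = k then e k j + e l j else if i = l then 0 else e i j

/-- a column with a single entry -/
lemma homM_delC (hh : InM h) (e : Expo) (j₀ k : Fin 6) (σ : ℤ) (hσ : σ = 1 ∨ σ = -1)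
    (he : ∀ i, e i j₀ = if i = k then σ else 0) : homM h e = s6⁻¹ * homM h (zeroCol e j₀) := by
  have := homM_del hh.transp (fun i j => e j i) j₀ k σ hσ he
  simp only [homM_transp] at this
  exact this

/-- a column with exponents one and minus one joins two rows -/
lemma homM_mergeC (hh : InM h) (e : Expo) (j₀ k l : Fin 6) (hkl : k ≠ l)
    (he : ∀ i, e i j₀ = if i = k then 1 else if i = l then -1 else 0) :
    homM h e = (s6⁻¹) ^ 2 * homM h (addRow (zeroCol e j₀) k l) := by
  have := homM_merge hh.transp (fun i j => e j i) j₀ k l hkl he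
  simp only [homM_transp] at this
  exact this

/-- a flag: rows zero and one and column zero are roots -/
noncomputable def flagM (h : Fin 6 → Fin 6 → ℂ) (e : Fin 4 → Fin 3 → ℤ) (a b c : Fin 6) : ℂ :=
  ∑ u : Fin 2 → Fin 6, ∑ v : Fin 2 → Fin 6,
    ∏ i, ∏ j, h (![a, b, u 0, u 1] i) (![c, v 0, v 1] j) ^ e i j

/-- rows of the first flag in the glued matrix -/
def rowA : Fin 6 → Option (Fin 4) := ![some 0, some 1, some 2, some 3, none, none]
/-- rows of the second flag in the glued matrix -/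
def rowB : Fin 6 → Option (Fin 4) := ![some 0, some 1, none, none, some 2, some 3]
/-- columns of the first flag in the glued matrix -/
def colA : Fin 6 → Option (Fin 3) := ![some 0, some 1, some 2, none, none, none]
/-- columns of the second flag in the glued matrix -/
def colB : Fin 6 → Option (Fin 3) := ![some 0, none, none, some 1, some 2, none]

/-- place a flag in the matrix -/
def place {m n : ℕ} (r : Fin 6 → Option (Fin m)) (c : Fin 6 → Option (Fin n))
    (e : Fin m → Fin n → ℤ) : Expo :=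
  fun i j => match r i, c j with
    | some a, some b => e a b
    | _, _ => 0

/-- two flags glued along the roots, the second conjugated -/
def glueM (p q : Fin 4 → Fin 3 → ℤ) : Expo :=
  fun i j => place rowA colA p i j - place rowB colB q i j

lemma prodA (h : Fin 6 → Fin 6 → ℂ) (p : Fin 4 → Fin 3 → ℤ) (a b c : Fin 6) (u v u' v' : Fin 2 → Fin 6) :
    monM h (place rowA colA p) ![a, b, u 0, u 1, u' 0, u' 1] ![c, v 0, v 1, v' 0, v' 1, 0]
      = ∏ i, ∏ j, h (![a, b, u 0, u 1] i) (![c, v 0, v 1] j) ^ p i j := by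
  simp [monM, Fin.prod_univ_six, Fin.prod_univ_four, Fin.prod_univ_three, place, rowA, colA]

lemma prodB (h : Fin 6 → Fin 6 → ℂ) (q : Fin 4 → Fin 3 → ℤ) (a b c : Fin 6) (u v u' v' : Fin 2 → Fin 6) :
    monM h (place rowB colB q) ![a, b, u 0, u 1, u' 0, u' 1] ![c, v 0, v 1, v' 0, v' 1, 0]
      = ∏ i, ∏ j, h (![a, b, u' 0, u' 1] i) (![c, v' 0, v' 1] j) ^ q i j := by
  simp [monM, Fin.prod_univ_six, Fin.prod_univ_four, Fin.prod_univ_three, place, rowB, colB]

lemma monM_sub (hh : InM h) (e₁ e₂ : Expo) (f g : Fin 6 → Fin 6) :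
    monM h (fun i j => e₁ i j - e₂ i j) f g = monM h e₁ f g * conj (monM h e₂ f g) := by
  simp only [monM, map_prod, map_zpow₀, ← hh.inv_eq, inv_zpow, ← Finset.prod_mul_distrib]
  refine Finset.prod_congr rfl fun i _ => Finset.prod_congr rfl fun j _ => ?_
  rw [zpow_sub₀ (hh.ne_zero _ _), div_eq_mul_inv]

lemma sum_flag_eq (hh : InM h) (p q : Fin 4 → Fin 3 → ℤ) :
    ∑ a, ∑ b, ∑ c, flagM h p a b c * conj (flagM h q a b c)
      = ∑ a, ∑ b, ∑ c, ∑ u : Fin 2 → Fin 6, ∑ v : Fin 2 → Fin 6, ∑ u' : Fin 2 → Fin 6, ∑ v' : Fin 2 → Fin 6,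
          monM h (glueM p q) ![a, b, u 0, u 1, u' 0, u' 1] ![c, v 0, v 1, v' 0, v' 1, 0] := by
  have hterm : ∀ a b c (u v u' v' : Fin 2 → Fin 6),
      monM h (glueM p q) ![a, b, u 0, u 1, u' 0, u' 1] ![c, v 0, v 1, v' 0, v' 1, 0]
      = (∏ i, ∏ j, h (![a, b, u 0, u 1] i) (![c, v 0, v 1] j) ^ p i j)
        * conj (∏ i, ∏ j, h (![a, b, u' 0, u' 1] i) (![c, v' 0, v' 1] j) ^ q i j) := by
    intro a b c u v u' v'
    unfold glueM
    rw [monM_sub hh, prodA, prodB]
  simp only [hterm, flagM, map_sum]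
  refine Finset.sum_congr rfl fun a _ => Finset.sum_congr rfl fun b _ => Finset.sum_congr rfl fun c _ => ?_
  rw [Finset.sum_mul]
  refine Finset.sum_congr rfl fun u _ => ?_
  rw [Finset.sum_mul]
  refine Finset.sum_congr rfl fun v _ => ?_
  rw [Finset.mul_sum]
  exact Finset.sum_congr rfl fun u' _ => Finset.mul_sum _ _ _

lemma six_mul_sum_roots (p q : Fin 4 → Fin 3 → ℤ) : homM h (glueM p q)
    = 6 * ∑ a, ∑ b, ∑ c, ∑ u : Fin 2 → Fin 6, ∑ v : Fin 2 → Fin 6, ∑ u' : Fin 2 → Fin 6, ∑ v' : Fin 2 → Fin 6,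
          monM h (glueM p q) ![a, b, u 0, u 1, u' 0, u' 1] ![c, v 0, v 1, v' 0, v' 1, 0] := by
  set M := monM h (glueM p q) with hM
  have hlast : ∀ f g : Fin 6 → Fin 6, M f g = M f ![g 0, g 1, g 2, g 3, g 4, 0] := by
    intro f g
    refine Finset.prod_congr rfl fun i _ => Finset.prod_congr rfl fun j _ => ?_
    fin_cases j <;> simp [glueM, place, colA, colB]
  let ef : (Fin 6 × Fin 6 × (Fin 2 → Fin 6) × (Fin 2 → Fin 6)) ≃ (Fin 6 → Fin 6) :=
    { toFun := fun x => ![x.1, x.2.1, x.2.2.1 0, x.2.2.1 1, x.2.2.2 0, x.2.2.2 1]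
      invFun := fun f => (f 0, f 1, ![f 2, f 3], ![f 4, f 5])
      left_inv := fun x => by
        obtain ⟨a, b, u, u'⟩ := x
        refine Prod.ext rfl (Prod.ext rfl (Prod.ext ?_ ?_)) <;> funext i <;> fin_cases i <;> rfl
      right_inv := fun f => by funext i; fin_cases i <;> rfl }
  let eg : (Fin 6 × (Fin 2 → Fin 6) × (Fin 2 → Fin 6) × Fin 6) ≃ (Fin 6 → Fin 6) :=
    { toFun := fun x => ![x.1, x.2.1 0, x.2.1 1, x.2.2.1 0, x.2.2.1 1, x.2.2.2]
      invFun := fun f => (f 0, ![f 1, f 2], ![f 3, f 4], f 5)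
      left_inv := fun x => by
        obtain ⟨a, u, u', d⟩ := x
        refine Prod.ext rfl (Prod.ext ?_ (Prod.ext ?_ rfl)) <;> funext i <;> fin_cases i <;> rfl
      right_inv := fun f => by funext i; fin_cases i <;> rfl }
  rw [homM, ← ef.sum_comp]
  simp only [← hM, Fintype.sum_prod_type]
  rw [Finset.mul_sum]
  refine Finset.sum_congr rfl fun a _ => ?_
  rw [Finset.mul_sum]
  refine Finset.sum_congr rfl fun b _ => ?_
  have key : ∀ u u' : Fin 2 → Fin 6, ∑ g : Fin 6 → Fin 6, M (ef (a, b, u, u')) g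
      = ∑ c, ∑ v : Fin 2 → Fin 6, ∑ v' : Fin 2 → Fin 6, 6 * M ![a, b, u 0, u 1, u' 0, u' 1] ![c, v 0, v 1, v' 0, v' 1, 0] := by
    intro u u'
    rw [← eg.sum_comp]
    simp only [Fintype.sum_prod_type]
    refine Finset.sum_congr rfl fun c _ => Finset.sum_congr rfl fun v _ => Finset.sum_congr rfl fun v' _ => ?_
    have : ∀ d, M (ef (a, b, u, u')) (eg (c, v, v', d)) = M ![a, b, u 0, u 1, u' 0, u' 1] ![c, v 0, v 1, v' 0, v' 1, 0] := fun d => by
      rw [hlast]; rfl
    simp [this]
  simp only [key, Finset.mul_sum]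
  rw [Finset.sum_congr rfl fun u _ => Finset.sum_comm, Finset.sum_comm]
  refine Finset.sum_congr rfl fun c _ => Finset.sum_congr rfl fun u _ => ?_
  rw [Finset.sum_comm]

lemma flag_mul_conj (hh : InM h) (p q : Fin 4 → Fin 3 → ℤ) :
    6 * ∑ a, ∑ b, ∑ c, flagM h p a b c * conj (flagM h q a b c) = homM h (glueM p q) := by
  rw [sum_flag_eq hh p q, ← six_mul_sum_roots (h := h) p q]

end Vale.Agent.P355.Cert
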