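import Vale.Agent.P355.Cert.Defs

/-
P355: complementary minor identities of a Hadamard matrix, as linear relations between values of
diagrams. A minor identity is averaged over all relabellings, which gives a relation between sums
over injective assignments; these are expanded into sums over all assignments one vertex at a time.
-/

open scoped BigOperators ComplexConjugate
open Finset

namespace Vale.Agent.P355.Cert

section Blocks

open Matrix

/-- Complementary blocks of a square matrix with orthogonal rows. -/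
lemma det_mul_star_block {ι κ : Type*} [Fintype ι] [Fintype κ] [DecidableEq ι] [DecidableEq κ]
    (M : Matrix (ι ⊕ κ) (ι ⊕ κ) ℂ) (c : ℂ) (hM : M * M.conjTranspose = c • 1) :
    M.det * star M.toBlocks₂₂.det = c ^ Fintype.card κ * M.toBlocks₁₁.det := by
  obtain ⟨A, B, C, D, rfl⟩ : ∃ A B C D, M = fromBlocks A B C D :=
    ⟨_, _, _, _, (fromBlocks_toBlocks M).symm⟩
  rw [fromBlocks_conjTranspose, fromBlocks_multiply, ← fromBlocks_one, fromBlocks_smul] at hM
  obtain ⟨-, h12, -, h22⟩ := fromBlocks_inj.1 hM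
  have e : fromBlocks A B C D * fromBlocks 1 C.conjTranspose 0 D.conjTranspose =
      fromBlocks A 0 C (c • 1) := by
    rw [fromBlocks_multiply, h12, h22, smul_zero]
    simp
  have := congrArg det e
  simp only [toBlocks_fromBlocks₁₁, toBlocks_fromBlocks₂₂]
  rwa [det_mul, det_fromBlocks_zero₂₁, det_one, one_mul, det_conjTranspose,
    det_fromBlocks_zero₁₂, det_smul, det_one, mul_one, mul_comm _ (c ^ _)] at this

lemma smul_one_submatrix {ι κ : Type*} [DecidableEq ι] [DecidableEq κ] (c : ℂ) (e : κ ≃ ι) :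
    (c • (1 : Matrix ι ι ℂ)).submatrix e e = c • 1 := by
  ext i j
  simp [Matrix.one_apply]

variable {h : Fin 6 → Fin 6 → ℂ}

lemma inM_mul_conjTranspose (hh : InM h) : Matrix.of h * (Matrix.of h).conjTranspose = (6 : ℂ) • 1 := by
  ext l m
  rw [mul_apply]
  simp only [conjTranspose_apply, of_apply, Matrix.smul_apply, one_apply, smul_eq_mul, mul_ite,
    mul_one, mul_zero, RCLike.star_def]
  split_ifs with e
  · subst e
    simp [Complex.mul_conj, Complex.normSq_eq_norm_sq, hh.unimod]
  · exact hh.row_orth l m e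

lemma det_mul_conj_det (hh : InM h) : (Matrix.of h).det * conj (Matrix.of h).det = 6 ^ 6 := by
  have := congrArg det (inM_mul_conjTranspose hh)
  rwa [det_mul, det_conjTranspose, det_smul, det_one, mul_one, Fintype.card_fin] at this

/-- The minor on the first rows and columns of the positions given by two permutations. -/
noncomputable def topDet (h : Fin 6 → Fin 6 → ℂ) {k m : ℕ} (hk : k + m = 6)
    (f g : Equiv.Perm (Fin 6)) : ℂ :=
  (Matrix.of fun i j : Fin k =>
    h (f (finCongr hk (i.castAdd m))) (g (finCongr hk (j.castAdd m)))).det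

/-- The complementary minor. -/
noncomputable def botDet (h : Fin 6 → Fin 6 → ℂ) {k m : ℕ} (hk : k + m = 6)
    (f g : Equiv.Perm (Fin 6)) : ℂ :=
  (Matrix.of fun i j : Fin m =>
    h (f (finCongr hk (i.natAdd k))) (g (finCongr hk (j.natAdd k)))).det

lemma sign_mul_det_mul_botDet (hh : InM h) {k m : ℕ} (hk : k + m = 6) (f g : Equiv.Perm (Fin 6)) :
    ((Equiv.Perm.sign f : ℤ) : ℂ) * (Equiv.Perm.sign g : ℤ) * (Matrix.of h).det *
      conj (botDet h hk f g) = 6 ^ m * topDet h hk f g := by
  let e : Fin k ⊕ Fin m ≃ Fin 6 := finSumFinEquiv.trans (finCongr hk)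
  set N := (Matrix.of h).submatrix f g
  have hN : N * N.conjTranspose = (6 : ℂ) • 1 := by
    rw [conjTranspose_submatrix, submatrix_mul_equiv, inM_mul_conjTranspose hh,
      smul_one_submatrix]
  have hdet : N.det = ((Equiv.Perm.sign f : ℤ) : ℂ) * (Equiv.Perm.sign g : ℤ) * (Matrix.of h).det := by
    rw [show N = ((Matrix.of h).submatrix f id).submatrix id g from rfl, det_permute', det_permute]
    ring
  have hM : N.submatrix e e * (N.submatrix e e).conjTranspose = (6 : ℂ) • 1 := by
    rw [conjTranspose_submatrix, submatrix_mul_equiv, hN, smul_one_submatrix]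
  have := det_mul_star_block _ 6 hM
  rw [det_submatrix_equiv_self, hdet, Fintype.card_fin] at this
  exact this

/-- Two minors against their complements. -/
theorem minor_pair (hh : InM h) {k m l n : ℕ} (hk : k + m = 6) (hl : l + n = 6)
    (f g f' g' : Equiv.Perm (Fin 6)) :
    6 ^ (m + n) * (topDet h hk f g * conj (topDet h hl f' g')) =
      6 ^ 6 * ((Equiv.Perm.sign f * Equiv.Perm.sign g * Equiv.Perm.sign f' *
        Equiv.Perm.sign g' : ℤˣ) : ℤ) * (conj (botDet h hk f g) * botDet h hl f' g') := by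
  have h1 := sign_mul_det_mul_botDet hh hk f g
  have h2 := congrArg (starRingEnd ℂ) (sign_mul_det_mul_botDet hh hl f' g')
  simp only [map_mul, map_pow, map_intCast, map_ofNat, Complex.conj_conj] at h2
  calc 6 ^ (m + n) * (topDet h hk f g * conj (topDet h hl f' g'))
      = (6 ^ m * topDet h hk f g) * (6 ^ n * conj (topDet h hl f' g')) := by ring
    _ = _ := by
      rw [← h1, ← h2, ← det_mul_conj_det hh]
      push_cast
      ring

end Blocks

section Terms

/-- The value of a list of signed monomials. -/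
noncomputable def evT (h : Fin 6 → Fin 6 → ℂ) (T : List (ℤ × List Edge)) (f g : ℕ → Fin 6) : ℂ :=
  (T.map fun t => (t.1 : ℂ) * mon h t.2 f g).sum

/-- The terms of a minor, by expansion along the first row. -/
def detT (e : ℤ) : {k : ℕ} → (Fin k → ℕ) → (Fin k → ℕ) → List (ℤ × List Edge)
  | 0, _, _ => [(1, [])]
  | k + 1, r, c => (List.finRange (k + 1)).flatMap fun (j : Fin (k + 1)) =>
      (detT e (k := k) (fun i => r i.succ) (fun i => c (j.succAbove i))).map
        fun t => ((-1) ^ (j : ℕ) * t.1, ⟨r 0, c j, e⟩ :: t.2)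

/-- Products of two lists of terms. -/
def mulT (A B : List (ℤ × List Edge)) : List (ℤ × List Edge) :=
  A.flatMap fun a => B.map fun b => (a.1 * b.1, a.2 ++ b.2)

/-- A list of terms times an integer. -/
def scaleT (z : ℤ) (A : List (ℤ × List Edge)) : List (ℤ × List Edge) :=
  A.map fun a => (z * a.1, a.2)

variable (h : Fin 6 → Fin 6 → ℂ) (f g : ℕ → Fin 6)

lemma sum_flatMap {α β : Type*} (l : List α) (F : α → List β) (v : β → ℂ) :
    ((l.flatMap F).map v).sum = (l.map fun a => ((F a).map v).sum).sum := by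
  induction l with
  | nil => simp
  | cons a l ih => simp [ih]

lemma sum_map_mul_left' {α : Type*} (l : List α) (v : α → ℂ) (c : ℂ) :
    (l.map fun a => c * v a).sum = c * (l.map v).sum :=
  List.sum_map_mul_left l v c

lemma evT_scaleT (z : ℤ) (A : List (ℤ × List Edge)) :
    evT h (scaleT z A) f g = z * evT h A f g := by
  simp only [evT, scaleT, List.map_map, ← sum_map_mul_left']
  congr 1
  refine List.map_congr_left fun a _ => ?_
  simp [mul_assoc]

lemma evT_append (A B : List (ℤ × List Edge)) :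
    evT h (A ++ B) f g = evT h A f g + evT h B f g := by
  simp [evT]

lemma evT_mulT (A B : List (ℤ × List Edge)) :
    evT h (mulT A B) f g = evT h A f g * evT h B f g := by
  rw [evT, mulT, sum_flatMap, evT, ← List.sum_map_mul_right]
  congr 1
  refine List.map_congr_left fun a _ => ?_
  rw [evT, ← sum_map_mul_left', List.map_map]
  congr 1
  refine List.map_congr_left fun b _ => ?_
  simp [mon]
  ring

lemma evT_detT (e : ℤ) : ∀ {k : ℕ} (r c : Fin k → ℕ),
    evT h (detT e r c) f g = (Matrix.of fun i j : Fin k => h (f (r i)) (g (c j)) ^ e).det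
  | 0, _, _ => by simp [evT, detT, mon]
  | k + 1, r, c => by
    rw [Matrix.det_succ_row_zero, evT, detT, sum_flatMap, Fin.sum_univ_def]
    congr 1
    refine List.map_congr_left fun j _ => ?_
    have := evT_detT e (fun i => r i.succ) (fun i => c (j.succAbove i))
    rw [show (Matrix.of fun i j => h (f (r i)) (g (c j)) ^ e).submatrix Fin.succ j.succAbove =
      Matrix.of fun i i' => h (f (r i.succ)) (g (c (j.succAbove i'))) ^ e from rfl, ← this, evT,
      ← sum_map_mul_left', List.map_map]
    congr 1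
    refine List.map_congr_left fun t _ => ?_
    simp [mon]
    ring

variable {h}

lemma evT_detT_neg (hu : ∀ l k, ‖h l k‖ = 1) {k : ℕ} (r c : Fin k → ℕ) :
    evT h (detT (-1) r c) f g = conj (evT h (detT 1 r c) f g) := by
  simp only [evT_detT, zpow_one]
  rw [RingHom.map_det]
  congr 1
  ext i j
  simp [zpow_neg_one, ← Complex.inv_eq_conj (hu _ _)]

/-- Vertices of the first block, at the positions given by a permutation. -/
def topV {k m : ℕ} (hk : k + m = 6) (p : Equiv.Perm (Fin 6)) (i : Fin k) : ℕ :=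
  (p (finCongr hk (i.castAdd m))).val

/-- Vertices of the second block. -/
def botV {k m : ℕ} (hk : k + m = 6) (p : Equiv.Perm (Fin 6)) (i : Fin m) : ℕ :=
  (p (finCongr hk (i.natAdd k))).val

/-- The terms of a minor identity, the first block standard and the second given by `p`, `q`. -/
def minorRel {k m l n : ℕ} (hk : k + m = 6) (hl : l + n = 6) (p q : Equiv.Perm (Fin 6)) (s : ℤ)
    (mult : List Edge) : List (ℤ × List Edge) :=
  mulT [(1, mult)]
    (scaleT (6 ^ (m + n)) (mulT (detT 1 (topV hk (1 : Equiv.Perm (Fin 6))) (topV hk 1))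
        (detT (-1) (topV hl p) (topV hl q))) ++
      scaleT (-(6 ^ 6 * s)) (mulT (detT (-1) (botV hk (1 : Equiv.Perm (Fin 6))) (botV hk 1))
        (detT 1 (botV hl p) (botV hl q))))

lemma lift_val {n : ℕ} (a : Fin n → Fin 6) (i : Fin n) : lift a i.val = a i := by simp [lift]

/-- A minor identity at every relabelling. -/
theorem evT_minorRel (hh : InM h) {k m l n : ℕ} (hk : k + m = 6) (hl : l + n = 6)
    (p q : Equiv.Perm (Fin 6)) {s : ℤ}
    (hs : ((Equiv.Perm.sign p * Equiv.Perm.sign q : ℤˣ) : ℤ) = s) (mult : List Edge)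
    (a b : Equiv.Perm (Fin 6)) :
    evT h (minorRel hk hl p q s mult) (lift a) (lift b) = 0 := by
  rw [minorRel, evT_mulT, evT_append, evT_scaleT, evT_scaleT, evT_mulT, evT_mulT,
    evT_detT_neg _ _ hh.unimod, evT_detT_neg _ _ hh.unimod]
  simp only [evT_detT, zpow_one, topV, botV, lift_val]
  have := minor_pair hh hk hl a b (p.trans a) (q.trans b)
  have hsq : ∀ x : ℤˣ, x * x = 1 := Int.units_mul_self
  rw [Equiv.Perm.sign_trans, Equiv.Perm.sign_trans,
    show Equiv.Perm.sign a * Equiv.Perm.sign b * (Equiv.Perm.sign a * Equiv.Perm.sign p) *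
        (Equiv.Perm.sign b * Equiv.Perm.sign q) =
      (Equiv.Perm.sign a * Equiv.Perm.sign a) * (Equiv.Perm.sign b * Equiv.Perm.sign b) *
        (Equiv.Perm.sign p * Equiv.Perm.sign q) by ac_rfl, hsq, hsq, one_mul, one_mul, hs] at this
  simp only [topDet, botDet, Equiv.trans_apply] at this
  refine mul_eq_zero_of_right _ ?_
  simp only [Equiv.Perm.one_apply]
  push_cast
  linear_combination this

end Terms

section Injective

/-- The first `m` values are distinct. -/
def InjUpto {n : ℕ} (m : ℕ) (f : Fin n → Fin 6) : Prop :=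
  ∀ i j : Fin n, i < j → (j : ℕ) < m → f i ≠ f j

instance {n m : ℕ} (f : Fin n → Fin 6) : Decidable (InjUpto m f) := by
  unfold InjUpto; infer_instance

/-- The sum over the assignments of `n` vertices, the first `m` of them distinct. -/
noncomputable def sumI (n m : ℕ) (F : (ℕ → Fin 6) → ℂ) : ℂ :=
  ∑ f : Fin n → Fin 6, if InjUpto m f then F (lift f) else 0

lemma sumI_zero (n : ℕ) (F : (ℕ → Fin 6) → ℂ) :
    sumI n 0 F = ∑ f : Fin n → Fin 6, F (lift f) := by
  simp [sumI, InjUpto]

/-- The vertex `m` is identified with `i`. -/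
def collapse (m i v : ℕ) : ℕ := if v < m then v else if v = m then i else v - 1

lemma lift_insertNth {n : ℕ} (m : Fin (n + 1)) (i : ℕ) (hi : i < (m : ℕ)) (f : Fin n → Fin 6) :
    lift (Fin.insertNth m (lift f i) f : Fin (n + 1) → Fin 6) = lift f ∘ collapse m i := by
  funext v
  simp only [Function.comp_apply]
  by_cases hv : v < n + 1
  swap
  · have h1 : collapse m i v = v - 1 := by
      have := m.isLt
      simp [collapse, show ¬v < (m : ℕ) by omega, show v ≠ (m : ℕ) by omega]
    rw [h1]
    simp [lift, hv, show ¬v - 1 < n by omega]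
  rw [show lift _ v = (Fin.insertNth m (lift f i) f : Fin (n + 1) → Fin 6) ⟨v, hv⟩ by simp [lift, hv]]
  rcases Fin.eq_self_or_eq_succAbove m ⟨v, hv⟩ with e | ⟨w, e⟩
  · have e' : v = (m : ℕ) := congrArg Fin.val e
    rw [e, Fin.insertNth_apply_same]
    simp [collapse, e']
  · rw [e, Fin.insertNth_apply_succAbove, ← lift_val f w]
    congr 1
    have e' : v = (m.succAbove w).val := congrArg Fin.val e
    rw [e', collapse]
    by_cases hw : w.castSucc < m
    · rw [Fin.succAbove_of_castSucc_lt m w hw]
      simp [show (w : ℕ) < (m : ℕ) from hw]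
    · rw [Fin.succAbove_of_le_castSucc m w (not_lt.1 hw)]
      have : (m : ℕ) ≤ (w : ℕ) := not_lt.1 hw
      simp [show ¬(w : ℕ) + 1 < (m : ℕ) by omega, show (w : ℕ) + 1 ≠ (m : ℕ) by omega]

lemma injUpto_insertNth {n : ℕ} (m : Fin (n + 1)) (x : Fin 6) (f : Fin n → Fin 6) :
    InjUpto (m : ℕ) (Fin.insertNth m x f : Fin (n + 1) → Fin 6) ↔ InjUpto (m : ℕ) f := by
  have hv : ∀ w : Fin n, ((m.succAbove w : Fin (n + 1)) : ℕ) < (m : ℕ) ↔ (w : ℕ) < (m : ℕ) :=
    fun w => Fin.succAbove_lt_iff_castSucc_lt m w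
  constructor
  · intro h i j hij hj
    have := h (m.succAbove i) (m.succAbove j) (Fin.strictMono_succAbove m hij) ((hv j).2 hj)
    simpa using this
  · intro h i j hij hj
    obtain ⟨j', rfl⟩ := Fin.exists_succAbove_eq (x := j) (y := m) (fun e => by simp [e] at hj)
    obtain ⟨i', rfl⟩ := Fin.exists_succAbove_eq (x := i) (y := m) (fun e => by
      rw [e] at hij
      exact absurd (lt_trans (show (m : ℕ) < _ from hij) hj) (Nat.lt_irrefl _))
    simpa using h i' j' ((Fin.strictMono_succAbove m).lt_iff_lt.1 hij) ((hv j').1 hj)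

/-- One more distinct vertex. -/
theorem sumI_succ {n m : ℕ} (hm : m < n) (F : (ℕ → Fin 6) → ℂ) :
    sumI n (m + 1) F = sumI n m F -
      ∑ i ∈ Finset.range m, sumI (n - 1) m fun f => F (f ∘ collapse m i) := by
  obtain ⟨n, rfl⟩ : ∃ n', n = n' + 1 := ⟨n - 1, by omega⟩
  set M : Fin (n + 1) := ⟨m, hm⟩
  change sumI (n + 1) (m + 1) F = sumI (n + 1) m F -
    ∑ i ∈ Finset.range m, sumI n m fun f => F (f ∘ collapse m i)
  simp only [sumI]
  rw [← (Fin.insertNthEquiv (fun _ => Fin 6) M).sum_comp, ← (Fin.insertNthEquiv (fun _ => Fin 6) M).sum_comp,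
    Fintype.sum_prod_type_right, Fintype.sum_prod_type_right, Finset.sum_comm (s := Finset.range m),
    ← Finset.sum_sub_distrib]
  refine Finset.sum_congr rfl fun f _ => ?_
  have hE : ∀ x, (Fin.insertNthEquiv (fun _ => Fin 6) M) (x, f) =
      (Fin.insertNth M x f : Fin (n + 1) → Fin 6) := fun _ => rfl
  simp only [hE]
  by_cases hf : InjUpto m f
  swap
  · have h1 : ∀ x, ¬InjUpto m (Fin.insertNth M x f : Fin (n + 1) → Fin 6) :=
      fun x h => hf ((injUpto_insertNth M x f).1 h)
    have h2 : ∀ x, ¬InjUpto (m + 1) (Fin.insertNth M x f : Fin (n + 1) → Fin 6) :=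
      fun x h => h1 x fun i j hij hj => h i j hij (by omega)
    simp [h1, h2, hf]
  have h1 : ∀ x, InjUpto m (Fin.insertNth M x f : Fin (n + 1) → Fin 6) :=
    fun x => (injUpto_insertNth M x f).2 hf
  simp only [h1, hf, if_true]
  set S : Finset (Fin 6) := (Finset.range m).image (lift f)
  have h2 : ∀ x, InjUpto (m + 1) (Fin.insertNth M x f : Fin (n + 1) → Fin 6) ↔ x ∉ S := by
    intro x
    have hlow : ∀ i : ℕ, (hi : i < m) →
        (Fin.insertNth M x f : Fin (n + 1) → Fin 6) ⟨i, by omega⟩ = lift f i := by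
      intro i hi
      have : (⟨i, by omega⟩ : Fin (n + 1)) = M.succAbove ⟨i, by omega⟩ := by
        rw [Fin.succAbove_of_castSucc_lt M ⟨i, by omega⟩ hi]
        rfl
      rw [this, Fin.insertNth_apply_succAbove]
      simp [lift, show i < n by omega]
    constructor
    · intro h hx
      obtain ⟨i, hi, rfl⟩ := Finset.mem_image.1 hx
      rw [Finset.mem_range] at hi
      refine h ⟨i, by omega⟩ M hi (Nat.lt_succ_self m) ?_
      rw [hlow i hi, Fin.insertNth_apply_same]
    · intro hx i j hij hj
      rcases Nat.lt_succ_iff_lt_or_eq.1 hj with hj' | hj'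
      · exact h1 x i j hij hj'
      · have hi : (i : ℕ) < m := hj' ▸ hij
        rw [show j = M from Fin.ext hj', Fin.insertNth_apply_same, show i = ⟨i.val, i.isLt⟩ from rfl,
          hlow i.val hi]
        exact fun e => hx (Finset.mem_image.2 ⟨i.val, Finset.mem_range.2 hi, e⟩)
  simp only [h2]
  have hinj : Set.InjOn (lift f) (Finset.range m : Set ℕ) := by
    intro i hi j hj e
    simp only [Finset.coe_range, Set.mem_Iio] at hi hj
    by_contra hne
    simp only [lift, show i < n by omega, show j < n by omega, dif_pos] at e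
    rcases lt_or_gt_of_ne hne with hl | hl
    · exact hf ⟨i, by omega⟩ ⟨j, by omega⟩ hl hj e
    · exact hf ⟨j, by omega⟩ ⟨i, by omega⟩ hl hi e.symm
  rw [← Finset.sum_filter, Finset.filter_not, Finset.filter_mem_eq_inter, Finset.univ_inter,
    Finset.sum_sdiff_eq_sub (Finset.subset_univ S), Finset.sum_image hinj]
  congr 1
  refine Finset.sum_congr rfl fun i hi => ?_
  rw [← lift_insertNth M i (Finset.mem_range.1 hi) f]

/-- More than six distinct values do not exist. -/
theorem sumI_eq_zero {n m : ℕ} (h6 : 6 < m) (hmn : m ≤ n) (F : (ℕ → Fin 6) → ℂ) :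
    sumI n m F = 0 := by
  refine Finset.sum_eq_zero fun f _ => if_neg fun hf => ?_
  obtain ⟨i, j, hne, e⟩ := Fintype.exists_ne_map_eq_of_card_lt
    (fun i : Fin m => f (Fin.castLE hmn i)) (by simpa using h6)
  rcases lt_or_gt_of_ne hne with hl | hl
  · exact hf _ _ (show Fin.castLE hmn i < Fin.castLE hmn j from hl) j.isLt e
  · exact hf _ _ (show Fin.castLE hmn j < Fin.castLE hmn i from hl) i.isLt e.symm

/-- Six distinct values form a permutation. -/
theorem sumI_six (F : (ℕ → Fin 6) → ℂ) : sumI 6 6 F = ∑ p : Equiv.Perm (Fin 6), F (lift p) := by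
  rw [sumI, ← Finset.sum_filter]
  refine (Finset.sum_bij (fun (p : Equiv.Perm (Fin 6)) _ => (p : Fin 6 → Fin 6)) (fun p _ => ?_)
    (fun p _ q _ e => Equiv.coe_fn_injective e) (fun f hf => ?_) fun _ _ => rfl).symm
  · exact Finset.mem_filter.2 ⟨Finset.mem_univ _, fun i j hij _ => p.injective.ne hij.ne⟩
  · have hf' := (Finset.mem_filter.1 hf).2
    refine ⟨Equiv.ofBijective f (Finite.injective_iff_bijective.1 fun i j e => ?_),
      Finset.mem_univ _, rfl⟩
    rcases lt_trichotomy i j with hl | hl | hl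
    exacts [absurd e (hf' i j hl j.isLt), hl, absurd e.symm (hf' j i hl i.isLt)]

/-- A distinct vertex without edges. -/
theorem sumI_isolated (n : ℕ) {F : (ℕ → Fin 6) → ℂ}
    (hF : ∀ f g : ℕ → Fin 6, (∀ v, v < n → f v = g v) → F f = F g) :
    sumI (n + 1) (n + 1) F = (6 - n : ℂ) * sumI n n F := by
  rw [sumI_succ (Nat.lt_succ_self n)]
  change sumI (n + 1) n F - ∑ i ∈ Finset.range n, sumI n n (fun f => F (f ∘ collapse n i)) = _
  have h1 : ∀ i ∈ Finset.range n, sumI n n (fun f => F (f ∘ collapse n i)) = sumI n n F := by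
    intro i _
    refine Finset.sum_congr rfl fun f _ => ?_
    split_ifs
    · exact hF _ _ fun v hv => by simp [collapse, hv]
    · rfl
  rw [Finset.sum_congr rfl h1, Finset.sum_const, Finset.card_range, nsmul_eq_mul]
  have h2 : sumI (n + 1) n F = 6 * sumI n n F := by
    simp only [sumI]
    rw [← (Fin.insertNthEquiv (fun _ => Fin 6) (Fin.last n)).sum_comp, Fintype.sum_prod_type_right,
      Finset.mul_sum]
    refine Finset.sum_congr rfl fun f _ => ?_
    have he : ∀ x, (if InjUpto n ((Fin.insertNthEquiv (fun _ => Fin 6) (Fin.last n)) (x, f))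
        then F (lift ((Fin.insertNthEquiv (fun _ => Fin 6) (Fin.last n)) (x, f))) else 0) =
        if InjUpto n f then F (lift f) else 0 := by
      intro x
      change (if InjUpto n (Fin.insertNth (Fin.last n) x f : Fin (n + 1) → Fin 6) then
        F (lift (Fin.insertNth (Fin.last n) x f : Fin (n + 1) → Fin 6)) else 0) = _
      refine if_congr (injUpto_insertNth (Fin.last n) x f) ?_ rfl
      refine hF _ _ fun v hv => ?_
      simp only [lift, hv, show v < n + 1 by omega, dif_pos]
      rw [show (⟨v, by omega⟩ : Fin (n + 1)) = (Fin.last n).succAbove ⟨v, hv⟩ by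
        rw [Fin.succAbove_last]; rfl, Fin.insertNth_apply_succAbove]
    rw [Finset.sum_congr rfl fun x _ => he x, Finset.sum_const, Finset.card_univ, Fintype.card_fin,
      nsmul_eq_mul]
    norm_num
  rw [h2]
  ring

/-- The value with the first `a` rows and the first `b` columns distinct. -/
noncomputable def part (h : Fin 6 → Fin 6 → ℂ) (a b : ℕ) (D : Dg) : ℂ :=
  sumI D.nr a fun f => sumI D.nc b fun g => mon h D.edges f g

lemma part_zero (h : Fin 6 → Fin 6 → ℂ) (D : Dg) : part h 0 0 D = hom h D := by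
  simp only [part, sumI_zero, hom]

/-- Two row vertices identified. -/
def mergeRow (m i : ℕ) (D : Dg) : Dg :=
  ⟨D.nr - 1, D.nc, D.edges.map fun e => ⟨collapse m i e.row, e.col, e.expo⟩⟩

/-- Two column vertices identified. -/
def mergeCol (m i : ℕ) (D : Dg) : Dg :=
  ⟨D.nr, D.nc - 1, D.edges.map fun e => ⟨e.row, collapse m i e.col, e.expo⟩⟩

lemma mon_mapRow (h : Fin 6 → Fin 6 → ℂ) (es : List Edge) (φ : ℕ → ℕ) (f g : ℕ → Fin 6) :
    mon h (es.map fun e => ⟨φ e.row, e.col, e.expo⟩) f g = mon h es (f ∘ φ) g := by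
  simp [mon, List.map_map, Function.comp_def]

lemma mon_mapCol (h : Fin 6 → Fin 6 → ℂ) (es : List Edge) (φ : ℕ → ℕ) (f g : ℕ → Fin 6) :
    mon h (es.map fun e => ⟨e.row, φ e.col, e.expo⟩) f g = mon h es f (g ∘ φ) := by
  simp [mon, List.map_map, Function.comp_def]

theorem part_succ_row (h : Fin 6 → Fin 6 → ℂ) {m b : ℕ} (D : Dg) (hm : m < D.nr) :
    part h (m + 1) b D = part h m b D - ∑ i ∈ Finset.range m, part h m b (mergeRow m i D) := by
  simp only [part, mergeRow, mon_mapRow]
  exact sumI_succ hm _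

theorem part_succ_col (h : Fin 6 → Fin 6 → ℂ) {a m : ℕ} (D : Dg) (hm : m < D.nc) :
    part h a (m + 1) D = part h a m D - ∑ i ∈ Finset.range m, part h a m (mergeCol m i D) := by
  simp only [part, mergeCol, mon_mapCol, sumI_succ hm]
  simp only [sumI]
  rw [Finset.sum_comm (s := Finset.range m), ← Finset.sum_sub_distrib]
  refine Finset.sum_congr rfl fun f _ => ?_
  split_ifs <;> simp

/-- The row expansion. -/
def expR : ℕ → Dg → List (ℤ × Dg)
  | 0, D => [(1, D)]
  | m + 1, D => expR m D ++
      (List.range m).flatMap fun i => (expR m (mergeRow m i D)).map fun t => (-t.1, t.2)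

/-- The column expansion. -/
def expC : ℕ → Dg → List (ℤ × Dg)
  | 0, D => [(1, D)]
  | m + 1, D => expC m D ++
      (List.range m).flatMap fun i => (expC m (mergeCol m i D)).map fun t => (-t.1, t.2)

/-- The value of a combination of diagrams. -/
noncomputable def evD (v : Dg → ℂ) (L : List (ℤ × Dg)) : ℂ := (L.map fun t => (t.1 : ℂ) * v t.2).sum

lemma evD_neg (v : Dg → ℂ) (L : List (ℤ × Dg)) :
    evD v (L.map fun t => (-t.1, t.2)) = -evD v L := by
  induction L with
  | nil => simp [evD]
  | cons t L ih =>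
    simp only [evD, List.map_cons, List.sum_cons] at ih ⊢
    rw [ih]
    push_cast
    ring

lemma evD_flatMap {α : Type*} (v : Dg → ℂ) (l : List α) (F : α → List (ℤ × Dg)) :
    evD v (l.flatMap F) = (l.map fun a => evD v (F a)).sum :=
  sum_flatMap l F fun t => (t.1 : ℂ) * v t.2

lemma range_map_sum (n : ℕ) (v : ℕ → ℂ) :
    ((List.range n).map v).sum = ∑ i ∈ Finset.range n, v i := by
  induction n with
  | zero => simp
  | succ n ih => simp [List.range_succ, Finset.sum_range_succ, ih]

theorem part_eq_expR (h : Fin 6 → Fin 6 → ℂ) (b : ℕ) : ∀ (m : ℕ) (D : Dg), m ≤ D.nr →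
    part h m b D = evD (part h 0 b) (expR m D)
  | 0, D, _ => by simp [evD, expR]
  | m + 1, D, hm => by
    rw [part_succ_row h D hm, expR, evD, List.map_append, List.sum_append, ← evD, ← evD,
      evD_flatMap, range_map_sum, ← part_eq_expR h b m D (by omega), sub_eq_add_neg,
      ← Finset.sum_neg_distrib]
    congr 1
    refine Finset.sum_congr rfl fun i _ => ?_
    rw [evD_neg, part_eq_expR h b m (mergeRow m i D) (by simp [mergeRow]; omega)]

theorem part_eq_expC (h : Fin 6 → Fin 6 → ℂ) (a : ℕ) : ∀ (m : ℕ) (D : Dg), m ≤ D.nc →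
    part h a m D = evD (part h a 0) (expC m D)
  | 0, D, _ => by simp [evD, expC]
  | m + 1, D, hm => by
    rw [part_succ_col h D hm, expC, evD, List.map_append, List.sum_append, ← evD, ← evD,
      evD_flatMap, range_map_sum, ← part_eq_expC h a m D (by omega), sub_eq_add_neg,
      ← Finset.sum_neg_distrib]
    congr 1
    refine Finset.sum_congr rfl fun i _ => ?_
    rw [evD_neg, part_eq_expC h a m (mergeCol m i D) (by simp [mergeCol]; omega)]

/-- More than six distinct row vertices give zero. -/
theorem part_eq_zero_row (h : Fin 6 → Fin 6 → ℂ) {a b : ℕ} (D : Dg) (h6 : 6 < a)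
    (ha : a ≤ D.nr) : part h a b D = 0 :=
  sumI_eq_zero h6 ha _

/-- A minor identity as a relation between injective values. -/
theorem part_minorRel {h : Fin 6 → Fin 6 → ℂ} (hh : InM h) {k m l n : ℕ} (hk : k + m = 6)
    (hl : l + n = 6) (p q : Equiv.Perm (Fin 6)) {s : ℤ}
    (hs : ((Equiv.Perm.sign p * Equiv.Perm.sign q : ℤˣ) : ℤ) = s) (mult : List Edge) :
    evD (part h 6 6) ((minorRel hk hl p q s mult).map fun t => (t.1, ⟨6, 6, t.2⟩)) = 0 := by
  set T := minorRel hk hl p q s mult with hT
  have hv : ∀ es : List Edge, part h 6 6 ⟨6, 6, es⟩ =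
      ∑ a : Equiv.Perm (Fin 6), ∑ b : Equiv.Perm (Fin 6), mon h es (lift a) (lift b) := by
    intro es
    simp only [part, sumI_six]
  have hsum : ∀ L : List (ℤ × List Edge), evD (part h 6 6) (L.map fun t => (t.1, ⟨6, 6, t.2⟩)) =
      ∑ a : Equiv.Perm (Fin 6), ∑ b : Equiv.Perm (Fin 6), evT h L (lift a) (lift b) := by
    intro L
    induction L with
    | nil => simp [evD, evT]
    | cons t L ih =>
      simp only [evD, evT, List.map_cons, List.sum_cons] at ih ⊢
      rw [ih, hv, Finset.mul_sum]
      simp only [Finset.mul_sum, Finset.sum_add_distrib]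
  rw [hsum]
  exact Finset.sum_eq_zero fun a _ => Finset.sum_eq_zero fun b _ =>
    hT ▸ evT_minorRel hh hk hl p q hs mult a b

end Injective

end Vale.Agent.P355.Cert
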