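import Vale.Agent.P355.Cert.Mat

/-
P355: exponent matrices packed into natural numbers, five bits for each of the thirty six cells,
offset sixteen.
-/

open Finset

namespace Vale.Agent.P355.Cert

/-- cell `(i, j)` of a packed matrix -/
def cellN (M i j : ℕ) : ℕ := (M >>> (5 * (6 * i + j))) % 32

/-- the exponent matrix of a packed matrix -/
def expoOf (M : ℕ) : Expo := fun i j => (cellN M i j : ℤ) - 16

/-- the bits of one row -/
def rowOf (M i : ℕ) : ℕ := (M >>> (30 * i)) % 1073741824

/-- the mask of column zero -/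
def colMask : ℕ := 44244678515090824220515398366539723294526930975

/-- a zero row -/
def zeroR : ℕ := 554189328

/-- a zero column -/
def zeroC : ℕ := 22835963104563006049298270124665663635884867600

/-- the bits of one column -/
def colOf (M j : ℕ) : ℕ := (M >>> (5 * j)) &&& colMask

/-- replace a row -/
def putRow (M i v : ℕ) : ℕ := M ^^^ ((rowOf M i ^^^ v) <<< (30 * i))

/-- replace a column -/
def putCol (M j v : ℕ) : ℕ := M ^^^ ((colOf M j ^^^ v) <<< (5 * j))

lemma testBit_cellN (M i j t : ℕ) :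
    (cellN M i j).testBit t = (decide (t < 5) && M.testBit (5 * (6 * i + j) + t)) := by
  rw [cellN, show (32 : ℕ) = 2 ^ 5 by norm_num, Nat.testBit_mod_two_pow, Nat.testBit_shiftRight]

lemma testBit_rowOf (M i t : ℕ) :
    (rowOf M i).testBit t = (decide (t < 30) && M.testBit (30 * i + t)) := by
  rw [rowOf, show (1073741824 : ℕ) = 2 ^ 30 by norm_num, Nat.testBit_mod_two_pow, Nat.testBit_shiftRight]

lemma testBit_colMask (t : ℕ) : colMask.testBit t = decide (t % 30 < 5 ∧ t < 180) := by
  by_cases ht : t < 180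
  · exact (by decide +kernel : ∀ u < 180, colMask.testBit u = decide (u % 30 < 5 ∧ u < 180)) t ht
  · rw [Nat.testBit_lt_two_pow (lt_of_lt_of_le (by decide +kernel : colMask < 2 ^ 180)
      (Nat.pow_le_pow_right (by norm_num) (by omega)))]
    simp [ht]

lemma testBit_colOf (M j t : ℕ) :
    (colOf M j).testBit t = (M.testBit (5 * j + t) && decide (t % 30 < 5 ∧ t < 180)) := by
  rw [colOf, Nat.testBit_and, Nat.testBit_shiftRight, testBit_colMask]

lemma rowOf_cell (M i j : ℕ) (hj : j < 6) : (rowOf M i >>> (5 * j)) % 32 = cellN M i j := by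
  refine Nat.eq_of_testBit_eq fun t => ?_
  rw [testBit_cellN, show (32 : ℕ) = 2 ^ 5 by norm_num, Nat.testBit_mod_two_pow, Nat.testBit_shiftRight,
    testBit_rowOf, show 30 * i + (5 * j + t) = 5 * (6 * i + j) + t by ring]
  by_cases ht : t < 5
  · simp [ht, show 5 * j + t < 30 by omega]
  · simp [ht]

lemma colOf_cell (M i j : ℕ) (hi : i < 6) : (colOf M j >>> (30 * i)) % 32 = cellN M i j := by
  refine Nat.eq_of_testBit_eq fun t => ?_
  rw [testBit_cellN, show (32 : ℕ) = 2 ^ 5 by norm_num, Nat.testBit_mod_two_pow, Nat.testBit_shiftRight,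
    testBit_colOf, show 5 * j + (30 * i + t) = 5 * (6 * i + j) + t by ring]
  by_cases ht : t < 5
  · simp [ht, show t % 30 < 5 by omega, show 30 * i + t < 180 by omega]
  · simp [ht]

lemma cellN_putRow (M i v i' j : ℕ) (hv : v < 1073741824) (hj : j < 6) :
    cellN (putRow M i v) i' j = if i' = i then (v >>> (5 * j)) % 32 else cellN M i' j := by
  refine Nat.eq_of_testBit_eq fun t => ?_
  by_cases ht : t < 5
  swap
  · rw [testBit_cellN]
    split
    · rw [show (32 : ℕ) = 2 ^ 5 by norm_num, Nat.testBit_mod_two_pow]; simp [ht]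
    · rw [testBit_cellN]; simp [ht]
  rw [testBit_cellN, putRow, Nat.testBit_xor, Nat.testBit_shiftLeft, Nat.testBit_xor, testBit_rowOf]
  split
  · rename_i h
    subst h
    have h1 : 30 * i' ≤ 5 * (6 * i' + j) + t := by omega
    have h2 : 5 * (6 * i' + j) + t - 30 * i' = 5 * j + t := by omega
    have h3 : 30 * i' + (5 * j + t) = 5 * (6 * i' + j) + t := by omega
    rw [h2, h3, show (32 : ℕ) = 2 ^ 5 by norm_num, Nat.testBit_mod_two_pow, Nat.testBit_shiftRight]
    simp [ht, h1, show 5 * j + t < 30 by omega]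
  · rename_i h
    rw [testBit_cellN]
    by_cases h1 : 30 * i ≤ 5 * (6 * i' + j) + t
    · have h2 : ¬ (5 * (6 * i' + j) + t - 30 * i < 30) := by omega
      have h4 : v.testBit (5 * (6 * i' + j) + t - 30 * i) = false :=
        Nat.testBit_lt_two_pow (lt_of_lt_of_le hv (le_trans (by norm_num : 1073741824 ≤ 2 ^ 30)
          (Nat.pow_le_pow_right (by norm_num) (by omega))))
      simp [ht, h1, h2, h4]
    · simp [ht, h1]

lemma cellN_putCol (M j v i j' : ℕ) (hv : v &&& colMask = v) (hi : i < 6) (hj : j < 6) (hj' : j' < 6) :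
    cellN (putCol M j v) i j' = if j' = j then (v >>> (30 * i)) % 32 else cellN M i j' := by
  refine Nat.eq_of_testBit_eq fun t => ?_
  by_cases ht : t < 5
  swap
  · rw [testBit_cellN]
    split
    · rw [show (32 : ℕ) = 2 ^ 5 by norm_num, Nat.testBit_mod_two_pow]; simp [ht]
    · rw [testBit_cellN]; simp [ht]
  rw [testBit_cellN, putCol, Nat.testBit_xor, Nat.testBit_shiftLeft, Nat.testBit_xor, testBit_colOf]
  split
  · rename_i h
    subst h
    have h1 : 5 * j' ≤ 5 * (6 * i + j') + t := by omega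
    have h2 : 5 * (6 * i + j') + t - 5 * j' = 30 * i + t := by omega
    have h3 : 5 * j' + (30 * i + t) = 5 * (6 * i + j') + t := by omega
    rw [h2, h3, show (32 : ℕ) = 2 ^ 5 by norm_num, Nat.testBit_mod_two_pow, Nat.testBit_shiftRight]
    simp [ht, h1, show t % 30 < 5 by omega, show 30 * i + t < 180 by omega]
  · rename_i h
    rw [testBit_cellN]
    by_cases h1 : 5 * j ≤ 5 * (6 * i + j') + t
    · have h2 : ¬ ((5 * (6 * i + j') + t - 5 * j) % 30 < 5) := by omega
      have h4 : v.testBit (5 * (6 * i + j') + t - 5 * j) = false := by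
        rw [← hv, Nat.testBit_and, testBit_colMask]
        simp [h2]
      simp [ht, h1, h2, h4]
    · simp [ht, h1]

lemma rowOf_lt (M i : ℕ) : rowOf M i < 1073741824 := Nat.mod_lt _ (by norm_num)

lemma colOf_and (M j : ℕ) : colOf M j &&& colMask = colOf M j := by
  rw [colOf, Nat.and_assoc, Nat.and_self]

/-- pack a list of digits -/
def packL : List ℕ → ℕ
  | [] => 0
  | v :: l => v + 32 * packL l

/-- pack an exponent matrix -/
def packE (e : Expo) : ℕ := packL (List.ofFn fun k : Fin 36 =>
  (e ⟨k.val / 6, by omega⟩ ⟨k.val % 6, by omega⟩ + 16).toNat)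

lemma packL_digit : ∀ (n : ℕ) (v : Fin n → ℕ), (∀ k, v k < 32) → ∀ k : Fin n,
    (packL (List.ofFn v) >>> (5 * k.val)) % 32 = v k
  | 0, _, _, k => k.elim0
  | n + 1, v, hv, k => by
    rw [List.ofFn_succ, packL]
    refine Fin.cases ?_ (fun k => ?_) k
    · have := hv 0
      simp
      omega
    · rw [Fin.val_succ, show 5 * (k.val + 1) = 5 + 5 * k.val by ring, Nat.shiftRight_add]
      have h0 := hv 0
      rw [show ((v 0 + 32 * packL (List.ofFn fun i => v i.succ)) >>> 5) = packL (List.ofFn fun i => v i.succ) by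
        rw [Nat.shiftRight_eq_div_pow]; omega]
      exact packL_digit n (fun i => v i.succ) (fun i => hv _) k

lemma packL_add : ∀ (n : ℕ) (v w : Fin n → ℕ),
    packL (List.ofFn v) + packL (List.ofFn w) = packL (List.ofFn fun k => v k + w k)
  | 0, _, _ => by simp [packL]
  | n + 1, v, w => by
    rw [List.ofFn_succ, List.ofFn_succ, List.ofFn_succ, packL, packL, packL, ← packL_add n]
    ring

lemma expoOf_packE (e : Expo) (he : ∀ i j, |e i j| ≤ 15) : expoOf (packE e) = e := by
  funext i j
  set k : Fin 36 := ⟨6 * i.val + j.val, by omega⟩ with hk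
  have h := packL_digit 36 (fun k : Fin 36 =>
    (e ⟨k.val / 6, by omega⟩ ⟨k.val % 6, by omega⟩ + 16).toNat)
    (fun k => by have := abs_le.mp (he ⟨k.val / 6, by omega⟩ ⟨k.val % 6, by omega⟩); omega) k
  have e1 : (⟨k.val / 6, by omega⟩ : Fin 6) = i := Fin.ext (by simp only [hk]; omega)
  have e2 : (⟨k.val % 6, by omega⟩ : Fin 6) = j := Fin.ext (by simp only [hk]; omega)
  simp only [e1, e2] at h
  rw [expoOf, cellN, packE, h]
  have := abs_le.mp (he i j)
  omega

/-- the packed zero matrix -/
def zeroM : ℕ := 790965440446910378507533949496933772190316966288310800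

lemma zeroM_eq : zeroM = packE (fun _ _ => 0) := by decide +kernel

lemma packE_sub (a b : Expo) (ha : ∀ i j, |a i j| ≤ 7) (hb : ∀ i j, |b i j| ≤ 7) :
    packE (fun i j => a i j - b i j) = packE a + packE (fun i j => -b i j) - zeroM := by
  refine Nat.eq_sub_of_add_eq ?_
  rw [zeroM_eq, packE, packE, packE, packE, packL_add, packL_add]
  congr 2
  funext k
  have := abs_le.mp (ha ⟨k.val / 6, by omega⟩ ⟨k.val % 6, by omega⟩)
  have := abs_le.mp (hb ⟨k.val / 6, by omega⟩ ⟨k.val % 6, by omega⟩)
  omega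

end Vale.Agent.P355.Cert
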