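import Mathlib

/-
P355: packed linear algebra for the degree eight certificate.

A Gram factor is a list of rows; each row is one natural number holding `r` offset entries of `t`
bits, together with one natural number holding the pair codes of this row against itself and the
later rows. Inner products are read off a product of two packed numbers, and the weighted sums are
collected in the slots of one big number. Nothing here knows about diagrams.
-/

open Finset

namespace Vale.Agent.P355.Cert.Packed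

/-- parameters: entry bits, columns, product slot bits, code bits, slot bits, accumulator bits -/
structure Par where
  t : ℕ
  r : ℕ
  w : ℕ
  cb : ℕ
  sb : ℕ
  wd : ℕ

/-- digits spread to slots of width `w` (a plain recursor, which the kernel unfolds quickly) -/
noncomputable def pk (t w r : ℕ) : ℕ → ℕ :=
  Nat.rec (motive := fun _ => ℕ → ℕ) (fun _ => 0)
    (fun _ ih N => Nat.add (Nat.mod N (2 ^ t)) (Nat.shiftLeft (ih (Nat.shiftRight N t)) w)) r

/-- digits spread to slots of width `w`, in reverse order -/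
noncomputable def rv (t w r : ℕ) : ℕ → ℕ :=
  Nat.rec (motive := fun _ => ℕ → ℕ) (fun _ => 0)
    (fun n ih N => Nat.add (ih (Nat.shiftRight N t)) (Nat.shiftLeft (Nat.mod N (2 ^ t)) (Nat.mul w n))) r

/-- digit sum -/
noncomputable def sm (t r : ℕ) : ℕ → ℕ :=
  Nat.rec (motive := fun _ => ℕ → ℕ) (fun _ => 0)
    (fun _ ih N => Nat.add (Nat.mod N (2 ^ t)) (ih (Nat.shiftRight N t))) r

lemma pk_zero (t w N : ℕ) : pk t w 0 N = 0 := rfl

lemma pk_succ (t w r N : ℕ) : pk t w (r + 1) N = N % 2 ^ t + pk t w r (N >>> t) <<< w := rfl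

lemma rv_zero (t w N : ℕ) : rv t w 0 N = 0 := rfl

lemma rv_succ (t w r N : ℕ) :
    rv t w (r + 1) N = rv t w r (N >>> t) + (N % 2 ^ t) <<< (w * r) := rfl

lemma sm_zero (t N : ℕ) : sm t 0 N = 0 := rfl

lemma sm_succ (t r N : ℕ) : sm t (r + 1) N = N % 2 ^ t + sm t r (N >>> t) := rfl

/-- a digit -/
def dig (t N k : ℕ) : ℕ := (N >>> (t * k)) % 2 ^ t

/-- the offset -/
def off (p : Par) : ℕ := 2 ^ (p.t - 1)

/-- a matrix entry -/
def coef (p : Par) (N k : ℕ) : ℤ := (dig p.t N k : ℤ) - off p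

/-- the Gram entry of two rows -/
def gram (p : Par) (a b : ℕ) : ℤ := ∑ k ∈ range p.r, coef p a k * coef p b k

/-- the middle coefficient of a product -/
noncomputable def dot (p : Par) (a b : ℕ) : ℕ :=
  ((pk p.t p.w p.r a * rv p.t p.w p.r b) >>> (p.w * (p.r - 1))) % 2 ^ p.w

/-- positive part of a Gram entry -/
noncomputable def qpos (p : Par) (a b : ℕ) : ℕ := dot p a b + p.r * off p ^ 2

/-- negative part of a Gram entry -/
noncomputable def qneg (p : Par) (a b : ℕ) : ℕ := off p * (sm p.t p.r a + sm p.t p.r b)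

/-- the slot of a code -/
def slotOf (p : Par) (c : ℕ) : ℕ := c % 2 ^ p.sb

/-- the power of six of a code -/
def hOf (p : Par) (c : ℕ) : ℕ := (c >>> p.sb) % 16

/-- the power of the square root of six of a code -/
def jOf (p : Par) (c : ℕ) : ℕ := 2 * hOf p c + slotOf p c % 2

/-- the table index of a code -/
def iOf (p : Par) (c : ℕ) : ℕ := slotOf p c / 2

/-- the code of the pair `a ≤ b` -/
def codeAt (p : Par) (L : List (ℕ × ℕ)) (a b : ℕ) : ℕ :=
  ((L.getD a (0, 0)).2 >>> (p.cb * (b - a))) % 2 ^ p.cb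

/-- off-diagonal terms of one row -/
noncomputable def tailP (p : Par) (a : ℕ) : List (ℕ × ℕ) → ℕ → List (ℕ × ℕ)
  | [], _ => []
  | y :: ys, C =>
    (slotOf p (C % 2 ^ p.cb), 2 * qpos p a y.1 * 6 ^ hOf p (C % 2 ^ p.cb))
      :: tailP p a ys (C >>> p.cb)

/-- off-diagonal terms of one row, negative part -/
noncomputable def tailN (p : Par) (a : ℕ) : List (ℕ × ℕ) → ℕ → List (ℕ × ℕ)
  | [], _ => []
  | y :: ys, C =>
    (slotOf p (C % 2 ^ p.cb), 2 * qneg p a y.1 * 6 ^ hOf p (C % 2 ^ p.cb))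
      :: tailN p a ys (C >>> p.cb)

/-- all terms, row by row -/
noncomputable def rowsP (p : Par) : List (ℕ × ℕ) → List (List (ℕ × ℕ))
  | [] => []
  | x :: xs =>
    ((slotOf p (x.2 % 2 ^ p.cb), qpos p x.1 x.1 * 6 ^ hOf p (x.2 % 2 ^ p.cb))
      :: tailP p x.1 xs (x.2 >>> p.cb)) :: rowsP p xs

/-- all terms, row by row, negative part -/
noncomputable def rowsN (p : Par) : List (ℕ × ℕ) → List (List (ℕ × ℕ))
  | [] => []
  | x :: xs =>
    ((slotOf p (x.2 % 2 ^ p.cb), qneg p x.1 x.1 * 6 ^ hOf p (x.2 % 2 ^ p.cb))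
      :: tailN p x.1 xs (x.2 >>> p.cb)) :: rowsN p xs

/-- weighted sum of a term list in slots -/
def accS (wd : ℕ) : List (ℕ × ℕ) → ℕ
  | [] => 0
  | q :: qs => q.2 <<< (wd * q.1) + accS wd qs

/-- weighted sum of rows of terms -/
def accRows (wd : ℕ) : List (List (ℕ × ℕ)) → ℕ
  | [] => 0
  | l :: ls => accS wd l + accRows wd ls

/-- positive accumulator of `m` rows starting at row `s` -/
noncomputable def chunkP (p : Par) (L : List (ℕ × ℕ)) (s m : ℕ) : ℕ :=
  accRows p.wd ((rowsP p (L.drop s)).take m)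

/-- negative accumulator of `m` rows starting at row `s` -/
noncomputable def chunkN (p : Par) (L : List (ℕ × ℕ)) (s m : ℕ) : ℕ :=
  accRows p.wd ((rowsN p (L.drop s)).take m)

/-- bound for one term -/
def termMax (p : Par) : ℕ :=
  2 * (2 ^ p.w + p.r * off p ^ 2 + off p * (2 * (p.r * 2 ^ p.t))) * 6 ^ 15

/-- the parameters leave enough room -/
def ok (p : Par) (n : ℕ) : Bool :=
  Nat.ble 1 p.sb && Nat.blt (2 * p.r * (2 ^ p.t * 2 ^ p.t)) (2 ^ p.w)
    && Nat.blt (n * n * termMax p) (2 ^ p.wd)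

/-- one slot of an accumulator -/
def slot (wd S s : ℕ) : ℕ := (S >>> (wd * s)) % 2 ^ wd

/-- rational coefficient read from a pair of accumulators -/
def coX (wd SP SN k : ℕ) : ℤ := (slot wd SP (2 * k) : ℤ) - slot wd SN (2 * k)

/-- coefficient of the square root of six read from a pair of accumulators -/
def coY (wd SP SN k : ℕ) : ℤ := (slot wd SP (2 * k + 1) : ℤ) - slot wd SN (2 * k + 1)

/-- a linear functional with coefficients in the quadratic ring -/
noncomputable def lin (K : ℕ) (X Y : ℕ → ℤ) (v : ℕ → ℝ) : ℝ :=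
  ∑ k ∈ range K, ((X k : ℝ) + (Y k : ℝ) * Real.sqrt 6) * v k

/-- the weight of a slot -/
noncomputable def phi (v : ℕ → ℝ) (s : ℕ) : ℝ := Real.sqrt 6 ^ (s % 2) * v (s / 2)

/-- evaluation of a term list -/
noncomputable def evalL (v : ℕ → ℝ) (l : List (ℕ × ℕ)) : ℝ :=
  (l.map fun q => (q.2 : ℝ) * phi v q.1).sum

/-! Inner products by packed multiplication. -/

lemma dig_zero (t N : ℕ) : dig t N 0 = N % 2 ^ t := by simp [dig]

lemma dig_succ (t N k : ℕ) : dig t N (k + 1) = dig t (N >>> t) k := by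
  simp only [dig, ← Nat.shiftRight_add]
  congr 2
  ring

lemma dig_lt (t N k : ℕ) : dig t N k < 2 ^ t := Nat.mod_lt _ (Nat.two_pow_pos t)

lemma sm_eq (t r : ℕ) : ∀ N, sm t r N = ∑ k ∈ range r, dig t N k := by
  induction r with
  | zero => intro N; simp [sm_zero]
  | succ r ih =>
    intro N
    rw [sum_range_succ']
    simp only [sm_succ, ih, dig_zero, dig_succ]
    ring

lemma rv_lt (t w : ℕ) (hw : 2 ^ t ≤ 2 ^ w) : ∀ r N, rv t w r N < (2 ^ w) ^ r := by
  intro r
  induction r with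
  | zero => intro N; simp [rv_zero]
  | succ r ih =>
    intro N
    simp only [rv_succ, Nat.shiftLeft_eq, pow_mul]
    have h1 := ih (N >>> t)
    have h2 : N % 2 ^ t + 1 ≤ 2 ^ w := le_trans (Nat.mod_lt _ (Nat.two_pow_pos t)) hw
    calc rv t w r (N >>> t) + N % 2 ^ t * (2 ^ w) ^ r
        < (2 ^ w) ^ r + N % 2 ^ t * (2 ^ w) ^ r := by omega
      _ = (N % 2 ^ t + 1) * (2 ^ w) ^ r := by ring
      _ ≤ 2 ^ w * (2 ^ w) ^ r := Nat.mul_le_mul_right _ h2
      _ = (2 ^ w) ^ (r + 1) := by ring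

lemma rv_top (t w : ℕ) (hw : 2 ^ t ≤ 2 ^ w) (n M : ℕ) :
    2 ^ w * rv t w (n + 1) M ≤ 2 ^ t * (2 ^ w) ^ (n + 1) := by
  have h1 := rv_lt t w hw n (M >>> t)
  have h2 : M % 2 ^ t + 1 ≤ 2 ^ t := Nat.mod_lt _ (Nat.two_pow_pos t)
  simp only [rv_succ, Nat.shiftLeft_eq, pow_mul]
  calc 2 ^ w * (rv t w n (M >>> t) + M % 2 ^ t * (2 ^ w) ^ n)
      ≤ 2 ^ w * ((M % 2 ^ t + 1) * (2 ^ w) ^ n) := Nat.mul_le_mul_left _ (by rw [add_mul, one_mul]; omega)
    _ ≤ 2 ^ w * (2 ^ t * (2 ^ w) ^ n) := Nat.mul_le_mul_left _ (Nat.mul_le_mul_right _ h2)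
    _ = 2 ^ t * (2 ^ w) ^ (n + 1) := by ring

lemma prod_decomp (t w : ℕ) (hw : 2 ^ t ≤ 2 ^ w) : ∀ n N M, ∃ A T,
    pk t w (n + 1) N * rv t w (n + 1) M
        = A + (∑ k ∈ range (n + 1), dig t N k * dig t M k) * (2 ^ w) ^ n + (2 ^ w) ^ (n + 1) * T ∧
      2 ^ w * A ≤ (n + 1) * (2 ^ t * 2 ^ t) * (2 ^ w) ^ n := by
  intro n
  induction n with
  | zero =>
    intro N M
    exact ⟨0, 0, by simp [pk_zero, pk_succ, rv_zero, rv_succ, dig_zero], by simp⟩
  | succ n ih =>
    intro N M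
    obtain ⟨A, T, h1, h2⟩ := ih (N >>> t) (M >>> t)
    set B := 2 ^ w with hB
    set R := rv t w (n + 1) (M >>> t)
    set P := pk t w (n + 1) (N >>> t)
    refine ⟨N % 2 ^ t * R + B * A, T + M % 2 ^ t * P, ?_, ?_⟩
    · have e1 : pk t w (n + 1 + 1) N = N % 2 ^ t + P * B := by
        rw [pk_succ, Nat.shiftLeft_eq]
      have e2 : rv t w (n + 1 + 1) M = R + M % 2 ^ t * B ^ (n + 1) := by
        rw [rv_succ, Nat.shiftLeft_eq, pow_mul]
      rw [e1, e2, sum_range_succ' (fun k => dig t N k * dig t M k)]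
      simp only [dig_succ, dig_zero]
      calc (N % 2 ^ t + P * B) * (R + M % 2 ^ t * B ^ (n + 1))
          = N % 2 ^ t * R + N % 2 ^ t * (M % 2 ^ t) * B ^ (n + 1) + B * (P * R)
              + B ^ (n + 1 + 1) * (M % 2 ^ t * P) := by ring
        _ = _ := by rw [h1]; ring
    · have hR : R ≤ B ^ (n + 1) := (rv_lt t w hw _ _).le
      have hN : N % 2 ^ t ≤ 2 ^ t := (Nat.mod_lt _ (Nat.two_pow_pos t)).le
      -- the carry stays below the next slot
      have h4 : B * (N % 2 ^ t * R) ≤ (2 ^ t * 2 ^ t) * B ^ (n + 1) := by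
        have hlt : N % 2 ^ t * R ≤ 2 ^ t * R := Nat.mul_le_mul_right _ hN
        have hR2 : B * R ≤ 2 ^ t * B ^ (n + 1) := rv_top t w hw n (M >>> t)
        calc B * (N % 2 ^ t * R) ≤ B * (2 ^ t * R) := Nat.mul_le_mul_left _ hlt
          _ = 2 ^ t * (B * R) := by ring
          _ ≤ 2 ^ t * (2 ^ t * B ^ (n + 1)) := Nat.mul_le_mul_left _ hR2
          _ = _ := by ring
      calc B * (N % 2 ^ t * R + B * A) = B * (N % 2 ^ t * R) + B * (B * A) := by ring
        _ ≤ (2 ^ t * 2 ^ t) * B ^ (n + 1) + B * ((n + 1) * (2 ^ t * 2 ^ t) * B ^ n) :=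
            Nat.add_le_add h4 (Nat.mul_le_mul_left _ h2)
        _ = _ := by ring

lemma two_pow_le_of_room {p : Par} (hr : 2 * p.r * (2 ^ p.t * 2 ^ p.t) < 2 ^ p.w) (h0 : 0 < p.r) :
    2 ^ p.t ≤ 2 ^ p.w := by
  have h1 : 1 ≤ 2 ^ p.t := Nat.two_pow_pos _
  calc 2 ^ p.t = 1 * (1 * 2 ^ p.t) := by ring
    _ ≤ 2 * p.r * (2 ^ p.t * 2 ^ p.t) :=
      Nat.mul_le_mul (by omega) (Nat.mul_le_mul_right _ h1)
    _ ≤ 2 ^ p.w := hr.le

lemma dot_eq (p : Par) (hr : 2 * p.r * (2 ^ p.t * 2 ^ p.t) < 2 ^ p.w) (a b : ℕ) :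
    dot p a b = ∑ k ∈ range p.r, dig p.t a k * dig p.t b k := by
  rcases h : p.r with _ | n
  · simp [dot, h, pk_zero]
  · have hw := two_pow_le_of_room hr (by omega)
    obtain ⟨A, T, h1, h2⟩ := prod_decomp p.t p.w hw n a b
    rw [h] at hr
    set B := 2 ^ p.w with hB
    set S := ∑ k ∈ range (n + 1), dig p.t a k * dig p.t b k with hS
    have hK : S ≤ (n + 1) * (2 ^ p.t * 2 ^ p.t) := by
      refine le_trans (sum_le_card_nsmul _ _ (2 ^ p.t * 2 ^ p.t) fun k _ =>
        Nat.mul_le_mul (dig_lt _ _ _).le (dig_lt _ _ _).le) ?_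
      simp
    have hB0 : 0 < B := Nat.two_pow_pos _
    have hK1 : (n + 1) * (2 ^ p.t * 2 ^ p.t) < B := by
      have : 0 < 2 ^ p.t * 2 ^ p.t := by positivity
      have : (n + 1) * (2 ^ p.t * 2 ^ p.t) ≤ 2 * (n + 1) * (2 ^ p.t * 2 ^ p.t) :=
        Nat.mul_le_mul_right _ (by omega)
      omega
    have hA : A < B ^ n := by
      have : B * A < B * B ^ n :=
        lt_of_le_of_lt h2 ((Nat.mul_lt_mul_right (pow_pos hB0 n)).mpr hK1)
      exact Nat.lt_of_mul_lt_mul_left this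
    have hdiv : (A + S * B ^ n + B ^ (n + 1) * T) / B ^ n = S + B * T := by
      rw [show A + S * B ^ n + B ^ (n + 1) * T = A + B ^ n * (S + B * T) by ring,
        Nat.add_mul_div_left _ _ (pow_pos hB0 n), Nat.div_eq_of_lt hA, zero_add]
    simp only [dot, h, Nat.add_sub_cancel, Nat.shiftRight_eq_div_pow, pow_mul, ← hB]
    rw [h1, hdiv, Nat.add_mul_mod_self_left]
    exact Nat.mod_eq_of_lt (lt_of_le_of_lt hK hK1)

lemma gram_eq (p : Par) (hr : 2 * p.r * (2 ^ p.t * 2 ^ p.t) < 2 ^ p.w) (a b : ℕ) :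
    gram p a b = (qpos p a b : ℤ) - qneg p a b := by
  simp only [gram, coef, qpos, qneg, dot_eq p hr, sm_eq]
  push_cast
  simp only [sub_mul, mul_sub, sum_sub_distrib, ← sum_mul, ← mul_sum, sum_const, card_range,
    nsmul_eq_mul]
  ring

lemma gram_comm (p : Par) (a b : ℕ) : gram p a b = gram p b a := by
  simp only [gram, mul_comm]

/-! Term lists. -/

/-- total of one slot -/
def total (l : List (ℕ × ℕ)) (s : ℕ) : ℕ := (l.map fun q => if q.1 = s then q.2 else 0).sum

lemma total_le (l : List (ℕ × ℕ)) (s : ℕ) : total l s ≤ (l.map fun q => q.2).sum := by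
  refine List.sum_le_sum fun q _ => ?_
  split <;> simp

lemma accS_eq (wd K : ℕ) : ∀ l : List (ℕ × ℕ), (∀ q ∈ l, q.1 < K) →
    accS wd l = ∑ s ∈ range K, total l s * (2 ^ wd) ^ s
  | [], _ => by simp [accS, total]
  | q :: qs, h => by
    have hq := h q (by simp)
    rw [accS, accS_eq wd K qs fun x hx => h x (List.mem_cons_of_mem _ hx), Nat.shiftLeft_eq, pow_mul]
    simp only [total, List.map_cons, List.sum_cons, add_mul, sum_add_distrib, ite_mul, zero_mul]
    rw [sum_ite_eq, if_pos (mem_range.mpr hq)]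

lemma total_linear (K : ℕ) (f : ℕ → ℝ) : ∀ l : List (ℕ × ℕ), (∀ q ∈ l, q.1 < K) →
    ∑ s ∈ range K, (total l s : ℝ) * f s = (l.map fun q => (q.2 : ℝ) * f q.1).sum
  | [], _ => by simp [total]
  | q :: qs, h => by
    have hq := h q (by simp)
    rw [List.map_cons, List.sum_cons,
      ← total_linear K f qs fun x hx => h x (List.mem_cons_of_mem _ hx)]
    simp only [total, List.map_cons, List.sum_cons, Nat.cast_add, add_mul, sum_add_distrib]
    congr 1
    simp only [Nat.cast_ite, Nat.cast_zero, ite_mul, zero_mul]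
    rw [sum_ite_eq, if_pos (mem_range.mpr hq)]

lemma accS_append (wd : ℕ) : ∀ l m, accS wd (l ++ m) = accS wd l + accS wd m
  | [], m => by simp [accS]
  | q :: qs, m => by simp [accS, accS_append wd qs m, add_assoc]

lemma accRows_flatten (wd : ℕ) : ∀ L, accRows wd L = accS wd L.flatten
  | [] => by simp [accRows, accS]
  | l :: ls => by simp [accRows, accS_append, accRows_flatten wd ls]

lemma accRows_append (wd : ℕ) (L M : List (List (ℕ × ℕ))) :
    accRows wd (L ++ M) = accRows wd L + accRows wd M := by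
  simp [accRows_flatten, accS_append]

lemma slot_sum (wd : ℕ) : ∀ K (T : ℕ → ℕ), (∀ s, T s < 2 ^ wd) → ∀ s < K,
    slot wd (∑ u ∈ range K, T u * (2 ^ wd) ^ u) s = T s := by
  intro K
  induction K with
  | zero => intro T _ s hs; omega
  | succ K ih =>
    intro T hT s hs
    have hB0 : 0 < 2 ^ wd := Nat.two_pow_pos _
    have e : ∑ u ∈ range (K + 1), T u * (2 ^ wd) ^ u
        = T 0 + 2 ^ wd * ∑ u ∈ range K, T (u + 1) * (2 ^ wd) ^ u := by
      rw [sum_range_succ', mul_sum, add_comm]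
      congr 1
      · simp
      · exact sum_congr rfl fun u _ => by ring
    rw [e, slot, Nat.shiftRight_eq_div_pow, pow_mul]
    rcases s with _ | s
    · rw [pow_zero, Nat.div_one, Nat.add_mul_mod_self_left, Nat.mod_eq_of_lt (hT 0)]
    · rw [pow_succ', ← Nat.div_div_eq_div_mul, Nat.add_mul_div_left _ _ hB0,
        Nat.div_eq_of_lt (hT 0), zero_add]
      have := ih (fun u => T (u + 1)) (fun u => hT _) s (by omega)
      rwa [slot, Nat.shiftRight_eq_div_pow, pow_mul] at this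

lemma slot_accS (wd K : ℕ) (l : List (ℕ × ℕ)) (hK : ∀ q ∈ l, q.1 < K)
    (hsum : (l.map fun q => q.2).sum < 2 ^ wd) (s : ℕ) (hs : s < K) :
    slot wd (accS wd l) s = total l s := by
  rw [accS_eq wd K l hK]
  exact slot_sum wd K _ (fun u => lt_of_le_of_lt (total_le l u) hsum) s hs

lemma sum_pairs (f : ℕ → ℝ) : ∀ K, ∑ s ∈ range (2 * K), f s
    = ∑ k ∈ range K, (f (2 * k) + f (2 * k + 1))
  | 0 => by simp
  | K + 1 => by
    rw [show 2 * (K + 1) = 2 * K + 1 + 1 by ring, sum_range_succ, sum_range_succ, sum_pairs f K,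
      sum_range_succ]
    ring

/-- a linear combination given by two term lists is read from their accumulators -/
theorem evalL_sub_eq_lin (wd K : ℕ) (lp ln : List (ℕ × ℕ))
    (hp : ∀ q ∈ lp, q.1 < 2 * K) (hn : ∀ q ∈ ln, q.1 < 2 * K)
    (hps : (lp.map fun q => q.2).sum < 2 ^ wd) (hns : (ln.map fun q => q.2).sum < 2 ^ wd)
    {SP SN : ℕ} (hSP : accS wd lp = SP) (hSN : accS wd ln = SN) (v : ℕ → ℝ) :
    evalL v lp - evalL v ln = lin K (coX wd SP SN) (coY wd SP SN) v := by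
  subst hSP hSN
  simp only [evalL]
  rw [← total_linear (2 * K) (phi v) lp hp, ← total_linear (2 * K) (phi v) ln hn,
    ← sum_sub_distrib, sum_pairs, lin]
  refine sum_congr rfl fun k hk => ?_
  have hk : k < K := mem_range.mp hk
  simp only [coX, coY, slot_accS wd (2 * K) lp hp hps _ (show 2 * k < 2 * K by omega),
    slot_accS wd (2 * K) lp hp hps _ (show 2 * k + 1 < 2 * K by omega),
    slot_accS wd (2 * K) ln hn hns _ (show 2 * k < 2 * K by omega),
    slot_accS wd (2 * K) ln hn hns _ (show 2 * k + 1 < 2 * K by omega), phi]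
  rw [show 2 * k % 2 = 0 by omega, show 2 * k / 2 = k by omega, show (2 * k + 1) % 2 = 1 by omega,
    show (2 * k + 1) / 2 = k by omega]
  push_cast
  ring

/-! One positive semidefinite block. -/

lemma phi_code (p : Par) (v : ℕ → ℝ) (c : ℕ) :
    (6 : ℝ) ^ hOf p c * phi v (slotOf p c) = Real.sqrt 6 ^ jOf p c * v (iOf p c) := by
  simp only [phi, jOf, iOf, pow_add, pow_mul]
  rw [Real.sq_sqrt (by norm_num)]
  ring

lemma tail_eval (p : Par) (hr : 2 * p.r * (2 ^ p.t * 2 ^ p.t) < 2 ^ p.w) (v : ℕ → ℝ) (a : ℕ) :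
    ∀ (ys : List (ℕ × ℕ)) (C : ℕ),
    evalL v (tailP p a ys C) - evalL v (tailN p a ys C) =
      ∑ j ∈ range ys.length, 2 * (gram p a (ys.getD j (0, 0)).1 : ℝ) *
        (Real.sqrt 6 ^ jOf p ((C >>> (p.cb * j)) % 2 ^ p.cb)
          * v (iOf p ((C >>> (p.cb * j)) % 2 ^ p.cb))) := by
  intro ys
  induction ys with
  | nil => intro C; simp [tailP, tailN, evalL]
  | cons y ys ih =>
    intro C
    have h := ih (C >>> p.cb)
    simp only [evalL, tailP, tailN, List.map_cons, List.sum_cons, List.length_cons] at h ⊢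
    rw [sum_range_succ']
    simp only [List.getD_cons_succ, List.getD_cons_zero, mul_zero, Nat.shiftRight_zero]
    have e : ∀ j, C >>> (p.cb * (j + 1)) = C >>> p.cb >>> (p.cb * j) := fun j => by
      rw [← Nat.shiftRight_add]; congr 1; ring
    simp only [e, ← phi_code, gram_eq p hr] at h ⊢
    push_cast at h ⊢
    linear_combination h

lemma rows_eval (p : Par) (hr : 2 * p.r * (2 ^ p.t * 2 ^ p.t) < 2 ^ p.w) (v : ℕ → ℝ) :
    ∀ (L : List (ℕ × ℕ)) (g : ℕ → ℕ → ℝ), (∀ a b, g a b = g b a) →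
    (∀ a b, a ≤ b → b < L.length →
      g a b = Real.sqrt 6 ^ jOf p (codeAt p L a b) * v (iOf p (codeAt p L a b))) →
    evalL v (rowsP p L).flatten - evalL v (rowsN p L).flatten =
      ∑ a ∈ range L.length, ∑ b ∈ range L.length,
        (gram p (L.getD a (0, 0)).1 (L.getD b (0, 0)).1 : ℝ) * g a b := by
  intro L
  induction L with
  | nil => intro g _ _; simp [rowsP, rowsN, evalL]
  | cons x xs ih =>
    intro g hs hv
    have h := ih (fun a b => g (a + 1) (b + 1)) (fun a b => hs _ _) fun a b hab hb => by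
      have := hv (a + 1) (b + 1) (by omega) (by simp only [List.length_cons]; omega)
      simpa [codeAt, List.getD_cons_succ] using this
    have ht := tail_eval p hr v x.1 xs (x.2 >>> p.cb)
    have e00 := hv 0 0 le_rfl (by simp)
    have e0 : ∀ j ∈ range xs.length, g 0 (j + 1) =
        Real.sqrt 6 ^ jOf p ((x.2 >>> p.cb >>> (p.cb * j)) % 2 ^ p.cb)
          * v (iOf p ((x.2 >>> p.cb >>> (p.cb * j)) % 2 ^ p.cb)) := fun j hj => by
      rw [hv 0 (j + 1) (by omega) (by simp only [List.length_cons]; have := mem_range.mp hj; omega),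
        codeAt, List.getD_cons_zero, ← Nat.shiftRight_add,
        show p.cb + p.cb * j = p.cb * (j + 1 - 0) by rw [Nat.sub_zero]; ring]
    simp only [codeAt, List.getD_cons_zero, Nat.sub_zero, mul_zero, Nat.shiftRight_zero] at e00
    simp only [evalL, rowsP, rowsN, List.flatten_cons, List.cons_append, List.map_cons,
      List.map_append, List.sum_cons, List.sum_append, List.length_cons] at h ht ⊢
    rw [sum_range_succ']
    simp only [sum_range_succ' _ xs.length, List.getD_cons_succ, List.getD_cons_zero,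
      sum_add_distrib]
    rw [← h]
    have hsym : ∑ j ∈ range xs.length,
          (gram p (xs.getD j (0, 0)).1 x.1 : ℝ) * g (j + 1) 0
        = ∑ j ∈ range xs.length, (gram p x.1 (xs.getD j (0, 0)).1 : ℝ) * g 0 (j + 1) :=
      sum_congr rfl fun j _ => by rw [gram_comm, hs]
    rw [hsym]
    have htail : ∑ j ∈ range xs.length, 2 * ((gram p x.1 (xs.getD j (0, 0)).1 : ℝ)) *
        (Real.sqrt 6 ^ jOf p ((x.2 >>> p.cb >>> (p.cb * j)) % 2 ^ p.cb)
          * v (iOf p ((x.2 >>> p.cb >>> (p.cb * j)) % 2 ^ p.cb)))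
        = 2 * ∑ j ∈ range xs.length, (gram p x.1 (xs.getD j (0, 0)).1 : ℝ) * g 0 (j + 1) := by
      rw [mul_sum]
      exact sum_congr rfl fun j hj => by rw [e0 j hj]; ring
    rw [htail] at ht
    rw [e00, gram_eq p hr x.1 x.1, ← phi_code]
    push_cast
    linear_combination ht

lemma slot_lt {p : Par} (h : 1 ≤ p.sb) (c : ℕ) : slotOf p c < 2 * 2 ^ (p.sb - 1) := by
  rw [← pow_succ', Nat.sub_add_cancel h]
  exact Nat.mod_lt _ (Nat.two_pow_pos _)

lemma sm_le (t r N : ℕ) : sm t r N ≤ r * 2 ^ t := by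
  rw [sm_eq]
  exact le_trans (sum_le_card_nsmul _ _ _ fun k _ => (dig_lt t N k).le) (by simp)

lemma qpos_term_le (p : Par) (a b c m : ℕ) (hm : m ≤ 2) :
    m * qpos p a b * 6 ^ hOf p c ≤ termMax p := by
  refine Nat.mul_le_mul (Nat.mul_le_mul hm ?_)
    (Nat.pow_le_pow_right (by norm_num) (by unfold hOf; omega))
  have : dot p a b ≤ 2 ^ p.w := (Nat.mod_lt _ (Nat.two_pow_pos _)).le
  unfold qpos
  omega

lemma qneg_term_le (p : Par) (a b c m : ℕ) (hm : m ≤ 2) :
    m * qneg p a b * 6 ^ hOf p c ≤ termMax p := by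
  refine Nat.mul_le_mul (Nat.mul_le_mul hm ?_)
    (Nat.pow_le_pow_right (by norm_num) (by unfold hOf; omega))
  have h1 := sm_le p.t p.r a
  have h2 := sm_le p.t p.r b
  have h3 : qneg p a b ≤ off p * (2 * (p.r * 2 ^ p.t)) := Nat.mul_le_mul_left _ (by omega)
  exact le_trans h3 (Nat.le_add_left _ _)

/-- shape of a term list -/
def Small (p : Par) (n : ℕ) (l : List (ℕ × ℕ)) : Prop :=
  l.length ≤ n ∧ ∀ q ∈ l, (∃ c, q.1 = slotOf p c) ∧ q.2 ≤ termMax p

lemma tail_small (p : Par) (a : ℕ) : ∀ (ys : List (ℕ × ℕ)) (C : ℕ),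
    Small p ys.length (tailP p a ys C) ∧ Small p ys.length (tailN p a ys C)
  | [], C => by simp [Small, tailP, tailN]
  | y :: ys, C => by
    obtain ⟨h1, h2⟩ := tail_small p a ys (C >>> p.cb)
    constructor
    · refine ⟨by simpa [tailP] using h1.1, fun q hq => ?_⟩
      rcases List.mem_cons.mp hq with rfl | hq
      · exact ⟨⟨_, rfl⟩, qpos_term_le p _ _ _ _ le_rfl⟩
      · exact h1.2 q hq
    · refine ⟨by simpa [tailN] using h2.1, fun q hq => ?_⟩
      rcases List.mem_cons.mp hq with rfl | hq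
      · exact ⟨⟨_, rfl⟩, qneg_term_le p _ _ _ _ le_rfl⟩
      · exact h2.2 q hq

lemma rows_small (p : Par) : ∀ L : List (ℕ × ℕ),
    Small p (L.length * L.length) (rowsP p L).flatten ∧
      Small p (L.length * L.length) (rowsN p L).flatten
  | [] => by simp [Small, rowsP, rowsN]
  | x :: xs => by
    obtain ⟨h1, h2⟩ := rows_small p xs
    obtain ⟨t1, t2⟩ := tail_small p x.1 xs (x.2 >>> p.cb)
    constructor
    · refine ⟨?_, fun q hq => ?_⟩
      · simp only [rowsP, List.flatten_cons, List.length_append, List.length_cons]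
        nlinarith [h1.1, t1.1]
      · simp only [rowsP, List.flatten_cons, List.mem_append, List.mem_cons] at hq
        rcases hq with (rfl | hq) | hq
        · exact ⟨⟨_, rfl⟩, by simpa using qpos_term_le p x.1 x.1 (x.2 % 2 ^ p.cb) 1 (by norm_num)⟩
        · exact t1.2 q hq
        · exact h1.2 q hq
    · refine ⟨?_, fun q hq => ?_⟩
      · simp only [rowsN, List.flatten_cons, List.length_append, List.length_cons]
        nlinarith [h2.1, t2.1]
      · simp only [rowsN, List.flatten_cons, List.mem_append, List.mem_cons] at hq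
        rcases hq with (rfl | hq) | hq
        · exact ⟨⟨_, rfl⟩, by simpa using qneg_term_le p x.1 x.1 (x.2 % 2 ^ p.cb) 1 (by norm_num)⟩
        · exact t2.2 q hq
        · exact h2.2 q hq

lemma small_sum {p : Par} {n : ℕ} {l : List (ℕ × ℕ)} (h : Small p n l) :
    (l.map fun q => q.2).sum ≤ n * termMax p := by
  refine le_trans (List.sum_le_card_nsmul _ (termMax p) ?_) ?_
  · intro x hx
    obtain ⟨q, hq, rfl⟩ := List.mem_map.mp hx
    exact (h.2 q hq).2
  · rw [List.length_map, smul_eq_mul]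
    exact Nat.mul_le_mul_right _ h.1

lemma gram_form_nonneg (p : Par) (L : List (ℕ × ℕ)) (n : ℕ) (g : ℕ → ℕ → ℝ)
    (hpos : ∀ z : ℕ → ℝ, 0 ≤ ∑ a ∈ range n, ∑ b ∈ range n, z a * z b * g a b) :
    0 ≤ ∑ a ∈ range n, ∑ b ∈ range n,
      (gram p (L.getD a (0, 0)).1 (L.getD b (0, 0)).1 : ℝ) * g a b := by
  simp only [gram, Int.cast_sum, Int.cast_mul, sum_mul]
  rw [sum_congr rfl fun a _ => sum_comm, sum_comm]
  exact sum_nonneg fun k _ => hpos fun a => (coef p (L.getD a (0, 0)).1 k : ℝ)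

/-- a packed Gram factor turns a positive form into a nonnegative combination -/
theorem block_nonneg (p : Par) (L : List (ℕ × ℕ)) (hok : ok p L.length = true)
    (g : ℕ → ℕ → ℝ) (v : ℕ → ℝ)
    (hpos : ∀ z : ℕ → ℝ, 0 ≤ ∑ a ∈ range L.length, ∑ b ∈ range L.length, z a * z b * g a b)
    (hsymm : ∀ a b, g a b = g b a)
    (hval : ∀ a b, a ≤ b → b < L.length →
      g a b = Real.sqrt 6 ^ jOf p (codeAt p L a b) * v (iOf p (codeAt p L a b)))
    {SP SN : ℕ} (hSP : chunkP p L 0 L.length = SP) (hSN : chunkN p L 0 L.length = SN) :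
    0 ≤ lin (2 ^ (p.sb - 1)) (coX p.wd SP SN) (coY p.wd SP SN) v := by
  simp only [ok, Nat.blt, Bool.and_eq_true, Nat.ble_eq] at hok
  obtain ⟨⟨hsb, hr⟩, hwd⟩ := hok
  have hlen : ∀ M : List (ℕ × ℕ), (rowsP p M).length = M.length ∧ (rowsN p M).length = M.length := by
    intro M; induction M <;> simp_all [rowsP, rowsN]
  have hP : accS p.wd (rowsP p L).flatten = SP := by
    rw [← accRows_flatten, ← hSP, chunkP, List.drop_zero, List.take_of_length_le (hlen L).1.le]
  have hN : accS p.wd (rowsN p L).flatten = SN := by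
    rw [← accRows_flatten, ← hSN, chunkN, List.drop_zero, List.take_of_length_le (hlen L).2.le]
  obtain ⟨sP, sN⟩ := rows_small p L
  have bd : ∀ {l}, Small p (L.length * L.length) l →
      (∀ q ∈ l, q.1 < 2 * 2 ^ (p.sb - 1)) ∧ (l.map fun q => q.2).sum < 2 ^ p.wd := fun h =>
    ⟨fun q hq => by obtain ⟨⟨c, hc⟩, -⟩ := h.2 q hq; rw [hc]; exact slot_lt hsb c,
      lt_of_le_of_lt (small_sum h) hwd⟩
  rw [← evalL_sub_eq_lin p.wd _ _ _ (bd sP).1 (bd sN).1 (bd sP).2 (bd sN).2 hP hN v,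
    rows_eval p hr v L g hsymm hval]
  exact gram_form_nonneg p L _ g hpos

lemma rowsP_drop (p : Par) : ∀ (L : List (ℕ × ℕ)) s, rowsP p (L.drop s) = (rowsP p L).drop s
  | _, 0 => by simp
  | [], s + 1 => by simp [rowsP]
  | x :: xs, s + 1 => by simp [rowsP, rowsP_drop p xs s]

lemma rowsN_drop (p : Par) : ∀ (L : List (ℕ × ℕ)) s, rowsN p (L.drop s) = (rowsN p L).drop s
  | _, 0 => by simp
  | [], s + 1 => by simp [rowsN]
  | x :: xs, s + 1 => by simp [rowsN, rowsN_drop p xs s]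

/-- chunks of rows can be checked separately -/
theorem chunkP_add (p : Par) (L : List (ℕ × ℕ)) (s m k : ℕ) :
    chunkP p L s (m + k) = chunkP p L s m + chunkP p L (s + m) k := by
  simp only [chunkP, rowsP_drop, List.take_add, accRows_append, List.drop_drop]

/-- chunks of rows can be checked separately -/
theorem chunkN_add (p : Par) (L : List (ℕ × ℕ)) (s m k : ℕ) :
    chunkN p L s (m + k) = chunkN p L s m + chunkN p L (s + m) k := by
  simp only [chunkN, rowsN_drop, List.take_add, accRows_append, List.drop_drop]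

/-! Extra linear parts and the final bound. -/

/-- check of a term list: slots in range, total below the slot capacity -/
def listOk (wd K : ℕ) (l : List (ℕ × ℕ)) : Bool :=
  l.all (fun q => Nat.blt q.1 (2 * K)) && Nat.blt (l.map fun q => q.2).sum (2 ^ wd)

/-- a linear combination given by checked term lists -/
theorem terms_eq_lin (wd K : ℕ) (lp ln : List (ℕ × ℕ)) (hp : listOk wd K lp = true)
    (hn : listOk wd K ln = true) {SP SN : ℕ} (hSP : accS wd lp = SP) (hSN : accS wd ln = SN)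
    (v : ℕ → ℝ) :
    evalL v lp - evalL v ln = lin K (coX wd SP SN) (coY wd SP SN) v := by
  simp only [listOk, Nat.blt, Bool.and_eq_true, List.all_eq_true, Nat.ble_eq] at hp hn
  exact evalL_sub_eq_lin wd K lp ln (fun q hq => hp.1 q hq) (fun q hq => hn.1 q hq) hp.2 hn.2
    hSP hSN v

lemma lin_add (K : ℕ) (X Y X' Y' : ℕ → ℤ) (v : ℕ → ℝ) :
    lin K (fun k => X k + X' k) (fun k => Y k + Y' k) v = lin K X Y v + lin K X' Y' v := by
  simp only [lin, ← sum_add_distrib]
  exact sum_congr rfl fun k _ => by push_cast; ring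

lemma lin_smul (K : ℕ) (m : ℤ) (X Y : ℕ → ℤ) (v : ℕ → ℝ) :
    lin K (fun k => m * X k) (fun k => m * Y k) v = (m : ℝ) * lin K X Y v := by
  simp only [lin, mul_sum]
  exact sum_congr rfl fun k _ => by push_cast; ring

/-- an executable sum -/
def sumUp (f : ℕ → ℤ) : ℕ → ℤ
  | 0 => 0
  | n + 1 => sumUp f n + f n

lemma sumUp_eq (f : ℕ → ℤ) : ∀ n, sumUp f n = ∑ k ∈ range n, f k
  | 0 => by simp [sumUp]
  | n + 1 => by rw [sumUp, sumUp_eq f n, sum_range_succ]

/-- scaled upper bound for one coefficient against a moment bounded by `B` -/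
def upper (q s : ℕ) (x y : ℤ) : ℤ := ((x * 2 ^ q + y * s).natAbs : ℤ) + (y.natAbs : ℤ)

/-- scaled upper bound for the whole combination; index zero is the constant moment -/
def finalVal (q s K c : ℕ) (B : ℕ → ℕ) (X Y : ℕ → ℤ) : ℤ :=
  (c : ℤ) * (X 0 * 2 ^ q + Y 0 * s + (Y 0).natAbs)
    + sumUp (fun k => (B (k + 1) : ℤ) * upper q s (X (k + 1)) (Y (k + 1))) (K - 1)

/-- the checker for the final bound -/
def finalOk (q s K c : ℕ) (B : ℕ → ℕ) (X Y : ℕ → ℤ) : Bool :=
  Nat.ble 1 K && Nat.ble (s * s) (6 * (2 ^ q * 2 ^ q))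
    && Nat.ble (6 * (2 ^ q * 2 ^ q)) ((s + 1) * (s + 1))
    && decide (finalVal q s K c B X Y < 0)

lemma coeff_le (q s : ℕ) (h1 : (s : ℝ) ≤ Real.sqrt 6 * 2 ^ q)
    (h2 : Real.sqrt 6 * 2 ^ q ≤ s + 1) (x y : ℤ) :
    ((x : ℝ) + (y : ℝ) * Real.sqrt 6) * 2 ^ q ≤ (x : ℝ) * 2 ^ q + y * s + |(y : ℝ)| := by
  have h : (y : ℝ) * (Real.sqrt 6 * 2 ^ q - s) ≤ |(y : ℝ)| := by
    refine le_trans (le_abs_self _) ?_
    rw [abs_mul]
    exact mul_le_of_le_one_right (abs_nonneg _) (abs_le.mpr ⟨by linarith, by linarith⟩)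
  nlinarith [h]

lemma coeff_abs_le (q s : ℕ) (h1 : (s : ℝ) ≤ Real.sqrt 6 * 2 ^ q)
    (h2 : Real.sqrt 6 * 2 ^ q ≤ s + 1) (x y : ℤ) :
    |((x : ℝ) + (y : ℝ) * Real.sqrt 6)| * 2 ^ q ≤ (upper q s x y : ℝ) := by
  have e : ((upper q s x y : ℤ) : ℝ) = |(x : ℝ) * 2 ^ q + y * s| + |(y : ℝ)| := by
    simp [upper, Nat.cast_natAbs]
  rw [e, ← abs_of_pos (show (0 : ℝ) < 2 ^ q by positivity), ← abs_mul,
    abs_of_pos (show (0 : ℝ) < 2 ^ q by positivity),
    show ((x : ℝ) + y * Real.sqrt 6) * 2 ^ q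
      = ((x : ℝ) * 2 ^ q + y * s) + y * (Real.sqrt 6 * 2 ^ q - s) by ring]
  refine le_trans (abs_add_le _ _) (add_le_add le_rfl ?_)
  rw [abs_mul]
  exact mul_le_of_le_one_right (abs_nonneg _) (abs_le.mpr ⟨by linarith, by linarith⟩)

/-- a checked residual makes the combination negative -/
theorem lin_neg (q s K c : ℕ) (B : ℕ → ℕ) (X Y : ℕ → ℤ) (hok : finalOk q s K c B X Y = true)
    (v : ℕ → ℝ) (hv0 : v 0 = (c : ℝ)) (hv : ∀ k, 1 ≤ k → k < K → |v k| ≤ (B k : ℝ)) :
    lin K X Y v < 0 := by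
  simp only [finalOk, Bool.and_eq_true, Nat.ble_eq, decide_eq_true_eq] at hok
  obtain ⟨⟨⟨hK, hs1⟩, hs2⟩, hneg⟩ := hok
  have hq : (0 : ℝ) < 2 ^ q := by positivity
  have h6 : Real.sqrt 6 * 2 ^ q = Real.sqrt (6 * (2 ^ q * 2 ^ q)) := by
    rw [Real.sqrt_mul (by norm_num), Real.sqrt_mul_self hq.le]
  have h1 : (s : ℝ) ≤ Real.sqrt 6 * 2 ^ q := by
    rw [h6]; exact Real.le_sqrt_of_sq_le (by rw [sq]; exact_mod_cast hs1)
  have h2 : Real.sqrt 6 * 2 ^ q ≤ s + 1 := by
    rw [h6, Real.sqrt_le_left (by positivity), sq]; exact_mod_cast hs2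
  obtain ⟨n, rfl⟩ : ∃ n, K = n + 1 := ⟨K - 1, by omega⟩
  have hneg' : (finalVal q s (n + 1) c B X Y : ℝ) < 0 := by exact_mod_cast hneg
  simp only [finalVal, Nat.add_sub_cancel, sumUp_eq] at hneg'
  push_cast [Nat.cast_natAbs] at hneg'
  refine neg_of_mul_neg_left ?_ hq.le
  refine lt_of_le_of_lt ?_ hneg'
  rw [lin, sum_mul, sum_range_succ', add_comm]
  refine add_le_add ?_ (sum_le_sum fun k hk => ?_)
  · rw [hv0, mul_right_comm, mul_comm (c : ℝ)]
    exact mul_le_mul_of_nonneg_right (coeff_le q s h1 h2 _ _) (Nat.cast_nonneg c)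
  · have hk : k < n := mem_range.mp hk
    refine le_trans (le_abs_self _) ?_
    rw [abs_mul, abs_mul, abs_of_pos hq, mul_right_comm, mul_comm ((B (k + 1) : ℝ))]
    exact mul_le_mul (coeff_abs_le q s h1 h2 _ _) (hv _ (by omega) (by omega)) (abs_nonneg _)
      (le_trans (by positivity) (coeff_abs_le q s h1 h2 (X (k + 1)) (Y (k + 1))))

end Vale.Agent.P355.Cert.Packed
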