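import Vale.Agent.P355.Cert.Semantics

/-!
`Phi` as a combination of six diagram moments, and its invariance under transposition.
-/

open scoped BigOperators ComplexConjugate
open Finset

namespace Vale.Agent.P355.Cert

/-- sum of all squares -/
def dF : Dg := ⟨1, 1, [⟨0, 0, 2⟩]⟩
/-- column quartic -/
def dR : Dg := ⟨2, 1, [⟨0, 0, 2⟩, ⟨1, 0, -2⟩]⟩
/-- row quartic -/
def dR' : Dg := ⟨1, 2, [⟨0, 0, 2⟩, ⟨0, 1, -2⟩]⟩
/-- mixed sextic -/
def dZ : Dg := ⟨2, 2, [⟨0, 0, -2⟩, ⟨0, 1, 2⟩, ⟨1, 0, 2⟩]⟩
/-- opposite pair correlations -/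
def dG : Dg := ⟨2, 2, [⟨0, 0, 2⟩, ⟨1, 0, -1⟩, ⟨1, 1, 2⟩, ⟨0, 1, -1⟩]⟩
/-- phase invariant -/
def dI : Dg := ⟨2, 2, [⟨0, 0, 2⟩, ⟨1, 0, -2⟩, ⟨1, 1, 2⟩, ⟨0, 1, -2⟩]⟩

variable {h : Fin 6 → Fin 6 → ℂ}

lemma zpow_neg_nat (hh : InM h) (l k : Fin 6) (n : ℕ) :
    h l k ^ (-(n : ℤ)) = conj (h l k) ^ n := by
  rw [← conj_zpow_inM hh, zpow_natCast, map_pow]

lemma zpow_neg_one' (hh : InM h) (l k : Fin 6) : h l k ^ (-1 : ℤ) = conj (h l k) := by
  simpa using zpow_neg_nat hh l k 1

lemma zpow_neg_two' (hh : InM h) (l k : Fin 6) : h l k ^ (-2 : ℤ) = conj (h l k) ^ 2 := by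
  simpa using zpow_neg_nat hh l k 2

lemma zpow_two' (l k : Fin 6) : h l k ^ (2 : ℤ) = h l k ^ 2 := zpow_ofNat _ 2

lemma hom_dF : hom h dF = ∑ l, rowSq h l := by
  simp [hom_eq_val, val, dF, List.range_succ, sumV, mon, rowSq, zpow_two']

lemma hom_dR (hh : InM h) : hom h dR = ∑ k, colSq h k * conj (colSq h k) := by
  simp only [hom_eq_val, val, dR, List.range_succ, List.range_zero, List.nil_append,
    List.cons_append, sumV, mon, colSq, List.map_cons, List.map_nil, List.prod_cons,
    List.prod_nil, Function.update_self, mul_one, zpow_two', zpow_neg_two' hh, map_sum, map_pow,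
    ne_eq, zero_ne_one, not_false_eq_true, one_ne_zero, Function.update_of_ne, Finset.sum_mul_sum]
  exact (Finset.sum_congr rfl fun _ _ => Finset.sum_comm).trans Finset.sum_comm

lemma hom_dR' (hh : InM h) : hom h dR' = ∑ l, rowSq h l * conj (rowSq h l) := by
  simp only [hom_eq_val, val, dR', List.range_succ, List.range_zero, List.nil_append,
    List.cons_append, sumV, mon, rowSq, List.map_cons, List.map_nil, List.prod_cons,
    List.prod_nil, Function.update_self, mul_one, zpow_two', zpow_neg_two' hh, map_sum, map_pow,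
    ne_eq, zero_ne_one, not_false_eq_true, one_ne_zero, Function.update_of_ne, Finset.sum_mul_sum]

lemma hom_dZ (hh : InM h) :
    hom h dZ = ∑ l, ∑ k, rowSq h l * colSq h k * conj (h l k) ^ 2 := by
  simp only [hom_eq_val, val, dZ, List.range_succ, List.range_zero, List.nil_append,
    List.cons_append, sumV, mon, rowSq, colSq, List.map_cons, List.map_nil, List.prod_cons,
    List.prod_nil, Function.update_self, mul_one, zpow_two', zpow_neg_two' hh,
    ne_eq, zero_ne_one, not_false_eq_true, one_ne_zero, Function.update_of_ne, Finset.sum_mul_sum,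
    Finset.sum_mul]
  refine Finset.sum_congr rfl fun l _ => ?_
  rw [Finset.sum_comm]
  refine Finset.sum_congr rfl fun k _ => ?_
  simp only [Finset.mul_sum, Finset.sum_mul]
  try rw [Finset.sum_comm]
  exact Finset.sum_congr rfl fun _ _ => Finset.sum_congr rfl fun _ _ => by ring

lemma hom_dG (hh : InM h) :
    hom h dG = ∑ l, ∑ m, pairG h l m * pairG h m l := by
  simp only [hom_eq_val, val, dG, List.range_succ, List.range_zero, List.nil_append,
    List.cons_append, sumV, mon, pairG, List.map_cons, List.map_nil, List.prod_cons,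
    List.prod_nil, Function.update_self, mul_one, zpow_two', zpow_neg_one' hh,
    ne_eq, zero_ne_one, not_false_eq_true, one_ne_zero, Function.update_of_ne, Finset.sum_mul_sum]
  exact Finset.sum_congr rfl fun _ _ => Finset.sum_congr rfl fun _ _ =>
    Finset.sum_congr rfl fun _ _ => Finset.sum_congr rfl fun _ _ => by ring

lemma hom_dI (hh : InM h) :
    hom h dI = ∑ l, ∑ m,
      (∑ k, (h l k * conj (h m k)) ^ 2) * conj (∑ k, (h l k * conj (h m k)) ^ 2) := by
  simp only [hom_eq_val, val, dI, List.range_succ, List.range_zero, List.nil_append,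
    List.cons_append, sumV, mon, List.map_cons, List.map_nil, List.prod_cons, map_sum, map_pow,
    map_mul, Complex.conj_conj, List.prod_nil, Function.update_self, mul_one, zpow_two',
    zpow_neg_two' hh, ne_eq, zero_ne_one, not_false_eq_true, one_ne_zero, Function.update_of_ne,
    Finset.sum_mul_sum]
  exact Finset.sum_congr rfl fun _ _ => Finset.sum_congr rfl fun _ _ =>
    Finset.sum_congr rfl fun _ _ => Finset.sum_congr rfl fun _ _ => by ring

lemma mom_dF : mom h dF = termF h := by rw [mom, hom_dF, termF]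

lemma re_mul_conj (z : ℂ) : (z * conj z).re = Complex.normSq z := by
  rw [Complex.mul_conj, Complex.ofReal_re]

lemma mom_dR (hh : InM h) : mom h dR = termR h + 36 := by
  simp only [mom, hom_dR hh, termR, Complex.re_sum, re_mul_conj, sub_add_cancel]

lemma mom_dR' (hh : InM h) : mom h dR' = termR' h + 36 := by
  simp only [mom, hom_dR' hh, termR', Complex.re_sum, re_mul_conj, sub_add_cancel]

lemma mom_dZ (hh : InM h) : mom h dZ = termZ h := by rw [mom, hom_dZ hh, termZ]

lemma mom_dG (hh : InM h) : mom h dG = termG2 h := by rw [mom, hom_dG hh, termG2]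

lemma mom_dI (hh : InM h) : mom h dI = termInv h + 216 := by
  have e : ∀ l, ∑ k, (h l k * conj (h l k)) ^ 2 = 6 := fun l => by
    simp [Complex.mul_conj', hh.unimod]
  have hl : ∀ l, (∑ m, Complex.normSq (∑ k, (h l k * conj (h m k)) ^ 2))
      = (∑ m, if l = m then 0 else Complex.normSq (∑ k, (h l k * conj (h m k)) ^ 2)) + 36 := by
    intro l
    rw [← Finset.add_sum_erase _ _ (Finset.mem_univ l),
      ← Finset.add_sum_erase (f := fun m => if l = m then 0 else
        Complex.normSq (∑ k, (h l k * conj (h m k)) ^ 2)) _ (Finset.mem_univ l), e l]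
    rw [Finset.sum_congr rfl fun m hm => if_neg (Ne.symm (Finset.ne_of_mem_erase hm))]
    simp [Complex.normSq]
    ring
  simp only [mom, hom_dI hh, Complex.re_sum, re_mul_conj, termInv, hl, Finset.sum_add_distrib,
    Finset.sum_const, Finset.card_univ, Fintype.card_fin, nsmul_eq_mul]
  norm_num

/-- `Phi` through the moments of six diagrams -/
theorem phi_eq_mom (hh : InM h) : Phi h = -5 * mom h dF + 3 * mom h dR + 3 * mom h dR'
    + mom h dZ - 2 * mom h dG + 3 / 5 * mom h dI - 1728 / 5 := by
  rw [mom_dF, mom_dR hh, mom_dR' hh, mom_dZ hh, mom_dG hh, mom_dI hh, Phi]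
  ring

lemma mom_transpose_eq (D : Dg) : mom (fun k l => h l k) D = mom h D.tr := by
  rw [mom, mom, hom_tr]

lemma hom_perm {n m : ℕ} {E E' : List Edge} (hE : E.Perm E') :
    hom h ⟨n, m, E⟩ = hom h ⟨n, m, E'⟩ := by
  simp only [hom_eq_val]
  exact val_perm (List.Perm.refl _) (List.Perm.refl _) hE _ _

/-- `Phi` does not change under transposition -/
theorem phi_transpose (hh : InM h) : Phi (fun k l => h l k) = Phi h := by
  have hR : dR.tr = dR' := rfl
  have hR' : dR'.tr = dR := rfl
  have hZ : mom h dZ.tr = mom h dZ := congrArg Complex.re (hom_perm (by decide))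
  have hG : mom h dG.tr = mom h dG := congrArg Complex.re (hom_perm (by decide))
  have hI : mom h dI.tr = mom h dI := congrArg Complex.re (hom_perm (by decide))
  rw [phi_eq_mom (inM_transpose hh), phi_eq_mom hh]
  simp only [mom_transpose_eq, hR, hR', hZ, hG, hI, show dF.tr = dF from rfl]
  ring

/-- twice `Phi` through the symmetrised moments -/
theorem two_phi_eq (hh : InM h) :
    2 * Phi h = -5 * (mom h dF + mom (fun k l => h l k) dF)
      + 6 * (mom h dR + mom (fun k l => h l k) dR)
      + (mom h dZ + mom (fun k l => h l k) dZ)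
      - 2 * (mom h dG + mom (fun k l => h l k) dG)
      + 3 / 5 * (mom h dI + mom (fun k l => h l k) dI) - 3456 / 5 := by
  have h1 := phi_eq_mom hh
  have h2 := phi_eq_mom (inM_transpose hh)
  have h3 := phi_transpose hh
  have e : mom (fun k l => h l k) dR' = mom h dR := by rw [mom_transpose_eq]; rfl
  have e' : mom h dR' = mom (fun k l => h l k) dR := by rw [mom_transpose_eq]; rfl
  rw [e'] at h1
  rw [e, h3] at h2
  linarith

end Vale.Agent.P355.Cert
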