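import Mathlib

/-!
Sums over assignments of finitely many labelled vertices, one label at a time.
-/

open scoped BigOperators ComplexConjugate

namespace Vale.Agent.P355.Cert

/-- An assignment of values to labels. -/
abbrev Asg := ℕ → Fin 6

/-- The sum of `F` over all reassignments of the labels in the list. -/
def sumV : List ℕ → (Asg → ℂ) → Asg → ℂ
  | [], F, a => F a
  | v :: vs, F, a => ∑ x, sumV vs F (Function.update a v x)

/-- `F` does not read the label `v`. -/
def Free (F : Asg → ℂ) (v : ℕ) : Prop := ∀ a x, F (Function.update a v x) = F a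

lemma sumV_congr {F G : Asg → ℂ} (h : ∀ a, F a = G a) : ∀ vs a, sumV vs F a = sumV vs G a
  | [], a => h a
  | v :: vs, a => Finset.sum_congr rfl fun x _ => sumV_congr h vs _

lemma sumV_append (F : Asg → ℂ) : ∀ vs ws a, sumV (vs ++ ws) F a = sumV vs (sumV ws F) a
  | [], _, _ => rfl
  | v :: vs, ws, a => Finset.sum_congr rfl fun x _ => sumV_append F vs ws _

lemma sumV_perm {vs ws : List ℕ} (h : vs.Perm ws) (F : Asg → ℂ) :
    ∀ a, sumV vs F a = sumV ws F a := by
  induction h with
  | nil => exact fun _ => rfl
  | cons v _ ih => exact fun a => Finset.sum_congr rfl fun x _ => ih _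
  | swap v w l =>
    intro a
    simp only [sumV]
    rcases eq_or_ne v w with rfl | hne
    · rfl
    rw [Finset.sum_comm]
    exact Finset.sum_congr rfl fun x _ => Finset.sum_congr rfl fun y _ => by
      rw [Function.update_comm hne.symm]
  | trans _ _ ih ih' => exact fun a => (ih a).trans (ih' a)

lemma sumV_mul_left (c : ℂ) (F : Asg → ℂ) :
    ∀ vs a, sumV vs (fun a => c * F a) a = c * sumV vs F a
  | [], _ => rfl
  | v :: vs, a => by
    simp only [sumV, sumV_mul_left c F vs, Finset.mul_sum]

lemma sumV_sum {ι : Type*} (s : Finset ι) (F : ι → Asg → ℂ) :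
    ∀ vs a, sumV vs (fun a => ∑ i ∈ s, F i a) a = ∑ i ∈ s, sumV vs (F i) a
  | [], _ => rfl
  | v :: vs, a => by
    simp only [sumV, sumV_sum s F vs]
    exact Finset.sum_comm

lemma Free.sumV {F : Asg → ℂ} {v : ℕ} (hF : Free F v) : ∀ vs, Free (sumV vs F) v
  | [], a, x => hF a x
  | w :: vs, a, x => by
    refine Finset.sum_congr rfl fun y _ => ?_
    rcases eq_or_ne v w with rfl | hne
    · rw [Function.update_idem]
    · rw [Function.update_comm hne, Free.sumV hF vs]

lemma sumV_free {F : Asg → ℂ} {v : ℕ} (hF : Free F v) (vs : List ℕ) (a : Asg) :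
    sumV (v :: vs) F a = 6 * sumV vs F a := by
  simp [sumV, hF.sumV vs a]

/-- The product of two sums over independent labels is one sum. -/
lemma sumV_mul {F G : Asg → ℂ} {ws : List ℕ} (hF : ∀ w ∈ ws, Free F w) :
    ∀ {vs : List ℕ} (_hG : ∀ v ∈ vs, Free G v) (a : Asg),
      sumV vs F a * sumV ws G a = sumV (vs ++ ws) (fun a => F a * G a) a
  | [], _, a => by
    induction ws generalizing a with
    | nil => rfl
    | cons w ws ih =>
      simp only [List.nil_append, sumV, Finset.mul_sum]
      refine Finset.sum_congr rfl fun x _ => ?_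
      have := ih (fun u hu => hF u (List.mem_cons_of_mem _ hu)) (Function.update a w x)
      simp only [List.nil_append, sumV] at this
      rw [← this, hF w (by simp)]
  | v :: vs, hG, a => by
    simp only [List.cons_append, sumV, Finset.sum_mul]
    refine Finset.sum_congr rfl fun x _ => ?_
    rw [← sumV_mul hF (fun u hu => hG u (List.mem_cons_of_mem _ hu)),
      (hG v (by simp)).sumV ws]

/-- Relabelling along an injective map. -/
lemma sumV_map {g : ℕ → ℕ} (hg : Function.Injective g) (F : Asg → ℂ) :
    ∀ vs a, sumV (vs.map g) (fun a => F (a ∘ g)) a = sumV vs F (a ∘ g)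
  | [], _ => rfl
  | v :: vs, a => by
    simp only [List.map_cons, sumV]
    refine Finset.sum_congr rfl fun x _ => ?_
    rw [sumV_map hg F vs, ← Function.update_comp_eq_of_injective a hg v x]

/-- Summing out a label against a Kronecker delta. -/
lemma sumV_delta (F : Asg → ℂ) (i j : ℕ) (hij : i ≠ j) (a : Asg) :
    sumV [i] (fun a => (if a i = a j then 1 else 0) * F a) a = F (Function.update a i (a j)) := by
  simp [sumV, Function.update_self, Function.update_of_ne hij.symm]

lemma conj_sumV (F : Asg → ℂ) : ∀ vs a, conj (sumV vs F a) = sumV vs (fun a => conj (F a)) a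
  | [], _ => rfl
  | v :: vs, a => by simp only [sumV, map_sum, conj_sumV F vs]

end Vale.Agent.P355.Cert
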