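import Vale.Agent.P355.Cert.Defs
import Vale.Agent.P355.Cert.Sum

/-!
Values of diagrams over lists of summed labels, and the exact rewrite rules on regular Hadamard
matrices.
-/

open scoped BigOperators ComplexConjugate

namespace Vale.Agent.P355.Cert

/-- The base assignment. -/
def z0 : Asg := fun _ => 0

/-- The diagram with summed row labels `R`, summed column labels `C` and edges `E`. -/
noncomputable def val (h : Fin 6 → Fin 6 → ℂ) (R C : List ℕ) (E : List Edge) (a b : Asg) : ℂ :=
  sumV R (fun a => sumV C (mon h E a) b) a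

/-- Replace row label `i` by `j`. -/
def Edge.subR (i j : ℕ) (e : Edge) : Edge := ⟨if e.row = i then j else e.row, e.col, e.expo⟩

/-- An edge read in the transposed matrix. -/
def Edge.flip (e : Edge) : Edge := ⟨e.col, e.row, e.expo⟩

/-- The conjugate edge. -/
def Edge.bar (e : Edge) : Edge := ⟨e.row, e.col, -e.expo⟩

/-- An edge read through maps of labels. -/
def Edge.map (f g : ℕ → ℕ) (e : Edge) : Edge := ⟨f e.row, g e.col, e.expo⟩

variable {h : Fin 6 → Fin 6 → ℂ}

lemma mon_nil (a b : Asg) : mon h [] a b = 1 := rfl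

lemma mon_cons (e : Edge) (E : List Edge) (a b : Asg) :
    mon h (e :: E) a b = h (a e.row) (b e.col) ^ e.expo * mon h E a b := by
  simp [mon]

lemma mon_append (E E' : List Edge) (a b : Asg) :
    mon h (E ++ E') a b = mon h E a b * mon h E' a b := by simp [mon]

lemma mon_perm {E E' : List Edge} (p : E.Perm E') (a b : Asg) : mon h E a b = mon h E' a b :=
  (p.map _).prod_eq

lemma mon_congr {E : List Edge} {a a' b b' : Asg} (ha : ∀ e ∈ E, a e.row = a' e.row)
    (hb : ∀ e ∈ E, b e.col = b' e.col) : mon h E a b = mon h E a' b' := by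
  unfold mon
  congr 1
  exact List.map_congr_left fun e he => by rw [ha e he, hb e he]

lemma mon_free_r {E : List Edge} {v : ℕ} (hv : ∀ e ∈ E, e.row ≠ v) (b : Asg) :
    Free (fun a => mon h E a b) v := fun _ _ =>
  mon_congr (fun e he => Function.update_of_ne (hv e he) _ _) fun _ _ => rfl

lemma mon_free_c {E : List Edge} {v : ℕ} (hv : ∀ e ∈ E, e.col ≠ v) (a : Asg) :
    Free (mon h E a) v := fun _ _ =>
  mon_congr (fun _ _ => rfl) fun e he => Function.update_of_ne (hv e he) _ _

lemma mon_flip (E : List Edge) (a b : Asg) :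
    mon (fun k l => h l k) (E.map Edge.flip) b a = mon h E a b := by
  simp only [mon, List.map_map]
  rfl

lemma mon_subR (E : List Edge) (i j : ℕ) (a b : Asg) :
    mon h E (Function.update a i (a j)) b = mon h (E.map (Edge.subR i j)) a b := by
  simp only [mon, List.map_map]
  congr 1
  refine List.map_congr_left fun e _ => ?_
  simp only [Function.comp_apply, Edge.subR, Function.update_apply]
  by_cases he : e.row = i <;> simp [he]

lemma conj_zpow_inM (hh : InM h) (l k : Fin 6) (n : ℤ) : conj (h l k ^ n) = h l k ^ (-n) := by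
  rw [map_zpow₀, zpow_neg, ← inv_zpow]
  congr 1
  rw [Complex.inv_def, Complex.normSq_eq_norm_sq, hh.unimod]
  simp

lemma mon_bar (hh : InM h) (E : List Edge) (a b : Asg) :
    mon h (E.map Edge.bar) a b = conj (mon h E a b) := by
  induction E with
  | nil => simp [mon]
  | cons e E ih =>
    rw [List.map_cons, mon_cons, mon_cons, map_mul, ih, conj_zpow_inM hh]
    rfl

lemma ne_zero_inM (hh : InM h) (l k : Fin 6) : h l k ≠ 0 := fun hz => by
  have := hh.unimod l k
  simp [hz] at this

lemma val_perm {R R' C C' : List ℕ} {E E' : List Edge} (hR : R.Perm R') (hC : C.Perm C')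
    (hE : E.Perm E') (a b : Asg) : val h R C E a b = val h R' C' E' a b := by
  unfold val
  rw [sumV_perm hR]
  refine sumV_congr (fun a => ?_) _ _
  rw [sumV_perm hC]
  exact sumV_congr (fun b => mon_perm hE a b) _ _

lemma sumV_comm (F : Asg → Asg → ℂ) : ∀ (R C : List ℕ) (a b : Asg),
    sumV R (fun a => sumV C (F a) b) a = sumV C (fun b => sumV R (fun a => F a b) a) b
  | [], _, _, _ => rfl
  | v :: R, C, a, b => by
    simp only [sumV, sumV_comm F R C _ b]
    rw [sumV_sum]

lemma val_flip (R C : List ℕ) (E : List Edge) (a b : Asg) :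
    val (fun k l => h l k) C R (E.map Edge.flip) b a = val h R C E a b := by
  unfold val
  rw [sumV_comm (fun a b => mon h E a b) R C a b]
  exact sumV_congr (fun b => sumV_congr (fun a => mon_flip E a b) _ _) _ _

lemma val_bar (hh : InM h) (R C : List ℕ) (E : List Edge) (a b : Asg) :
    val h R C (E.map Edge.bar) a b = conj (val h R C E a b) := by
  unfold val
  rw [conj_sumV]
  refine sumV_congr (fun a => ?_) _ _
  rw [conj_sumV]
  exact sumV_congr (fun b => mon_bar hh E a b) _ _

lemma inM_transpose (hh : InM h) : InM fun k l => h l k :=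
  ⟨fun l k => hh.unimod k l, fun l m hlm => hh.col_orth l m hlm,
    fun k k' hk => hh.row_orth k k' hk, hh.col_sum, hh.row_sum⟩

/-- Parallel edges add their exponents. -/
lemma val_merge (hh : InM h) (R C : List ℕ) (E : List Edge) (r c : ℕ) (x y : ℤ) (a b : Asg) :
    val h R C (⟨r, c, x⟩ :: ⟨r, c, y⟩ :: E) a b = val h R C (⟨r, c, x + y⟩ :: E) a b :=
  sumV_congr (fun a => sumV_congr (fun b => by
    simp only [mon_cons, zpow_add₀ (ne_zero_inM hh _ _), mul_assoc]) _ _) _ _

/-- An edge of exponent zero disappears. -/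
lemma val_zero (R C : List ℕ) (E : List Edge) (r c : ℕ) (a b : Asg) :
    val h R C (⟨r, c, 0⟩ :: E) a b = val h R C E a b :=
  sumV_congr (fun a => sumV_congr (fun b => by simp [mon_cons]) _ _) _ _

/-- Rule (a): a column vertex with one edge of exponent `±1`. -/
lemma val_leafC (hh : InM h) {R C : List ℕ} {E : List Edge} {r c : ℕ} {x : ℤ}
    (hx : x = 1 ∨ x = -1) (hc : ∀ e ∈ E, e.col ≠ c) (a b : Asg) :
    val h R (C ++ [c]) (⟨r, c, x⟩ :: E) a b = (Real.sqrt 6 : ℂ) * val h R C E a b := by
  unfold val
  rw [← sumV_mul_left]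
  refine sumV_congr (fun a => ?_) _ _
  rw [sumV_append, ← sumV_mul_left]
  refine sumV_congr (fun b => ?_) _ _
  have hF : ∀ y, mon h E a (Function.update b c y) = mon h E a b := fun y => mon_free_c hc a b y
  have hneg : ∀ y, h (a r) y ^ (-1 : ℤ) = conj (h (a r) y) := fun y => by
    rw [← conj_zpow_inM hh, zpow_one]
  rcases hx with rfl | rfl <;>
    simp only [sumV, mon_cons, Function.update_self, hF, hneg, zpow_one, ← Finset.sum_mul,
      ← map_sum, hh.row_sum, Complex.conj_ofReal]

lemma sum_pair (hh : InM h) (i j : Fin 6) :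
    ∑ x, h i x * conj (h j x) = 6 * if i = j then 1 else 0 := by
  rcases eq_or_ne i j with rfl | hij
  · simp [Complex.mul_conj', hh.unimod]
  · simp [hh.row_orth i j hij, hij]

/-- Rule (b): a column vertex with edges of exponents one and minus one merges their row
vertices. -/
lemma val_pairC (hh : InM h) {R C : List ℕ} {E : List Edge} {i j c : ℕ} (hij : i ≠ j)
    (hc : ∀ e ∈ E, e.col ≠ c) (a b : Asg) :
    val h (R ++ [i]) (C ++ [c]) (⟨i, c, 1⟩ :: ⟨j, c, -1⟩ :: E) a b =
      6 * val h R C (E.map (Edge.subR i j)) a b := by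
  unfold val
  rw [sumV_append, ← sumV_mul_left]
  refine sumV_congr (fun a => ?_) _ _
  have key : ∀ a, sumV (C ++ [c]) (mon h (⟨i, c, 1⟩ :: ⟨j, c, -1⟩ :: E) a) b =
      (if a i = a j then 1 else 0) * (6 * sumV C (mon h E a) b) := fun a => by
    rw [← sumV_mul_left, ← sumV_mul_left, sumV_append]
    refine sumV_congr (fun b => ?_) _ _
    have hF : ∀ y, mon h E a (Function.update b c y) = mon h E a b := fun y => mon_free_c hc a b y
    have hneg : ∀ y, h (a j) y ^ (-1 : ℤ) = conj (h (a j) y) := fun y => by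
      rw [← conj_zpow_inM hh, zpow_one]
    simp only [sumV, mon_cons, hF, Function.update_self, zpow_one, hneg, ← mul_assoc,
      ← Finset.sum_mul, sum_pair hh]
    ring
  rw [sumV_congr key, sumV_delta _ _ _ hij]
  rw [sumV_congr fun b => mon_subR E i j a b]

/-- Rule (c): an isolated column vertex. -/
lemma val_isoC {R C : List ℕ} {E : List Edge} {c : ℕ} (hc : ∀ e ∈ E, e.col ≠ c) (a b : Asg) :
    val h R (C ++ [c]) E a b = 6 * val h R C E a b := by
  unfold val
  rw [← sumV_mul_left]
  refine sumV_congr (fun a => ?_) _ _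
  rw [sumV_perm (List.perm_append_singleton c C), sumV_free (mon_free_c hc a)]

/-- An isolated row vertex. -/
lemma val_isoR {R C : List ℕ} {E : List Edge} {r : ℕ} (hr : ∀ e ∈ E, e.row ≠ r) (a b : Asg) :
    val h (R ++ [r]) C E a b = 6 * val h R C E a b := by
  rw [← val_flip (R ++ [r]), ← val_flip R, val_isoC]
  simp only [List.mem_map]
  rintro _ ⟨e, he, rfl⟩
  exact hr e he

/-- A row vertex with one edge of exponent `±1`. -/
lemma val_leafR (hh : InM h) {R C : List ℕ} {E : List Edge} {r c : ℕ} {x : ℤ}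
    (hx : x = 1 ∨ x = -1) (hr : ∀ e ∈ E, e.row ≠ r) (a b : Asg) :
    val h (R ++ [r]) C (⟨r, c, x⟩ :: E) a b = (Real.sqrt 6 : ℂ) * val h R C E a b := by
  rw [← val_flip (R ++ [r]), ← val_flip R]
  refine val_leafC (inM_transpose hh) hx ?_ b a
  simp only [List.mem_map]
  rintro _ ⟨e, he, rfl⟩
  exact hr e he

/-- Replace column label `i` by `j`. -/
def Edge.subC (i j : ℕ) (e : Edge) : Edge := ⟨e.row, if e.col = i then j else e.col, e.expo⟩

/-- A row vertex with edges of exponents one and minus one merges their column vertices. -/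
lemma val_pairR (hh : InM h) {R C : List ℕ} {E : List Edge} {i j r : ℕ} (hij : i ≠ j)
    (hr : ∀ e ∈ E, e.row ≠ r) (a b : Asg) :
    val h (R ++ [r]) (C ++ [i]) (⟨r, i, 1⟩ :: ⟨r, j, -1⟩ :: E) a b =
      6 * val h R C (E.map (Edge.subC i j)) a b := by
  rw [← val_flip (R ++ [r]), ← val_flip R]
  have := val_pairC (inM_transpose hh) (R := C) (C := R) (E := E.map Edge.flip) (c := r) hij
    (by simp only [List.mem_map]; rintro _ ⟨e, he, rfl⟩; exact hr e he) b a
  rw [List.map_map] at this ⊢
  exact this

/-- Relabelling along injective maps. -/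
lemma val_relabel {f g : ℕ → ℕ} (hf : Function.Injective f) (hg : Function.Injective g)
    (R C : List ℕ) (E : List Edge) (a b : Asg) :
    val h (R.map f) (C.map g) (E.map (Edge.map f g)) a b = val h R C E (a ∘ f) (b ∘ g) := by
  have e1 : ∀ a b, mon h (E.map (Edge.map f g)) a b = mon h E (a ∘ f) (b ∘ g) := fun a b => by
    simp only [mon, List.map_map]
    rfl
  unfold val
  rw [← sumV_map hf]
  refine sumV_congr (fun a => ?_) _ _
  rw [← sumV_map hg]
  exact sumV_congr (fun b => e1 a b) _ _

lemma lift_snoc {n : ℕ} (f : Fin n → Fin 6) (x : Fin 6) :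
    lift (Fin.snoc f x : Fin (n + 1) → Fin 6) = Function.update (lift f) n x := by
  funext i
  rcases lt_trichotomy i n with hi | rfl | hi
  · rw [Function.update_of_ne hi.ne]
    simp [lift, hi, hi.trans (Nat.lt_succ_self n), Fin.snoc]
  · simp [lift, Fin.snoc]
  · rw [Function.update_of_ne hi.ne']
    simp [lift, show ¬ i < n + 1 by omega, show ¬ i < n by omega]

/-- A sum over assignments of the first `n` labels. -/
lemma sum_lift : ∀ (n : ℕ) (F : Asg → ℂ),
    ∑ f : Fin n → Fin 6, F (lift f) = sumV (List.range n) F z0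
  | 0, F => by
    simp only [Finset.univ_unique, Finset.sum_singleton, List.range_zero, sumV]
    congr 1
  | n + 1, F => by
    rw [List.range_succ, sumV_append, ← sum_lift n, ← (Fin.snocEquiv fun _ => Fin 6).sum_comp,
      Fintype.sum_prod_type, Finset.sum_comm]
    refine Finset.sum_congr rfl fun f _ => Finset.sum_congr rfl fun x _ => ?_
    rw [← lift_snoc]
    rfl

lemma hom_eq_val (D : Dg) :
    hom h D = val h (List.range D.nr) (List.range D.nc) D.edges z0 z0 := by
  unfold hom val
  rw [← sum_lift]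
  exact Finset.sum_congr rfl fun f _ => sum_lift _ _

/-- Equal up to relabelling, reordering. -/
lemma val_eq_hom {f g : ℕ → ℕ} (hf : Function.Injective f) (hg : Function.Injective g)
    {R C : List ℕ} {E : List Edge} (D : Dg) (hR : R.Perm ((List.range D.nr).map f))
    (hC : C.Perm ((List.range D.nc).map g)) (hE : E.Perm (D.edges.map (Edge.map f g))) :
    val h R C E z0 z0 = hom h D := by
  rw [val_perm hR hC hE, val_relabel hf hg, hom_eq_val]
  rfl

lemma hom_tr (D : Dg) : hom h D.tr = hom (fun k l => h l k) D := by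
  rw [hom_eq_val, hom_eq_val, ← val_flip (h := fun k l => h l k)]
  rfl

lemma hom_neg (hh : InM h) (D : Dg) : hom h D.neg = conj (hom h D) := by
  rw [hom_eq_val, hom_eq_val, ← val_bar hh]
  rfl

lemma mom_neg (hh : InM h) (D : Dg) : mom h D.neg = mom h D := by
  rw [mom, mom, hom_neg hh, Complex.conj_re]

end Vale.Agent.P355.Cert
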