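import Vale.Agent.P355.Reduction
import Vale.Agent.P355.Weiner
import Vale.Agent.P355.Cert.Semantics

/-!
P355: functionals whose sum over the thirty vectors of every complete set vanishes. A diagram of
bidegree at most two in the vector gives one: minus one thirtieth of the contraction by the fourth
moments, less the six columns of the first matrix. The class is closed under linear combinations
and under transposition.
-/

open scoped BigOperators ComplexConjugate InnerProductSpace

namespace Vale.Agent.P355.Cert.ZeroTotal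

set_option linter.dupNamespace false

/-- total of the exponents at an index -/
def tot (L : List (ℕ × ℤ)) (i : ℕ) : ℤ := (L.map fun p => if p.1 = i then p.2 else 0).sum

/-- two exponent lists agree on each of the first `n` indices and use no other -/
def netEq (n : ℕ) (L M : List (ℕ × ℤ)) : Bool :=
  L.all (fun p => decide (p.1 < n)) && M.all (fun p => decide (p.1 < n)) &&
    (List.range n).all fun i => tot L i == tot M i

lemma prod_tot (n : ℕ) (F : ℕ → ℂ) (hF : ∀ i, F i ≠ 0) :
    ∀ L : List (ℕ × ℤ), (∀ p ∈ L, p.1 < n) →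
      (L.map fun p => F p.1 ^ p.2).prod = ∏ i ∈ Finset.range n, F i ^ tot L i
  | [], _ => by simp [tot]
  | p :: L, hp => by
    have e : ∀ i, F i ^ tot (p :: L) i = (if p.1 = i then F i ^ p.2 else 1) * F i ^ tot L i := by
      intro i
      have : tot (p :: L) i = (if p.1 = i then p.2 else 0) + tot L i := rfl
      rw [this, zpow_add₀ (hF i)]
      split_ifs <;> simp
    rw [List.map_cons, List.prod_cons,
      prod_tot n F hF L (fun q hq => hp q (List.mem_cons_of_mem _ hq)),
      Finset.prod_congr rfl fun i _ => e i, Finset.prod_mul_distrib, Finset.prod_ite_eq,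
      if_pos (Finset.mem_range.mpr (hp p (by simp)))]

lemma netEq_sound {n : ℕ} {L M : List (ℕ × ℤ)} (h : netEq n L M = true) {F : ℕ → ℂ}
    (hF : ∀ i, F i ≠ 0) :
    (L.map fun p => F p.1 ^ p.2).prod = (M.map fun p => F p.1 ^ p.2).prod := by
  simp only [netEq, Bool.and_eq_true, List.all_eq_true, decide_eq_true_eq, List.mem_range,
    beq_iff_eq] at h
  rw [prod_tot n F hF L h.1.1, prod_tot n F hF M h.1.2]
  exact Finset.prod_congr rfl fun i hi => by rw [h.2 i (Finset.mem_range.mp hi)]

/-- the product of the vector entries at the labels in `A` and of the conjugates at those in `B` -/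
def wfac (w : Fin 6 → ℂ) (A B : List ℕ) (a : Asg) : ℂ :=
  (A.map fun i => w (a i)).prod * (B.map fun i => conj (w (a i))).prod

/-- a coordinate of the image vector, or its conjugate -/
noncomputable def yfac (H : Fin 6 → Fin 6 → ℂ) (w : Fin 6 → ℂ) (b : Asg) (s : ℕ × Bool) : ℂ :=
  if s.2 then yv H w (b s.1) else conj (yv H w (b s.1))

/-- a diagram in the matrix and the vector -/
noncomputable def gval (H : Fin 6 → Fin 6 → ℂ) (w : Fin 6 → ℂ) (n : ℕ) (C : List ℕ)
    (E : List Edge) (A B : List ℕ) (L : List (ℕ × Bool)) : ℂ :=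
  sumV (List.range n)
    (fun a => sumV C (fun b => mon H E a b * (wfac w A B a * (L.map (yfac H w b)).prod)) z0) z0

/-- expand the coordinates of the image vector by new row labels -/
def expand : ℕ → List Edge → List ℕ → List ℕ → List (ℕ × Bool) →
    ℕ × List Edge × List ℕ × List ℕ
  | n, E, A, B, [] => (n, E, A, B)
  | n, E, A, B, (k, true) :: L => expand (n + 1) (⟨n, k, -1⟩ :: E) (A ++ [n]) B L
  | n, E, A, B, (k, false) :: L => expand (n + 1) (⟨n, k, 1⟩ :: E) A (B ++ [n]) L

/-- all row labels in use are below `n` -/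
def Bnd (n : ℕ) (E : List Edge) (A B : List ℕ) : Prop :=
  (∀ e ∈ E, e.row < n) ∧ (∀ i ∈ A, i < n) ∧ ∀ i ∈ B, i < n

variable {H : Fin 6 → Fin 6 → ℂ} {w : Fin 6 → ℂ}

lemma zpow_neg_one_of_norm {z : ℂ} (hz : ‖z‖ = 1) : z ^ (-1 : ℤ) = conj z := by
  rw [zpow_neg_one, Complex.inv_def, Complex.normSq_eq_norm_sq, hz]
  simp

lemma wfac_update {n : ℕ} {A B : List ℕ} (hA : ∀ i ∈ A, i < n) (hB : ∀ i ∈ B, i < n) (a : Asg)
    (x : Fin 6) : wfac w A B (Function.update a n x) = wfac w A B a := by
  unfold wfac
  congr 2 <;> refine List.map_congr_left fun i hi => ?_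
  · rw [Function.update_of_ne (hA i hi).ne]
  · rw [Function.update_of_ne (hB i hi).ne]

lemma gval_expand (hu : ∀ l k, ‖H l k‖ = 1) (C : List ℕ) :
    ∀ (L : List (ℕ × Bool)) (n : ℕ) (E : List Edge) (A B : List ℕ), Bnd n E A B →
      gval H w n C E A B L = cst ^ L.length *
        gval H w (expand n E A B L).1 C (expand n E A B L).2.1 (expand n E A B L).2.2.1
          (expand n E A B L).2.2.2 []
  | [], n, E, A, B, _ => by simp [expand]
  | (k, s) :: L, n, E, A, B, hb => by
    obtain ⟨hE, hA, hB⟩ := hb
    have hF : ∀ (a : Asg) x b, mon H E (Function.update a n x) b = mon H E a b := fun a x b =>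
      mon_free_r (fun e he => (hE e he).ne) b a x
    cases s
    · have key : gval H w n C E A B ((k, false) :: L)
          = cst * gval H w (n + 1) C (⟨n, k, 1⟩ :: E) A (B ++ [n]) L := by
        unfold gval
        rw [List.range_succ, sumV_append, ← sumV_mul_left]
        refine sumV_congr (fun a => ?_) _ _
        simp only [sumV]
        rw [← sumV_sum, ← sumV_mul_left]
        refine sumV_congr (fun b => ?_) _ _
        simp only [List.map_cons, List.prod_cons, yfac, Bool.false_eq_true, if_false, mon_cons,
          Function.update_self, hF, wfac, List.map_append, List.map_nil, List.prod_append,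
          List.prod_nil, mul_one, zpow_one, yv, map_mul, map_sum, conj_cst, Complex.conj_conj,
          Finset.mul_sum, Finset.sum_mul]
        refine Finset.sum_congr rfl fun x _ => ?_
        have h1 : (A.map fun i => w (Function.update a n x i)).prod
            = (A.map fun i => w (a i)).prod := congrArg List.prod
          (List.map_congr_left fun i hi => by rw [Function.update_of_ne (hA i hi).ne])
        have h2 : (B.map fun i => conj (w (Function.update a n x i))).prod
            = (B.map fun i => conj (w (a i))).prod := congrArg List.prod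
          (List.map_congr_left fun i hi => by rw [Function.update_of_ne (hB i hi).ne])
        rw [h1, h2]
        ring
      rw [key, gval_expand hu C L (n + 1) _ _ _ ⟨?_, ?_, ?_⟩, expand, List.length_cons, pow_succ]
      · ring
      · simp only [List.mem_cons, forall_eq_or_imp]
        exact ⟨Nat.lt_succ_self n, fun e he => (hE e he).trans (Nat.lt_succ_self n)⟩
      · exact fun i hi => (hA i hi).trans (Nat.lt_succ_self n)
      · simp only [List.mem_append, List.mem_singleton]
        rintro i (hi | rfl)
        exacts [(hB i hi).trans (Nat.lt_succ_self n), Nat.lt_succ_self _]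
    · have key : gval H w n C E A B ((k, true) :: L)
          = cst * gval H w (n + 1) C (⟨n, k, -1⟩ :: E) (A ++ [n]) B L := by
        unfold gval
        rw [List.range_succ, sumV_append, ← sumV_mul_left]
        refine sumV_congr (fun a => ?_) _ _
        simp only [sumV]
        rw [← sumV_sum, ← sumV_mul_left]
        refine sumV_congr (fun b => ?_) _ _
        simp only [List.map_cons, List.prod_cons, yfac, if_true, mon_cons,
          Function.update_self, hF, wfac, List.map_append, List.map_nil, List.prod_append,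
          List.prod_nil, mul_one, zpow_neg_one_of_norm (hu _ _), yv, Finset.mul_sum,
          Finset.sum_mul]
        refine Finset.sum_congr rfl fun x _ => ?_
        have h1 : (A.map fun i => w (Function.update a n x i)).prod
            = (A.map fun i => w (a i)).prod := congrArg List.prod
          (List.map_congr_left fun i hi => by rw [Function.update_of_ne (hA i hi).ne])
        have h2 : (B.map fun i => conj (w (Function.update a n x i))).prod
            = (B.map fun i => conj (w (a i))).prod := congrArg List.prod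
          (List.map_congr_left fun i hi => by rw [Function.update_of_ne (hB i hi).ne])
        rw [h1, h2]
        ring
      rw [key, gval_expand hu C L (n + 1) _ _ _ ⟨?_, ?_, ?_⟩, expand, List.length_cons, pow_succ]
      · ring
      · simp only [List.mem_cons, forall_eq_or_imp]
        exact ⟨Nat.lt_succ_self n, fun e he => (hE e he).trans (Nat.lt_succ_self n)⟩
      · simp only [List.mem_append, List.mem_singleton]
        rintro i (hi | rfl)
        exacts [(hA i hi).trans (Nat.lt_succ_self n), Nat.lt_succ_self _]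
      · exact fun i hi => (hB i hi).trans (Nat.lt_succ_self n)

/-- a diagram with the placement of its net exponents: `AR`, `BR` are rows and `AC`, `BC` columns,
repeated with multiplicity -/
structure Spec where
  D : Dg
  AR : List ℕ
  BR : List ℕ
  AC : List ℕ
  BC : List ℕ
deriving DecidableEq

/-- the column slots -/
def Spec.slots (S : Spec) : List (ℕ × Bool) := S.AC.map (·, true) ++ S.BC.map (·, false)

/-- the placement is that of the nets of the diagram -/
def Spec.ok (S : Spec) : Bool :=
  netEq S.D.nr (S.D.edges.map fun e => (e.row, e.expo))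
      (S.AR.map (·, -1) ++ S.BR.map (·, 1)) &&
    netEq S.D.nc (S.D.edges.map fun e => (e.col, e.expo))
      (S.AC.map (·, 1) ++ S.BC.map (·, -1))

/-- the expanded diagram -/
def Spec.big (S : Spec) : ℕ × List Edge × List ℕ × List ℕ :=
  expand S.D.nr S.D.edges S.AR S.BR S.slots

lemma mon_hmat (E : List Edge) (a b : Asg) :
    mon (hmat H w) E a b = mon H E a b *
      ((E.map fun e => conj (w (a e.row)) ^ e.expo).prod *
        (E.map fun e => yv H w (b e.col) ^ e.expo).prod) := by
  induction E with
  | nil => simp [mon]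
  | cons e E ih =>
    rw [mon_cons, mon_cons, ih, hmat, mul_zpow, mul_zpow]
    simp only [List.map_cons, List.prod_cons]
    ring

lemma hom_hmat (hu : ∀ l k, ‖H l k‖ = 1) (hw : ∀ i, ‖w i‖ = 1)
    (hy : ∀ k, ‖yv H w k‖ = 1) (S : Spec) (hok : S.ok = true) :
    hom (hmat H w) S.D = cst ^ S.slots.length *
      gval H w S.big.1 (List.range S.D.nc) S.big.2.1 S.big.2.2.1 S.big.2.2.2 [] := by
  simp only [Spec.ok, Bool.and_eq_true] at hok
  obtain ⟨hr, hc⟩ := hok
  have hb : Bnd S.D.nr S.D.edges S.AR S.BR := by
    simp only [netEq, Bool.and_eq_true, List.all_eq_true, decide_eq_true_eq, List.mem_map,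
      List.mem_append, forall_exists_index, and_imp] at hr
    refine ⟨fun e he => ?_, fun i hi => ?_, fun i hi => ?_⟩
    · exact hr.1.1 (e.row, e.expo) e he rfl
    · exact hr.1.2 (i, -1) (Or.inl ⟨i, hi, rfl⟩)
    · exact hr.1.2 (i, 1) (Or.inr ⟨i, hi, rfl⟩)
  rw [Spec.big, ← gval_expand hu _ _ _ _ _ _ hb, hom_eq_val]
  refine sumV_congr (fun a => sumV_congr (fun b => ?_) _ _) _ _
  rw [mon_hmat]
  have hwne : ∀ i, conj (w (a i)) ≠ 0 := fun i h0 => by
    have := hw (a i)
    rw [← Complex.norm_conj, h0] at this
    simp at this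
  have hyne : ∀ i, yv H w (b i) ≠ 0 := fun i h0 => by
    have := hy (b i)
    rw [h0] at this
    simp at this
  have e1 := netEq_sound hr hwne
  have e2 := netEq_sound hc hyne
  simp only [List.map_map, List.map_append, List.prod_append, Function.comp_def] at e1 e2
  rw [e1, e2]
  simp only [wfac, Spec.slots, List.map_append, List.prod_append, List.map_map, Function.comp_def,
    yfac, if_true, Bool.false_eq_true, if_false, zpow_one]
  have hw' : ∀ i, conj (w (a i)) ^ (-1 : ℤ) = w (a i) := fun i => by
    rw [zpow_neg_one_of_norm (by rw [Complex.norm_conj, hw]), Complex.conj_conj]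
  simp only [hw', zpow_neg_one_of_norm (hy _)]

/-- a diagram of vanishing nets -/
def balanced (T : Dg) : Bool := Spec.ok ⟨T, [], [], [], []⟩

lemma hom_hmat_balanced (hu : ∀ l k, ‖H l k‖ = 1) (hw : ∀ i, ‖w i‖ = 1)
    (hy : ∀ k, ‖yv H w k‖ = 1) (T : Dg) (hT : balanced T = true) :
    hom (hmat H w) T = hom H T := by
  rw [hom_hmat hu hw hy ⟨T, [], [], [], []⟩ hT, hom_eq_val]
  simp [Spec.slots, Spec.big, expand, gval, wfac, val]

/-- Kronecker deltas of a list of pairs -/
def deltas (ps : List (ℕ × ℕ)) (a : Asg) : ℂ :=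
  (ps.map fun p => if a p.1 = a p.2 then (1 : ℂ) else 0).prod

/-- identify labels along pairs -/
def merge : List ℕ → List Edge → List (ℕ × ℕ) → Option (List ℕ × List Edge)
  | R, E, [] => some (R, E)
  | R, E, (x, y) :: ps =>
    if x = y then merge R E ps
    else if x ∈ R then
      merge (R.erase x) (E.map (Edge.subR x y))
        (ps.map fun p => (if p.1 = x then y else p.1, if p.2 = x then y else p.2))
    else none
termination_by _ _ ps => ps.length

lemma merge_sound (C : List ℕ) (b : Asg) :
    ∀ (ps : List (ℕ × ℕ)) (R : List ℕ) (E : List Edge) (R' : List ℕ) (E' : List Edge),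
      merge R E ps = some (R', E') → ∀ a,
        sumV R (fun a => deltas ps a * sumV C (mon H E a) b) a = val H R' C E' a b
  | [], R, E, R', E', hm, a => by
    simp only [merge, Option.some.injEq, Prod.mk.injEq] at hm
    obtain ⟨rfl, rfl⟩ := hm
    simp [deltas, val]
  | (x, y) :: ps, R, E, R', E', hm, a => by
    rw [merge] at hm
    by_cases hxy : x = y
    · rw [if_pos hxy] at hm
      rw [← merge_sound C b ps R E R' E' hm a]
      subst hxy
      exact sumV_congr (fun a => by simp [deltas]) _ _
    · rw [if_neg hxy] at hm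
      by_cases hx : x ∈ R
      · rw [if_pos hx] at hm
        rw [← merge_sound C b _ _ _ R' E' hm a,
          sumV_perm ((List.perm_cons_erase hx).trans (List.perm_append_singleton x _).symm),
          sumV_append]
        refine sumV_congr (fun a => ?_) _ _
        have hd : ∀ a : Asg, deltas ((x, y) :: ps) a * sumV C (mon H E a) b
            = (if a x = a y then 1 else 0) * (deltas ps a * sumV C (mon H E a) b) := fun a => by
          simp [deltas, mul_assoc]
        rw [sumV_congr hd, sumV_delta _ x y hxy]
        congr 1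
        · simp only [deltas, List.map_map]
          congr 1
          refine List.map_congr_left fun p _ => ?_
          simp only [Function.comp_apply, Function.update_apply, apply_ite a]
        · exact sumV_congr (fun b => mon_subR E x y a b) _ _
      · rw [if_neg hx] at hm
        exact absurd hm (by simp)
termination_by ps => ps.length

/-- rename the row labels `R` to an initial segment -/
def compact (R : List ℕ) (nc : ℕ) (E : List Edge) : Option Dg :=
  if R.Nodup ∧ E.all (fun e => decide (e.row ∈ R)) = true then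
    some ⟨R.length, nc, E.map fun e => ⟨R.idxOf e.row, e.col, e.expo⟩⟩
  else none

lemma compact_sound {R : List ℕ} {nc : ℕ} {E : List Edge} {T : Dg}
    (hT : compact R nc E = some T) : val H R (List.range nc) E z0 z0 = hom H T := by
  unfold compact at hT
  split_ifs at hT with hc
  obtain ⟨hnd, hall⟩ := hc
  simp only [List.all_eq_true, decide_eq_true_eq] at hall
  obtain rfl := Option.some.inj hT
  set f : ℕ → ℕ := fun i => if hi : i < R.length then R[i] else i + R.sum + 1
  have hf : Function.Injective f := by
    intro i j hij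
    simp only [f] at hij
    split_ifs at hij with hi hj hj
    · exact (hnd.getElem_inj_iff).mp hij
    · have := List.single_le_sum (l := R) (fun _ _ => Nat.zero_le _) _ (List.getElem_mem hi)
      omega
    · have := List.single_le_sum (l := R) (fun _ _ => Nat.zero_le _) _ (List.getElem_mem hj)
      omega
    · omega
  refine val_eq_hom (g := id) hf Function.injective_id _ ?_ ?_ ?_
  · rw [show (List.range R.length).map f = R from List.ext_getElem (by simp) fun i h1 h2 => by
      simp [f, h2]]
  · simp
  · simp only [List.map_map]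
    refine List.Perm.of_eq ?_
    refine (List.map_id E).symm.trans (List.map_congr_left fun e he => ?_)
    have hlt := List.idxOf_lt_length_iff.mpr (hall e he)
    simp [Edge.map, f, hlt]

/-- a merged term, balanced -/
def mterm (nc : ℕ) (S : ℕ × List Edge × List ℕ × List ℕ) (ps : List (ℕ × ℕ)) : Option Dg :=
  match merge (List.range S.1) S.2.1 ps with
  | some (R, E) =>
    match compact R nc E with
    | some T => if balanced T then some T else none
    | none => none
  | none => none

lemma mterm_sound {nc : ℕ} {S : ℕ × List Edge × List ℕ × List ℕ} {ps : List (ℕ × ℕ)} {T : Dg}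
    (hT : mterm nc S ps = some T) :
    (sumV (List.range S.1) (fun a => deltas ps a * sumV (List.range nc) (mon H S.2.1 a) z0) z0
      = hom H T) ∧ balanced T = true := by
  unfold mterm at hT
  split at hT
  · next R E hm =>
    split at hT
    · next T' hc =>
      split_ifs at hT with hb
      obtain rfl := Option.some.inj hT
      exact ⟨by rw [merge_sound _ _ _ _ _ _ _ hm, compact_sound hc], hb⟩
    · exact absurd hT (by simp)
  · exact absurd hT (by simp)

/-- the expanded diagram with one extra column for the six columns of the matrix -/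
def colDg (nc : ℕ) (S : ℕ × List Edge × List ℕ × List ℕ) : Dg :=
  ⟨S.1, nc + 1, S.2.1 ++ (S.2.2.1.map (fun i => (⟨i, nc, 1⟩ : Edge)) ++
    S.2.2.2.map (fun i => (⟨i, nc, -1⟩ : Edge)))⟩

/-- the column term, balanced -/
def cterm (nc : ℕ) (S : ℕ × List Edge × List ℕ × List ℕ) : Option Dg :=
  if S.2.1.all (fun e => decide (e.col < nc)) && balanced (colDg nc S) then some (colDg nc S)
  else none

/-- the correction terms of a diagram -/
def Spec.terms (S : Spec) : Option (List (ℤ × Dg)) :=
  if S.ok then
    match S.big.2.2.1, S.big.2.2.2 with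
    | [a₀], [b₀] =>
      match mterm S.D.nc S.big [(a₀, b₀)], cterm S.D.nc S.big with
      | some T, some U => some [(36, T), (-1, U)]
      | _, _ => none
    | [a₀, a₁], [b₀, b₁] =>
      match mterm S.D.nc S.big [(a₀, b₀), (a₁, b₁)], mterm S.D.nc S.big [(a₀, b₁), (a₁, b₀)],
          mterm S.D.nc S.big [(a₀, a₁), (a₀, b₀), (a₀, b₁)], cterm S.D.nc S.big with
      | some T₁, some T₂, some T₃, some U => some [(36, T₁), (36, T₂), (-36, T₃), (-1, U)]
      | _, _, _, _ => none
    | _, _ => none
  else none

/-- the scale of the correction -/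
noncomputable def Spec.scale (S : Spec) : ℝ :=
  (Real.sqrt 6)⁻¹ ^ (S.AC.length + S.BC.length) / 30

/-- the functional of a diagram with given correction terms -/
noncomputable def feat (S : Spec) (L : List (ℤ × Dg)) (h : Fin 6 → Fin 6 → ℂ) : ℝ :=
  mom h S.D - S.scale * (L.map fun t => (t.1 : ℝ) * mom h t.2).sum

/-- the first matrix of a complete set -/
def H0 (X : Fin 6 → Fin 6 → Fin 6 → ℂ) (l k : Fin 6) : ℂ := X 0 k l

/-- the sum over the thirty vectors vanishes for every complete set -/
def ZeroTotal (F : (Fin 6 → Fin 6 → ℂ) → ℝ) : Prop :=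
  ∀ X : Fin 6 → Fin 6 → Fin 6 → ℂ, Complete X →
    ∑ q : Fin 5, ∑ a : Fin 6, F (hmat (H0 X) (X q.succ a)) = 0

variable {X : Fin 6 → Fin 6 → Fin 6 → ℂ}

lemma isHad_H0 (hX : Complete X) : IsHad (H0 X) := by
  have hcol : ∀ k k', ∑ l, H0 X l k * conj (H0 X l k') = if k = k' then 6 else 0 := by
    intro k k'
    split_ifs with h
    · subst h
      simp [H0, conj_mul_self_of_norm (hX.unimod 0 k _)]
    · exact hX.orth 0 k k' h
  refine ⟨fun l k => hX.unimod 0 k l, hcol, ?_⟩
  set U : Matrix (Fin 6) (Fin 6) ℂ := Matrix.of fun l k => cst * H0 X l k with hU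
  have h1 : U.conjTranspose * U = 1 := by
    ext k k'
    rw [Matrix.mul_apply, Matrix.one_apply]
    have : ∀ l, U.conjTranspose k l * U l k' = (1 / 6) * (H0 X l k' * conj (H0 X l k)) := fun l => by
      simp only [hU, Matrix.conjTranspose_apply, Matrix.of_apply, RCLike.star_def, map_mul,
        conj_cst]
      linear_combination (H0 X l k' * conj (H0 X l k)) * cst_mul_cst
    simp only [this, ← Finset.mul_sum, hcol]
    by_cases h : k = k'
    · subst h; norm_num
    · rw [if_neg h, if_neg (Ne.symm h), mul_zero]
  have h2 := mul_eq_one_comm.mp h1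
  intro l m
  have h3 := congrFun (congrFun h2 l) m
  rw [Matrix.mul_apply, Matrix.one_apply] at h3
  have : ∀ k, U l k * U.conjTranspose k m = (1 / 6) * (H0 X l k * conj (H0 X m k)) := fun k => by
    simp only [hU, Matrix.conjTranspose_apply, Matrix.of_apply, RCLike.star_def, map_mul,
      conj_cst]
    linear_combination (H0 X l k * conj (H0 X m k)) * cst_mul_cst
  simp only [this, ← Finset.mul_sum] at h3
  split_ifs with h
  · rw [if_pos h] at h3; linear_combination 6 * h3
  · rw [if_neg h] at h3; linear_combination 6 * h3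

lemma hy_H0 (hX : Complete X) (q : Fin 5) (a k : Fin 6) :
    ‖∑ j, conj (H0 X j k) * X q.succ a j‖ ^ 2 = 6 := by
  rw [← hX.unbiased q.succ 0 a k (Fin.succ_ne_zero q)]
  congr 2
  exact Finset.sum_congr rfl fun j _ => mul_comm _ _

lemma inM_H0 (hX : Complete X) (q : Fin 5) (a : Fin 6) : InM (hmat (H0 X) (X q.succ a)) :=
  inM_hmat (isHad_H0 hX) (hX.unimod _ _) (hy_H0 hX q a)

/-- the second moment -/
lemma moment_two (hX : Complete X) (a b : Fin 6) :
    ∑ v : Fin 6 × Fin 6, X v.1 v.2 a * conj (X v.1 v.2 b) = if a = b then 36 else 0 := by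
  have h : ∑ c, ∑ v : Fin 6 × Fin 6,
      X v.1 v.2 a * X v.1 v.2 c * conj (X v.1 v.2 b) * conj (X v.1 v.2 c) = ∑ c, tor a c b c :=
    Finset.sum_congr rfl fun c _ => hX.moment a c b c
  rw [Finset.sum_comm] at h
  have e : ∀ v : Fin 6 × Fin 6,
      ∑ c, X v.1 v.2 a * X v.1 v.2 c * conj (X v.1 v.2 b) * conj (X v.1 v.2 c)
      = 6 * (X v.1 v.2 a * conj (X v.1 v.2 b)) := fun v => by
    have : ∀ c, X v.1 v.2 a * X v.1 v.2 c * conj (X v.1 v.2 b) * conj (X v.1 v.2 c)
        = X v.1 v.2 a * conj (X v.1 v.2 b) := fun c => by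
      linear_combination (X v.1 v.2 a * conj (X v.1 v.2 b))
        * conj_mul_self_of_norm (hX.unimod v.1 v.2 c)
    simp [this]
  simp only [e, ← Finset.mul_sum] at h
  rw [← mul_right_inj' (show (6 : ℂ) ≠ 0 by norm_num), h]
  by_cases hab : a = b
  · subst hab
    simp only [tor, if_true, true_and, and_true, Finset.sum_add_distrib, Finset.sum_sub_distrib,
      mul_add, mul_sub, mul_ite, mul_one, mul_zero]
    simp [eq_comm (a := a)]
  · simp [tor, hab]
    exact Finset.sum_eq_zero fun c _ => if_neg fun h => hab (h.1.trans h.2)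

/-- the six columns -/
lemma sum_cols {nc : ℕ} {S : ℕ × List Edge × List ℕ × List ℕ} {U : Dg}
    (hu : ∀ l k, ‖H l k‖ = 1) (hU : cterm nc S = some U) :
    (∑ x, gval H (fun i => H i x) S.1 (List.range nc) S.2.1 S.2.2.1 S.2.2.2 [] = hom H U)
      ∧ balanced U = true := by
  unfold cterm at hU
  split_ifs at hU with hc
  obtain rfl := Option.some.inj hU
  simp only [Bool.and_eq_true, List.all_eq_true, decide_eq_true_eq] at hc
  refine ⟨?_, hc.2⟩
  rw [hom_eq_val]
  simp only [gval, colDg, val, List.range_succ]
  rw [← sumV_sum]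
  refine sumV_congr (fun a => ?_) _ _
  rw [sumV_append, ← sumV_sum]
  refine sumV_congr (fun b => ?_) _ _
  simp only [sumV, List.map_nil, List.prod_nil, mul_one]
  refine Finset.sum_congr rfl fun x _ => ?_
  rw [mon_append, mon_free_c (fun e he => (hc.1 e he).ne) a b x, mon_append]
  simp only [mon, wfac, List.map_map, Function.comp_def, Function.update_self, zpow_one,
    zpow_neg_one_of_norm (hu _ _)]

lemma sum_thirty (f : (Fin 6 → ℂ) → ℂ) : ∑ q : Fin 5, ∑ a : Fin 6, f (X q.succ a)
    = (∑ v : Fin 6 × Fin 6, f (X v.1 v.2)) - ∑ a, f (fun l => H0 X l a) := by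
  rw [Fintype.sum_prod_type, Fin.sum_univ_succ (fun p : Fin 6 => ∑ a, f (X p a))]
  simp only [H0]
  ring

/-- the correction terms give a functional of zero total -/
theorem zeroTotal_feat (S : Spec) (L : List (ℤ × Dg)) (hL : S.terms = some L) :
    ZeroTotal (feat S L) := by
  intro X hX
  set H := H0 X with hH
  have hu : ∀ l k, ‖H l k‖ = 1 := (isHad_H0 hX).unimod
  have hyv : ∀ (q : Fin 5) a k, ‖yv H (X q.succ a) k‖ = 1 := fun q a =>
    yv_unimod (hy_H0 hX q a)
  unfold Spec.terms at hL
  split_ifs at hL with hok
  -- the value of the total of the diagram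
  have main : (∑ q : Fin 5, ∑ a : Fin 6, hom (hmat H (X q.succ a)) S.D
      = cst ^ S.slots.length * (L.map fun t => (t.1 : ℂ) * hom H t.2).sum) ∧
      ∀ t ∈ L, balanced t.2 = true := by
    have e : ∀ (q : Fin 5) (a : Fin 6), hom (hmat H (X q.succ a)) S.D = cst ^ S.slots.length *
        gval H (X q.succ a) S.big.1 (List.range S.D.nc) S.big.2.1 S.big.2.2.1 S.big.2.2.2 [] :=
      fun q a => hom_hmat hu (hX.unimod _ _) (hyv q a) S hok
    simp only [e, ← Finset.mul_sum]
    rw [sum_thirty fun u =>
      gval H u S.big.1 (List.range S.D.nc) S.big.2.1 S.big.2.2.1 S.big.2.2.2 []]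
    have ev : ∀ u : Fin 6 → ℂ,
        gval H u S.big.1 (List.range S.D.nc) S.big.2.1 S.big.2.2.1 S.big.2.2.2 []
        = sumV (List.range S.big.1) (fun a => wfac u S.big.2.2.1 S.big.2.2.2 a *
            sumV (List.range S.D.nc) (mon H S.big.2.1 a) z0) z0 := fun u => by
      simp only [gval, List.map_nil, List.prod_nil, mul_one]
      refine sumV_congr (fun a => ?_) _ _
      rw [← sumV_mul_left]
      exact sumV_congr (fun b => mul_comm _ _) _ _
    split at hL
    · next a₀ b₀ hA hB =>
      split at hL
      · next T U hT hU =>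
        obtain rfl := Option.some.inj hL
        obtain ⟨hT, hTb⟩ := mterm_sound (H := H) hT
        obtain ⟨hU, hUb⟩ := sum_cols hu hU
        refine ⟨?_, by simp [hTb, hUb]⟩
        rw [hU]
        have : ∑ v : Fin 6 × Fin 6,
            gval H (X v.1 v.2) S.big.1 (List.range S.D.nc) S.big.2.1 S.big.2.2.1 S.big.2.2.2 []
            = 36 * hom H T := by
          simp only [ev]
          simp only [hA, hB, ← sumV_sum, ← hT, ← sumV_mul_left]
          refine sumV_congr (fun a => ?_) _ _
          simp only [wfac, deltas, List.map_cons, List.map_nil, List.prod_cons, List.prod_nil,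
            mul_one, ← Finset.sum_mul, moment_two hX]
          split_ifs <;> ring
        rw [this]
        simp only [List.map_cons, List.map_nil, List.sum_cons, List.sum_nil]
        push_cast
        ring
      · exact absurd hL (by simp)
    · next a₀ a₁ b₀ b₁ hA hB =>
      split at hL
      · next T₁ T₂ T₃ U h₁ h₂ h₃ hU =>
        obtain rfl := Option.some.inj hL
        obtain ⟨h₁, hb₁⟩ := mterm_sound (H := H) h₁
        obtain ⟨h₂, hb₂⟩ := mterm_sound (H := H) h₂
        obtain ⟨h₃, hb₃⟩ := mterm_sound (H := H) h₃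
        obtain ⟨hU, hUb⟩ := sum_cols hu hU
        refine ⟨?_, by simp [hb₁, hb₂, hb₃, hUb]⟩
        rw [hU]
        have hd : ∀ a : Asg, ∑ v : Fin 6 × Fin 6, wfac (X v.1 v.2) [a₀, a₁] [b₀, b₁] a
            = 36 * (deltas [(a₀, b₀), (a₁, b₁)] a + deltas [(a₀, b₁), (a₁, b₀)] a
              - deltas [(a₀, a₁), (a₀, b₀), (a₀, b₁)] a) := fun a => by
          have : ∀ v : Fin 6 × Fin 6, wfac (X v.1 v.2) [a₀, a₁] [b₀, b₁] a
              = X v.1 v.2 (a a₀) * X v.1 v.2 (a a₁) * conj (X v.1 v.2 (a b₀))
                * conj (X v.1 v.2 (a b₁)) := fun v => by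
            simp [wfac, mul_assoc]
          simp only [this, hX.moment, tor, deltas, List.map_cons, List.map_nil, List.prod_cons,
            List.prod_nil, mul_one, ite_and, mul_ite, mul_zero]
          split_ifs <;> simp_all
        have : ∑ v : Fin 6 × Fin 6,
            gval H (X v.1 v.2) S.big.1 (List.range S.D.nc) S.big.2.1 S.big.2.2.1 S.big.2.2.2 []
            = 36 * hom H T₁ + 36 * hom H T₂ + (-36) * hom H T₃ := by
          simp only [ev]
          simp only [hA, hB, ← sumV_sum, ← Finset.sum_mul, hd]
          rw [← h₁, ← h₂, ← h₃, ← sumV_mul_left 36, ← sumV_mul_left 36, ← sumV_mul_left (-36)]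
          have hadd : ∀ (F G K : Asg → ℂ) (vs : List ℕ) (a : Asg),
              sumV vs F a + sumV vs G a + sumV vs K a = sumV vs (fun a => F a + G a + K a) a := by
            intro F G K vs a
            have := sumV_sum (Finset.univ : Finset (Fin 3)) ![F, G, K] vs a
            simpa [Fin.sum_univ_three] using this.symm
          rw [hadd]
          exact sumV_congr (fun a => by ring) _ _
        rw [this]
        simp only [List.map_cons, List.map_nil, List.sum_cons, List.sum_nil]
        push_cast
        ring
      · exact absurd hL (by simp)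
    · exact absurd hL (by simp)
  obtain ⟨main, hbal⟩ := main
  have hs : cst ^ S.slots.length / 30 = ((S.scale : ℝ) : ℂ) := by
    simp [Spec.scale, cst, Spec.slots]
  have hC : ∀ (q : Fin 5) (a : Fin 6), ((feat S L (hmat H (X q.succ a)) : ℝ) : ℂ).re = (hom (hmat H (X q.succ a)) S.D
      - (S.scale : ℂ) * (L.map fun t => (t.1 : ℂ) * hom H t.2).sum).re := by
    intro q a
    have hre : ∀ L' : List (ℤ × Dg), (∀ t ∈ L', balanced t.2 = true) →
        (L'.map fun t => (t.1 : ℝ) * mom (hmat H (X q.succ a)) t.2).sum
          = ((L'.map fun t => (t.1 : ℂ) * hom H t.2).sum).re := by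
      intro L'
      simp only [mom]
      induction L' with
      | nil => simp
      | cons t L' ih =>
        intro ht
        simp only [List.map_cons, List.sum_cons, Complex.add_re,
          ih fun u hu => ht u (List.mem_cons_of_mem _ hu),
          hom_hmat_balanced hu (hX.unimod _ _) (hyv q a) t.2 (ht t (by simp))]
        simp [Complex.mul_re]
    simp only [feat, Complex.ofReal_re]
    rw [hre L hbal]
    simp only [mom, Complex.sub_re, Complex.re_ofReal_mul]
  simp only [Complex.ofReal_re] at hC
  simp only [hC, ← Complex.re_sum, Finset.sum_sub_distrib, main, Finset.sum_const,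
    Finset.card_univ, Fintype.card_fin, nsmul_eq_mul, ← hs]
  norm_num
  ring

lemma ZeroTotal.add {F G : (Fin 6 → Fin 6 → ℂ) → ℝ} (hF : ZeroTotal F) (hG : ZeroTotal G) :
    ZeroTotal fun h => F h + G h := fun X hX => by
  simp [Finset.sum_add_distrib, hF X hX, hG X hX]

lemma ZeroTotal.smul {F : (Fin 6 → Fin 6 → ℂ) → ℝ} (hF : ZeroTotal F) (c : ℝ) :
    ZeroTotal fun h => c * F h := fun X hX => by simp [← Finset.mul_sum, hF X hX]

lemma zeroTotal_sum {ι : Type*} (s : Finset ι) (F : ι → (Fin 6 → Fin 6 → ℂ) → ℝ)
    (hF : ∀ i ∈ s, ZeroTotal (F i)) : ZeroTotal fun h => ∑ i ∈ s, F i h := fun X hX => by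
  rw [Finset.sum_congr rfl fun q _ => Finset.sum_comm (s := Finset.univ) (t := s), Finset.sum_comm]
  exact Finset.sum_eq_zero fun i hi => hF i hi X hX

/-- the transposed complete set -/
noncomputable def dual (X : Fin 6 → Fin 6 → Fin 6 → ℂ) : Fin 6 → Fin 6 → Fin 6 → ℂ :=
  Fin.cons (fun a i => X 0 i a) fun q a k => conj (yv (H0 X) (X q.succ a) k)

lemma yv_dot (hH : IsHad H) (u v : Fin 6 → ℂ) :
    ∑ k, yv H u k * conj (yv H v k) = ∑ i, u i * conj (v i) := by
  simp only [yv, map_mul, map_sum, conj_cst, Complex.conj_conj, Finset.mul_sum, Finset.sum_mul]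
  rw [Finset.sum_comm]
  refine (Finset.sum_congr rfl fun j _ => Finset.sum_comm).trans ?_
  rw [Finset.sum_comm]
  refine Finset.sum_congr rfl fun i _ => ?_
  have e : ∀ j, ∑ k, cst * (conj (H i k) * u i) * (cst * (H j k * conj (v j)))
      = (1 / 6) * (u i * conj (v j)) * ∑ k, H j k * conj (H i k) := fun j => by
    rw [Finset.mul_sum]
    exact Finset.sum_congr rfl fun k _ => by
      linear_combination (conj (H i k) * u i * (H j k * conj (v j))) * cst_mul_cst
  simp only [e, hH.row, mul_ite, mul_zero, Finset.sum_ite_eq', Finset.mem_univ, if_true]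
  ring

lemma sum_H_yv (hH : IsHad H) (u : Fin 6 → ℂ) (l : Fin 6) :
    ∑ k, H l k * yv H u k = 6 * cst * u l := by
  simp only [yv, Finset.mul_sum]
  rw [Finset.sum_comm]
  have e : ∀ j, ∑ k, H l k * (cst * (conj (H j k) * u j))
      = cst * u j * ∑ k, H l k * conj (H j k) := fun j => by
    rw [Finset.mul_sum]; exact Finset.sum_congr rfl fun k _ => by ring
  simp only [e, hH.row, mul_ite, mul_zero, Finset.sum_ite_eq, Finset.mem_univ, if_true]
  ring

lemma complete_dual (hX : Complete X) : Complete (dual X) := by
  have hH := isHad_H0 hX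
  have h6 : ∀ (q : Fin 5) (a b : Fin 6),
      ‖∑ i, X 0 i a * yv (H0 X) (X q.succ b) i‖ ^ 2 = 6 := fun q a b => by
    rw [show ∑ i, X 0 i a * yv (H0 X) (X q.succ b) i = 6 * cst * X q.succ b a from
      sum_H_yv hH _ a, norm_mul, mul_pow, six_cst, Complex.norm_real, Real.norm_eq_abs, sq_abs,
      Real.sq_sqrt (by norm_num), hX.unimod]
    norm_num
  refine ⟨fun p => ?_, fun p => ?_, fun p => ?_⟩
  · induction p using Fin.cases with
    | zero => exact fun a i => by simp only [dual, Fin.cons_zero]; exact hX.unimod 0 i a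
    | succ q =>
      intro a i
      simp only [dual, Fin.cons_succ, Complex.norm_conj]
      exact yv_unimod (hy_H0 hX q a) i
  · induction p using Fin.cases with
    | zero =>
      intro a b hab
      simp only [dual, Fin.cons_zero]
      exact (hH.row a b).trans (if_neg hab)
    | succ q =>
      intro a b hab
      simp only [dual, Fin.cons_succ]
      refine Eq.trans ?_ ((yv_dot hH (X q.succ b) (X q.succ a)).trans
        (hX.orth q.succ b a (Ne.symm hab)))
      exact Finset.sum_congr rfl fun k _ => by rw [Complex.conj_conj, mul_comm]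
  · intro q' a b hne
    induction p using Fin.cases with
    | zero =>
      induction q' using Fin.cases with
      | zero => exact absurd rfl hne
      | succ q =>
        simp only [dual, Fin.cons_zero, Fin.cons_succ, Complex.conj_conj]
        exact h6 q a b
    | succ q =>
      induction q' using Fin.cases with
      | zero =>
        simp only [dual, Fin.cons_zero, Fin.cons_succ]
        rw [← h6 q b a, ← Complex.norm_conj]
        congr 2
        simp [mul_comm]
      | succ r =>
        simp only [dual, Fin.cons_succ]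
        rw [← hX.unbiased q.succ r.succ a b hne,
          ← (yv_dot hH (X q.succ a) (X r.succ b)), ← Complex.norm_conj]
        congr 2
        simp

lemma hmat_dual (hX : Complete X) (q : Fin 5) (a : Fin 6) :
    hmat (H0 (dual X)) (dual X q.succ a) = fun l k => hmat (H0 X) (X q.succ a) k l := by
  funext l k
  have hy : yv (H0 (dual X)) (dual X q.succ a) k = conj (X q.succ a k) := by
    simp only [dual, yv, H0, Fin.cons_zero, Fin.cons_succ]
    have := congrArg (starRingEnd ℂ) (sum_H_yv (isHad_H0 hX) (X q.succ a) k)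
    simp only [map_sum, map_mul, conj_cst, map_ofNat, H0, yv] at this
    simp only [map_mul, map_sum, conj_cst] at this ⊢
    rw [this]
    linear_combination (6 * conj (X q.succ a k)) * cst_mul_cst
  simp only [hmat, hy]
  simp only [dual, H0, Fin.cons_zero, Fin.cons_succ, Complex.conj_conj]
  ring

/-- transposition keeps zero totals -/
theorem ZeroTotal.transpose {F : (Fin 6 → Fin 6 → ℂ) → ℝ} (hF : ZeroTotal F) :
    ZeroTotal fun h => F fun l k => h k l := fun X hX => by
  rw [← hF (dual X) (complete_dual hX)]
  simp only [hmat_dual hX]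

/-- a functional of zero total that is negative on regular Hadamard matrices excludes complete
sets -/
theorem not_complete_of_zeroTotal {F : (Fin 6 → Fin 6 → ℂ) → ℝ} (hF : ZeroTotal F)
    (hneg : ∀ h, InM h → F h < 0) (hX : Complete X) : False := by
  have h0 := hF X hX
  have : ∑ q : Fin 5, ∑ a : Fin 6, F (hmat (H0 X) (X q.succ a)) < 0 :=
    Finset.sum_neg (fun q _ => Finset.sum_neg (fun a _ => hneg _ (inM_H0 hX q a))
      Finset.univ_nonempty) Finset.univ_nonempty
  linarith

/-- the six coordinate systems read in the basis `B 0` form a complete set -/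
theorem complete_seven (B : Fin 7 → OrthonormalBasis (Fin 6) ℂ (EuclideanSpace ℂ (Fin 6)))
    (hB : ∀ p q, p ≠ q → ∀ a b, ‖⟪B p a, B q b⟫_ℂ‖ ^ 2 = 1 / 6) :
    Complete fun p a i => (Real.sqrt 6 : ℂ) * ⟪B 0 i, B p.succ a⟫_ℂ := by
  set X : Fin 6 → Fin 6 → Fin 6 → ℂ :=
    fun p a i => (Real.sqrt 6 : ℂ) * ⟪B 0 i, B p.succ a⟫_ℂ with hXdef
  have h6 : (Real.sqrt 6 : ℂ) * (Real.sqrt 6 : ℂ) = 6 := by
    rw [← Complex.ofReal_mul, Real.mul_self_sqrt (by norm_num)]; norm_num
  have key : ∀ p q a b, ∑ i, X p a i * conj (X q b i) = 6 * ⟪B q.succ b, B p.succ a⟫_ℂ := by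
    intro p q a b
    rw [← (B 0).sum_inner_mul_inner, Finset.mul_sum]
    refine Finset.sum_congr rfl fun i _ => ?_
    simp only [hXdef, map_mul, Complex.conj_ofReal, inner_conj_symm]
    linear_combination (⟪B 0 i, B p.succ a⟫_ℂ * ⟪B q.succ b, B 0 i⟫_ℂ) * h6
  refine ⟨fun p a i => ?_, fun p a b hab => ?_, fun p q a b hpq => ?_⟩
  · have h := hB 0 p.succ (Fin.succ_ne_zero p).symm i a
    have h1 : ‖X p a i‖ ^ 2 = 1 := by
      simp only [hXdef, norm_mul, mul_pow, h, Complex.norm_real, Real.norm_eq_abs, sq_abs]
      rw [Real.sq_sqrt (by norm_num)]; norm_num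
    exact (sq_eq_one_iff.mp h1).resolve_right (by linarith [norm_nonneg (X p a i)])
  · rw [key, (B p.succ).inner_eq_ite, if_neg (Ne.symm hab), mul_zero]
  · rw [key, norm_mul, mul_pow, hB q.succ p.succ (fun e => hpq (Fin.succ_injective _ e).symm) b a]
    norm_num

/-- seven pairwise unbiased bases give a complete set -/
theorem exists_complete (B : Fin 7 → OrthonormalBasis (Fin 6) ℂ (EuclideanSpace ℂ (Fin 6)))
    (hB : ∀ p q, p ≠ q → ∀ a b, ‖⟪B p a, B q b⟫_ℂ‖ ^ 2 = 1 / 6) :
    ∃ X : Fin 6 → Fin 6 → Fin 6 → ℂ, Complete X :=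
  ⟨_, complete_seven B hB⟩

/-- at most five pairwise unbiased bases, from a zero total functional negative after adding its
transpose -/
theorem card_le_five_of_zeroTotal {F : (Fin 6 → Fin 6 → ℂ) → ℝ} (hF : ZeroTotal F)
    (hneg : ∀ h, InM h → F h + F (fun l k => h k l) < 0) (n : ℕ)
    (B : Fin n → OrthonormalBasis (Fin 6) ℂ (EuclideanSpace ℂ (Fin 6)))
    (hB : ∀ p q, p ≠ q → ∀ a b, ‖⟪B p a, B q b⟫_ℂ‖ ^ 2 = 1 / 6) : n ≤ 5 :=
  Weiner.card_le_five_of_no_seven (fun C hC =>
    let ⟨_, hX⟩ := exists_complete C hC
    not_complete_of_zeroTotal (hF.add hF.transpose) hneg hX) n B hB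

end Vale.Agent.P355.Cert.ZeroTotal
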