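import Vale.Agent.P355.Cert.Main
import Vale.Agent.P355.Cert.ZeroTotal

/-!
P355: a weighted sum of zero-total functionals, symmetrised, as packed terms of the certificate, so
that the inequality proved by the certificate bounds the number of unbiased bases by five.
-/

open scoped InnerProductSpace

namespace Vale.Agent.P355.Cert.TotalBridge

open ZeroTotal

/-- a weighted symmetrised moment: `z` times a power `s` of the inverse root of six -/
structure Item where
  z : ℤ
  s : ℕ
  D : Dg
deriving DecidableEq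

variable {h : Fin 6 → Fin 6 → ℂ}

/-- the value of an item -/
noncomputable def Item.val (h : Fin 6 → Fin 6 → ℂ) (x : Item) : ℝ :=
  (x.z : ℝ) * (Real.sqrt 6)⁻¹ ^ x.s * momS h x.D

/-- the correction list of a placement -/
def termsD (S : Spec) : List (ℤ × Dg) := S.terms.getD []

/-- the items of thirty times one weighted functional -/
def items₁ (p : Spec × ℤ) : List Item :=
  ⟨30 * p.2, 0, p.1.D⟩ ::
    (termsD p.1).map fun t => ⟨-(p.2 * t.1), p.1.AC.length + p.1.BC.length, t.2⟩

/-- the items of a weighted list -/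
def items (ps : List (Spec × ℤ)) : List Item := ps.flatMap items₁

/-- every placement in the list has its corrections -/
def specsOk (ps : List (Spec × ℤ)) : Bool := ps.all fun p => p.1.terms.isSome

/-- the weighted sum of the functionals -/
noncomputable def total (ps : List (Spec × ℤ)) (h : Fin 6 → Fin 6 → ℂ) : ℝ :=
  (ps.map fun p => (p.2 : ℝ) * feat p.1 (termsD p.1) h).sum

lemma zeroTotal_total : ∀ {ps : List (Spec × ℤ)}, specsOk ps = true → ZeroTotal (total ps)
  | [], _ => fun X _ => by simp [total]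
  | p :: ps, hok => by
    simp only [specsOk, List.all_cons, Bool.and_eq_true, Option.isSome_iff_exists] at hok
    obtain ⟨⟨L, hL⟩, hok⟩ := hok
    have hps : specsOk ps = true := by
      simpa [specsOk, List.all_eq_true, Option.isSome_iff_exists] using hok
    have h1 := (zeroTotal_feat p.1 L hL).smul (p.2 : ℝ)
    have e : total (p :: ps) = fun h => (p.2 : ℝ) * feat p.1 L h + total ps h := by
      funext h
      simp [total, termsD, hL]
    rw [e]
    exact h1.add (zeroTotal_total hps)

lemma list_sum_items (p : Spec × ℤ) :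
    30 * ((p.2 : ℝ) * (feat p.1 (termsD p.1) h + feat p.1 (termsD p.1) (fun l k => h k l)))
      = ((items₁ p).map (Item.val h)).sum := by
  have hl : ∀ L : List (ℤ × Dg), ((L.map fun t =>
      (⟨-(p.2 * t.1), p.1.AC.length + p.1.BC.length, t.2⟩ : Item)).map (Item.val h)).sum
      = -((p.2 : ℝ) * (Real.sqrt 6)⁻¹ ^ (p.1.AC.length + p.1.BC.length) *
        ((L.map fun t => (t.1 : ℝ) * mom h t.2).sum
          + (L.map fun t => (t.1 : ℝ) * mom (fun l k => h k l) t.2).sum)) := by
    intro L
    induction L with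
    | nil => simp
    | cons t L ih =>
      simp only [List.map_cons, List.sum_cons, ih, Item.val, momS]
      push_cast
      ring
  simp only [items₁, List.map_cons, List.sum_cons, hl, Item.val, feat, Spec.scale, momS]
  push_cast
  ring

lemma total_items : ∀ ps : List (Spec × ℤ),
    30 * (total ps h + total ps (fun l k => h k l)) = ((items ps).map (Item.val h)).sum
  | [] => by simp [total, items]
  | p :: ps => by
    have e : items (p :: ps) = items₁ p ++ items ps := by simp [items]
    rw [e, List.map_append, List.sum_append, ← list_sum_items p, ← total_items ps]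
    simp only [total, List.map_cons, List.sum_cons]
    ring

/-- a term represents an item, up to the factor `√6 ^ Q` and the sign -/
def matchT (Q : ℕ) (sgn : ℤ) (x : Item) (t : Main.Term) : Bool :=
  decide (x.z = sgn * (t.w : ℤ)) && decide (∀ e ∈ x.D.edges, e.row < x.D.nr ∧ e.col < x.D.nc) &&
    decide (x.D.nr ≤ 6) && decide (x.D.nc ≤ 6) &&
      decide (t.e + x.s + 2 * ((6 - x.D.nr) + (6 - x.D.nc)) = Q) && sameExpo t.P x.D

/-- terms represent items in order -/
def matchL (Q : ℕ) (sgn : ℤ) : List Item → List Main.Term → Bool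
  | [], [] => true
  | x :: xs, t :: ts => matchT Q sgn x t && matchL Q sgn xs ts
  | _, _ => false

lemma matchT_val (hh : InM h) {Q : ℕ} {sgn : ℤ} {x : Item} {t : Main.Term}
    (hm : matchT Q sgn x t = true) : Real.sqrt 6 ^ Q * x.val h = (sgn : ℝ) * t.val h := by
  simp only [matchT, Bool.and_eq_true, decide_eq_true_eq] at hm
  obtain ⟨⟨⟨⟨⟨hz, hwf⟩, hr⟩, hc⟩, hQ⟩, hs⟩ := hm
  rw [t.val_dg hh x.D hwf hr hc hs, Item.val, hz, ← hQ]
  have h2 : Real.sqrt 6 ^ (2 : ℕ) = 6 := Real.sq_sqrt (by norm_num)
  have h6 : Real.sqrt 6 ≠ 0 := Real.sqrt_ne_zero'.mpr (by norm_num)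
  have hs' : Real.sqrt 6 ^ x.s * (Real.sqrt 6)⁻¹ ^ x.s = 1 := by
    rw [← mul_pow, mul_inv_cancel₀ h6, one_pow]
  rw [pow_add, pow_add, pow_mul, h2, pow_add]
  push_cast
  linear_combination ((sgn : ℝ) * (t.w : ℝ) * Real.sqrt 6 ^ t.e * momS h x.D *
    ((6 : ℝ) ^ (6 - x.D.nr) * 6 ^ (6 - x.D.nc))) * hs'

lemma matchL_val (hh : InM h) {Q : ℕ} {sgn : ℤ} : ∀ {xs : List Item} {ts : List Main.Term},
    matchL Q sgn xs ts = true →
      Real.sqrt 6 ^ Q * (xs.map (Item.val h)).sum = (sgn : ℝ) * (ts.map (Main.Term.val h)).sum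
  | [], [], _ => by simp
  | [], _ :: _, hm => absurd hm (by simp [matchL])
  | _ :: _, [], hm => absurd hm (by simp [matchL])
  | x :: xs, t :: ts, hm => by
    simp only [matchL, Bool.and_eq_true] at hm
    simp only [List.map_cons, List.sum_cons, mul_add, matchT_val hh hm.1, matchL_val hh hm.2]

/-- The packed terms are the weighted sum: if they are negative on every regular Hadamard matrix,
at most five pairwise unbiased bases exist. -/
theorem card_le_five {ps : List (Spec × ℤ)} (hok : specsOk ps = true) {Q : ℕ}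
    {posI negI : List Item} (hperm : (posI ++ negI).isPerm (items ps) = true)
    {pos neg : List Main.Term} (hp : matchL Q 1 posI pos = true) (hn : matchL Q (-1) negI neg = true)
    (hlt : ∀ h, InM h → (pos.map (Main.Term.val h)).sum < (neg.map (Main.Term.val h)).sum) (n : ℕ)
    (B : Fin n → OrthonormalBasis (Fin 6) ℂ (EuclideanSpace ℂ (Fin 6)))
    (hB : ∀ p q, p ≠ q → ∀ a b, ‖⟪B p a, B q b⟫_ℂ‖ ^ 2 = 1 / 6) : n ≤ 5 := by
  refine card_le_five_of_zeroTotal (zeroTotal_total hok) (fun h hh => ?_) n B hB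
  have e1 := matchL_val hh hp
  have e2 := matchL_val hh hn
  have e := total_items (h := h) ps
  rw [← ((List.isPerm_iff.mp hperm).map (Item.val h)).sum_eq, List.map_append, List.sum_append] at e
  have hlt' := hlt h hh
  have hQ : (0 : ℝ) < Real.sqrt 6 ^ Q := pow_pos (Real.sqrt_pos.mpr (by norm_num)) Q
  push_cast at e1 e2
  by_contra hF
  have h0 : 0 ≤ Real.sqrt 6 ^ Q * ((posI.map (Item.val h)).sum + (negI.map (Item.val h)).sum) := by
    rw [← e]
    exact mul_nonneg hQ.le (by linarith [not_lt.mp hF])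
  rw [mul_add, e1, e2] at h0
  linarith

/-- placement for the seven functionals: the diagrams of two rows and two columns -/
def sq (a b c d : ℤ) : Dg :=
  ⟨2, 2, [(⟨0, 0, a⟩ : Edge), ⟨0, 1, b⟩, ⟨1, 0, c⟩, ⟨1, 1, d⟩].filter fun e => e.expo != 0⟩

/-- the seven placements that span the zero totals of degree eight -/
def basicSpecs : List Spec :=
  [⟨sq 3 (-1) (-2) 2, [], [0, 0], [0, 1], []⟩,
   ⟨sq 3 (-2) (-2) 1, [1], [0], [0], [1]⟩,
   ⟨sq 2 (-1) (-2) 2, [], [0], [1], []⟩,
   ⟨sq 2 0 (-2) 2, [], [0, 0], [1, 1], []⟩,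
   ⟨sq 2 (-1) (-1) 2, [], [0, 1], [0, 1], []⟩,
   ⟨⟨2, 1, [⟨0, 0, 2⟩, ⟨1, 0, -2⟩]⟩, [1, 1], [0, 0], [], []⟩,
   ⟨⟨1, 1, [⟨0, 0, 2⟩]⟩, [], [0, 0], [0, 0], []⟩]

/-- their corrections exist and all their diagrams fit the six by six table -/
theorem basicSpecs_ok : (basicSpecs.all fun S => (items₁ (S, 1)).all fun x =>
    S.terms.isSome && decide (x.D.nr ≤ 6) && decide (x.D.nc ≤ 6)) = true := by
  decide +kernel

end Vale.Agent.P355.Cert.TotalBridge
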